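import Vale.Agent.Lib.P133.Defs

/-!
# P133, module Quo: quotients and `(h - ε)_+`

* `exists_quot`: `F = E ⧸ R`, `π = P101.quotMk R` (instances from `hR`); the norm of `π x` is the distance to `R`
  (`P101.quot_exists_lift`, `P101.quot_norm_mk_le` in P101/Quot.lean).
* `pi_cfc`: `StarAlgHomClass.map_cfc` (`π` is continuous: contractive *-homomorphisms, `StarAlgHom.norm_apply_le` or
  `NonUnitalStarAlgHom.norm_apply_le`).
* `cid_cut`: with `π` as in `exists_quot`: `‖π h‖ = ‖π (h - y)‖ ≤ ε`, so `cut ε (π h) = 0`.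
* `cid_her`, `cid_star_mul`, ...: pass to the quotient.
* `cid_cfc`: `f 0 = 0`: `π (cfc f y) = cfc f 0 = 0`.
-/

open scoped Topology

namespace P133

universe u

attribute [local instance] CStarAlgebra.spectralOrder CStarAlgebra.spectralOrderedRing

variable {E : Type u} [CStarAlgebra E]

theorem exists_quot {R : Ideal E} (hR : CId R) :
    ∃ (F : Type u) (_ : CStarAlgebra F) (π : E →⋆ₐ[ℂ] F), (∀ x, π x = 0 ↔ x ∈ R) ∧
      ∀ (x : E) (ν : ℝ), ν ≤ ‖π x‖ ↔ ∀ y ∈ R, ν ≤ ‖x - y‖ := by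
  have h1 := hR.two
  have h2 := hR.closed
  refine ⟨E ⧸ R, P101.quotCStarAlgebra R, P101.quotMk R, P101.quotMk_eq_zero_iff R,
    fun x ν => ⟨fun h y hy => ?_, fun h => ?_⟩⟩
  · have e : P101.quotMk R x = Ideal.Quotient.mk R (x - y) := by
      change Ideal.Quotient.mk R x = Ideal.Quotient.mk R (x - y)
      rw [Ideal.Quotient.eq, sub_sub_cancel]
      exact hy
    rw [e] at h
    exact h.trans (P101.quot_norm_mk_le R (x - y))
  · by_contra hlt
    rw [not_le] at hlt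
    obtain ⟨a, ha, han⟩ := P101.quot_exists_lift R (P101.quotMk R x) (sub_pos.2 hlt)
    have hy : x - a ∈ R := by
      rw [← Ideal.Quotient.eq, ha]
      rfl
    have h3 := h _ hy
    rw [sub_sub_cancel] at h3
    have e : ‖P101.quotMk R x‖ + (ν - ‖P101.quotMk R x‖) = ν := by ring
    rw [e] at han
    linarith

theorem pi_norm {F : Type u} [CStarAlgebra F] (π : E →⋆ₐ[ℂ] F) (x : E) : ‖π x‖ ≤ ‖x‖ :=
  NonUnitalStarAlgHom.norm_apply_le π x

theorem pi_nonneg {F : Type u} [CStarAlgebra F] (π : E →⋆ₐ[ℂ] F) {x : E} (hx : 0 ≤ x) :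
    0 ≤ π x := by
  obtain ⟨c, rfl⟩ := CStarAlgebra.nonneg_iff_eq_star_mul_self.1 hx
  rw [map_mul, map_star]
  exact star_mul_self_nonneg _

theorem pi_mono {F : Type u} [CStarAlgebra F] (π : E →⋆ₐ[ℂ] F) {x y : E} (hx : x ≤ y) :
    π x ≤ π y := by
  rw [← sub_nonneg, ← map_sub]
  exact pi_nonneg π (sub_nonneg.2 hx)

theorem pi_cfc {F : Type u} [CStarAlgebra F] (π : E →⋆ₐ[ℂ] F) {y : E} (hy : IsSelfAdjoint y)
    {f : ℝ → ℝ} (hf : Continuous f) : π (cfc f y) = cfc f (π y) := by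
  have hc : Continuous π := AddMonoidHomClass.continuous_of_bound π 1 fun x => by
    rw [one_mul]
    exact pi_norm π x
  have h2 : IsSelfAdjoint (π y) := hy.map π
  exact StarAlgHomClass.map_cfc (S := ℂ) π f y hf.continuousOn hc hy h2

theorem continuous_cutf (ε : ℝ) : Continuous fun t : ℝ => max (t - ε) 0 := by
  fun_prop

theorem cut_nonneg (ε : ℝ) (h : E) : 0 ≤ cut ε h :=
  cfc_nonneg fun _ _ => le_max_right _ _

/-- the spectrum of a positive element -/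
private theorem Quo_spec {h : E} (h0 : 0 ≤ h) {t : ℝ} (ht : t ∈ spectrum ℝ h) :
    0 ≤ t ∧ t ≤ ‖h‖ := by
  refine ⟨spectrum_nonneg_of_nonneg h0 ht, ?_⟩
  have h1 := norm_apply_le_norm_cfc (fun s : ℝ => s) h ht (by fun_prop) h0.isSelfAdjoint
  rw [cfc_id' ℝ h h0.isSelfAdjoint] at h1
  exact (le_abs_self t).trans h1

theorem norm_sub_cut {h : E} (h0 : 0 ≤ h) {ε : ℝ} (hε : 0 ≤ ε) : ‖h - cut ε h‖ ≤ ε := by
  have e : h - cut ε h = cfc (fun t : ℝ => t - max (t - ε) 0) h := by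
    rw [cfc_sub (fun t : ℝ => t) (fun t : ℝ => max (t - ε) 0) h (by fun_prop) (by fun_prop),
      cfc_id' ℝ h h0.isSelfAdjoint]
    rfl
  rw [e]
  refine norm_cfc_le hε fun t ht => ?_
  obtain ⟨h1, -⟩ := Quo_spec h0 ht
  rw [Real.norm_eq_abs, abs_le]
  rcases le_total (t - ε) 0 with h2 | h2
  · rw [max_eq_right h2]
    constructor <;> linarith
  · rw [max_eq_left h2]
    constructor <;> linarith

theorem cut_eq_zero {h : E} (h0 : 0 ≤ h) {ε : ℝ} (hε : ‖h‖ ≤ ε) : cut ε h = 0 := by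
  have e : cut ε h = cfc (fun _ : ℝ => (0 : ℝ)) h := by
    refine cfc_congr fun t ht => ?_
    obtain ⟨-, h1⟩ := Quo_spec h0 ht
    exact max_eq_right (by linarith)
  rw [e, cfc_const_zero]

theorem cut_ne_zero {h : E} (h0 : 0 ≤ h) {ε : ℝ} (hε0 : 0 ≤ ε) (hε : ε < ‖h‖) :
    cut ε h ≠ 0 := by
  intro h1
  have h2 := norm_sub_cut h0 hε0
  rw [h1, sub_zero] at h2
  linarith

theorem norm_cut_le {h : E} (h0 : 0 ≤ h) {ε : ℝ} (hε : 0 ≤ ε) : ‖cut ε h‖ ≤ ‖h‖ := by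
  refine norm_cfc_le (norm_nonneg h) fun t ht => ?_
  obtain ⟨h1, h2⟩ := Quo_spec h0 ht
  rw [Real.norm_eq_abs, abs_of_nonneg (le_max_right _ _)]
  exact max_le (by linarith) (norm_nonneg h)

theorem cid_cut {R : Ideal E} (hR : CId R) {h y : E} (h0 : 0 ≤ h) (hy : y ∈ R) {ε : ℝ}
    (hε : ‖h - y‖ ≤ ε) : cut ε h ∈ R := by
  obtain ⟨F, instF, π, hπ, -⟩ := exists_quot hR
  rw [← hπ, cut, pi_cfc π h0.isSelfAdjoint (continuous_cutf ε)]
  refine cut_eq_zero (pi_nonneg π h0) ?_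
  have e : π h = π (h - y) := by rw [map_sub, (hπ y).2 hy, sub_zero]
  rw [e]
  exact (pi_norm π _).trans hε

theorem cid_her {R : Ideal E} (hR : CId R) {x y : E} (hx : 0 ≤ x) (hxy : x ≤ y) (hy : y ∈ R) :
    x ∈ R := by
  obtain ⟨F, instF, π, hπ, -⟩ := exists_quot hR
  rw [← hπ]
  have h1 := pi_mono π hxy
  rw [(hπ y).2 hy] at h1
  exact le_antisymm h1 (pi_nonneg π hx)

theorem cid_of_star_mul {R : Ideal E} (hR : CId R) {x : E} (hx : star x * x ∈ R) : x ∈ R := by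
  obtain ⟨F, instF, π, hπ, -⟩ := exists_quot hR
  rw [← hπ, map_mul, map_star] at hx
  rw [← hπ]
  exact CStarRing.star_mul_self_eq_zero_iff _ |>.1 hx

theorem cid_of_mul_star {R : Ideal E} (hR : CId R) {x : E} (hx : x * star x ∈ R) : x ∈ R := by
  obtain ⟨F, instF, π, hπ, -⟩ := exists_quot hR
  rw [← hπ, map_mul, map_star] at hx
  rw [← hπ]
  exact CStarRing.mul_star_self_eq_zero_iff _ |>.1 hx

theorem cid_star {R : Ideal E} (hR : CId R) {x : E} (hx : x ∈ R) : star x ∈ R := by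
  obtain ⟨F, instF, π, hπ, -⟩ := exists_quot hR
  rw [← hπ, map_star, (hπ x).2 hx, star_zero]

theorem cid_mul_right {R : Ideal E} (hR : CId R) {x : E} (hx : x ∈ R) (z : E) : x * z ∈ R := by
  have := hR.two
  exact R.mul_mem_right z hx

theorem cid_cfc {R : Ideal E} (hR : CId R) {y : E} (hs : IsSelfAdjoint y) (hy : y ∈ R)
    {f : ℝ → ℝ} (hf : Continuous f) (hf0 : f 0 = 0) : cfc f y ∈ R := by
  obtain ⟨F, instF, π, hπ, -⟩ := exists_quot hR
  rw [← hπ, pi_cfc π hs hf, (hπ y).2 hy, cfc_apply_zero, hf0, map_zero]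

theorem cid_inf {R S : Ideal E} (hR : CId R) (hS : CId S) : CId (R ⊓ S) where
  two := by
    have h1 := hR.two
    have h2 := hS.two
    exact ⟨fun {a} b ha => ⟨R.mul_mem_right b ha.1, S.mul_mem_right b ha.2⟩⟩
  closed := hR.closed.inter hS.closed

theorem cut_not_mem {R : Ideal E} (hR : CId R) {c : E} (hc : 0 ≤ c) {ν γ : ℝ} (hγ : 0 ≤ γ)
    (hγν : γ < ν) (h : ∀ y ∈ R, ν ≤ ‖c - y‖) : cut γ c ∉ R := by
  intro h1
  have h2 := (h _ h1).trans (norm_sub_cut hc hγ)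
  linarith

end P133
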