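import Vale.Agent.Lib.P133.Her
import Vale.Agent.Lib.P133.Quo

/-!
# P133, module Sep: separation of an ideal from finitely many primes, and the cut-down lemma

* `prime_quot`: `PrimeI` and `π x = 0 ↔ x ∈ R` give `PrimeAt`.
* `exists_sep_one`: `S` prime, `¬ R ≤ S`, `x ∉ S`, `x ∈ P`: take `r ∈ R`, `r ∉ S` (`r ∈ P` since `R ≤ P`), primeness gives `a` with
  `x * a * r ∉ S`; `κ = (a r) * star (a r) ∈ R` (two-sided, `cid_star`), `x κ x = (x a r) * star (x a r) ∉ S` (`cid_of_mul_star`).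
* `exists_sep`: sum the `κ`'s of `exists_sep_one` over `S ∈ T` and over the two elements `x, y` (if outside `S`):
  `κ' ≤ κ` gives `x κ' x ≤ x κ x`, `cid_her`; scale the norm to `≤ 1`.
* `cut_lemma`: `m = c * star d * d * c ∈ R`, `0 ≤ m`, `ψ = (1 + K m)⁻¹ = cfc (fun t => 1 / (1 + K t)) m`, `w = ψ * ψ`;
  `1 - ψ = K m ψ ∈ R`, `‖d c ψ‖² = ‖ψ m ψ‖ ≤ sup t / (1 + K t)² ≤ 1 / K`, `d (c w c) = (d c ψ) (ψ c)`; `K = 1 / θ²`.
-/

open scoped Topology

namespace P133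

universe u

attribute [local instance] CStarAlgebra.spectralOrder CStarAlgebra.spectralOrderedRing

variable {E F : Type u} [CStarAlgebra E] [CStarAlgebra F]

theorem prime_quot {P R : Ideal E} (h : PrimeI P R) (π : E →⋆ₐ[ℂ] F)
    (hπ : ∀ x, π x = 0 ↔ x ∈ R) : PrimeAt P π := by
  intro x hx y hy hxy
  rw [hπ, hπ]
  exact h x hx y hy fun a => (hπ _).1 (hxy a)

theorem exists_sep_one {P R S : Ideal E} (hR : CId R) (hRP : R ≤ P) (hS : CId S)
    (hSp : PrimeI P S) (hRS : ¬ R ≤ S) {x : E} (hx : x ∈ P) (h0 : 0 ≤ x) (hxS : x ∉ S) :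
    ∃ κ ∈ R, 0 ≤ κ ∧ x * κ * x ∉ S := by
  obtain ⟨r, hr, hrS⟩ := SetLike.not_le_iff_exists.1 hRS
  obtain ⟨a, ha⟩ : ∃ a, x * a * r ∉ S := by
    by_contra hcon
    push Not at hcon
    rcases hSp x hx r (hRP hr) hcon with h | h
    · exact hxS h
    · exact hrS h
  refine ⟨a * r * star (a * r), cid_mul_right hR (R.mul_mem_left a hr) _,
    mul_star_self_nonneg _, fun hmem => ha (cid_of_mul_star hS ?_)⟩
  have hs : star x = x := h0.isSelfAdjoint.star_eq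
  have e : x * a * r * star (x * a * r) = x * (a * r * star (a * r)) * x := by
    simp only [star_mul, hs, mul_assoc]
  rw [e]
  exact hmem

private theorem Sep_mono {S : Ideal E} (hS : CId S) {x κ κ' : E} (hx : 0 ≤ x) (hκ : 0 ≤ κ)
    (hle : κ ≤ κ') (h : x * κ * x ∉ S) : x * κ' * x ∉ S := by
  intro hmem
  have hsa : IsSelfAdjoint x := hx.isSelfAdjoint
  have h1 : 0 ≤ x * κ * x := by
    have := hsa.conjugate_le_conjugate hκ
    rwa [mul_zero, zero_mul] at this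
  exact h (cid_her hS h1 (hsa.conjugate_le_conjugate hle) hmem)

private theorem Sep_opt {P R S : Ideal E} (hR : CId R) (hRP : R ≤ P) (hS : CId S)
    (hSp : PrimeI P S) (hRS : ¬ R ≤ S) {x : E} (hx : x ∈ P) (h0 : 0 ≤ x) :
    ∃ κ ∈ R, 0 ≤ κ ∧ (x ∉ S → x * κ * x ∉ S) := by
  by_cases hxS : x ∈ S
  · exact ⟨0, R.zero_mem, le_rfl, fun h => absurd hxS h⟩
  · obtain ⟨κ, h1, h2, h3⟩ := exists_sep_one hR hRP hS hSp hRS hx h0 hxS
    exact ⟨κ, h1, h2, fun _ => h3⟩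

private theorem Sep_fin {P R : Ideal E} (hR : CId R) (hRP : R ≤ P) {x y : E} (hx : x ∈ P)
    (hy : y ∈ P) (hx0 : 0 ≤ x) (hy0 : 0 ≤ y) (T : Finset (Ideal E)) :
    (∀ S ∈ T, CId S ∧ PrimeI P S ∧ ¬ R ≤ S) → ∃ κ ∈ R, 0 ≤ κ ∧
      ∀ S ∈ T, (x ∉ S → x * κ * x ∉ S) ∧ (y ∉ S → y * κ * y ∉ S) := by
  classical
  induction T using Finset.induction_on with
  | empty => exact fun _ => ⟨0, R.zero_mem, le_rfl, fun S hS => absurd hS (Finset.notMem_empty S)⟩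
  | insert S T _ ih =>
    intro hT
    obtain ⟨κ, h1, h2, h3⟩ := ih fun S' hS' => hT S' (Finset.mem_insert_of_mem hS')
    obtain ⟨hS, hSp, hRS⟩ := hT S (Finset.mem_insert_self S T)
    obtain ⟨κx, a1, a2, a3⟩ := Sep_opt hR hRP hS hSp hRS hx hx0
    obtain ⟨κy, b1, b2, b3⟩ := Sep_opt hR hRP hS hSp hRS hy hy0
    refine ⟨κ + κx + κy, R.add_mem (R.add_mem h1 a1) b1, add_nonneg (add_nonneg h2 a2) b2, ?_⟩
    have l1 : κ ≤ κ + κx + κy := by
      rw [add_assoc]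
      exact le_add_of_nonneg_right (add_nonneg a2 b2)
    have l2 : κx ≤ κ + κx + κy := by
      have e : κ + κx + κy = κx + (κ + κy) := by abel
      rw [e]
      exact le_add_of_nonneg_right (add_nonneg h2 b2)
    have l3 : κy ≤ κ + κx + κy := le_add_of_nonneg_left (add_nonneg h2 a2)
    intro S' hS'
    obtain ⟨hS1, -, -⟩ := hT S' hS'
    rcases Finset.mem_insert.1 hS' with rfl | hmem
    · exact ⟨fun h => Sep_mono hS hx0 a2 l2 (a3 h), fun h => Sep_mono hS hy0 b2 l3 (b3 h)⟩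
    · obtain ⟨c1, c2⟩ := h3 S' hmem
      exact ⟨fun h => Sep_mono hS1 hx0 h2 l1 (c1 h), fun h => Sep_mono hS1 hy0 h2 l1 (c2 h)⟩

theorem exists_sep {P R : Ideal E} (hR : CId R) (hRP : R ≤ P) {T : Finset (Ideal E)}
    (hT : ∀ S ∈ T, CId S ∧ PrimeI P S ∧ ¬ R ≤ S) {x y : E} (hx : x ∈ P) (hy : y ∈ P)
    (hx0 : 0 ≤ x) (hy0 : 0 ≤ y) :
    ∃ κ ∈ R, 0 ≤ κ ∧ ‖κ‖ ≤ 1 ∧
      ∀ S ∈ T, (x ∉ S → x * κ * x ∉ S) ∧ (y ∉ S → y * κ * y ∉ S) := by
  obtain ⟨κ, h1, h2, h3⟩ := Sep_fin hR hRP hx hy hx0 hy0 T hT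
  obtain ⟨c, hc⟩ : ∃ c : ℝ, c = (‖κ‖ + 1)⁻¹ := ⟨_, rfl⟩
  have hn := norm_nonneg κ
  have hc0 : 0 < c := by rw [hc]; positivity
  have hsc : ∀ (S : Ideal E) (z : E), z * κ * z ∉ S → z * (c • κ) * z ∉ S := by
    intro S z hz hmem
    apply hz
    have h4 := S.smul_of_tower_mem c⁻¹ hmem
    rwa [mul_smul_comm, smul_mul_assoc, inv_smul_smul₀ hc0.ne'] at h4
  refine ⟨c • κ, R.smul_of_tower_mem c h1, smul_nonneg hc0.le h2, ?_, fun S hS => ?_⟩
  · rw [norm_smul, Real.norm_of_nonneg hc0.le, hc, inv_mul_le_iff₀ (by positivity)]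
    linarith
  · obtain ⟨d1, d2⟩ := h3 S hS
    exact ⟨fun h => hsc S x (d1 h), fun h => hsc S y (d2 h)⟩

theorem cut_lemma {R : Ideal E} (hR : CId R) {c d : E} (hc : 0 ≤ c) (hc1 : ‖c‖ ≤ 1)
    (hd : d ∈ R) {θ : ℝ} (hθ : 0 < θ) :
    ∃ w : E, 0 ≤ w ∧ ‖w‖ ≤ 1 ∧ 1 - w ∈ R ∧ ‖d * (c * w * c)‖ ≤ θ := by
  obtain ⟨K, hK⟩ : ∃ K : ℝ, K = 1 / θ ^ 2 := ⟨_, rfl⟩
  have hK0 : 0 < K := by rw [hK]; positivity
  have hcs : star c = c := hc.isSelfAdjoint.star_eq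
  obtain ⟨m, hm⟩ : ∃ m : E, m = c * star d * d * c := ⟨_, rfl⟩
  have hm' : m = star (d * c) * (d * c) := by
    rw [hm, star_mul, hcs]
    simp only [mul_assoc]
  have hm0 : 0 ≤ m := by
    rw [hm']
    exact star_mul_self_nonneg _
  have hmR : m ∈ R := by
    rw [hm']
    exact R.mul_mem_left _ (cid_mul_right hR hd c)
  have hmsa : IsSelfAdjoint m := hm0.isSelfAdjoint
  have hpos : ∀ t : ℝ, 0 < 1 + K * |t| := fun t => by positivity
  have hf : Continuous fun t : ℝ => 1 / (1 + K * |t|) :=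
    Continuous.div (by fun_prop) (by fun_prop) fun t => (hpos t).ne'
  obtain ⟨ψ, hψ⟩ : ∃ ψ : E, ψ = cfc (fun t : ℝ => 1 / (1 + K * |t|)) m := ⟨_, rfl⟩
  have hψsa : IsSelfAdjoint ψ := by
    rw [hψ]
    exact cfc_predicate _ m
  have hψ1 : ‖ψ‖ ≤ 1 := by
    rw [hψ]
    refine norm_cfc_le zero_le_one fun t _ => ?_
    have := hpos t
    rw [Real.norm_of_nonneg (by positivity), div_le_one (hpos t)]
    have : 0 ≤ K * |t| := by positivity
    linarith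
  have h1ψ : 1 - ψ ∈ R := by
    have e : 1 - ψ = cfc (fun t : ℝ => 1 - 1 / (1 + K * |t|)) m := by
      rw [cfc_sub (fun _ : ℝ => (1 : ℝ)) (fun t : ℝ => 1 / (1 + K * |t|)) m (by fun_prop)
        hf.continuousOn, cfc_const_one ℝ m, hψ]
    rw [e]
    exact cid_cfc hR hmsa hmR (continuous_const.sub hf) (by simp)
  have hψm : ψ * m * ψ = cfc (fun t : ℝ => 1 / (1 + K * |t|) * t * (1 / (1 + K * |t|))) m := by
    rw [cfc_mul (fun t : ℝ => 1 / (1 + K * |t|) * t) (fun t : ℝ => 1 / (1 + K * |t|)) m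
      (hf.continuousOn.mul continuousOn_id) hf.continuousOn,
      cfc_mul (fun t : ℝ => 1 / (1 + K * |t|)) (fun t : ℝ => t) m hf.continuousOn
        continuousOn_id, cfc_id' ℝ m, hψ]
  have hdcψ : ‖d * c * ψ‖ ≤ θ := by
    have h1 : ‖d * c * ψ‖ * ‖d * c * ψ‖ ≤ θ * θ := by
      rw [← CStarRing.norm_star_mul_self, star_mul, hψsa.star_eq, mul_assoc ψ,
        ← mul_assoc (star (d * c)), ← hm', ← mul_assoc, hψm]
      refine norm_cfc_le (by positivity) fun t ht => ?_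
      have ht0 : 0 ≤ t := spectrum_nonneg_of_nonneg hm0 ht
      have h2 := hpos t
      rw [abs_of_nonneg ht0] at h2 ⊢
      rw [Real.norm_of_nonneg (by positivity)]
      have e : 1 / (1 + K * t) * t * (1 / (1 + K * t)) = t / (1 + K * t) ^ 2 := by
        field_simp
      rw [e, div_le_iff₀ (by positivity)]
      have e2 : θ * θ * K = 1 := by
        rw [hK]
        field_simp
      have h3 : K * t ≤ (1 + K * t) ^ 2 := by nlinarith [mul_nonneg hK0.le ht0]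
      calc t = θ * θ * (K * t) := by rw [← mul_assoc, e2, one_mul]
        _ ≤ θ * θ * (1 + K * t) ^ 2 := mul_le_mul_of_nonneg_left h3 (by positivity)
    exact abs_le_of_sq_le_sq' (by nlinarith) hθ.le |>.2
  refine ⟨ψ * ψ, ?_, ?_, ?_, ?_⟩
  · have h1 := star_mul_self_nonneg ψ
    rwa [hψsa.star_eq] at h1
  · exact (norm_mul_le _ _).trans (mul_le_one₀ hψ1 (norm_nonneg _) hψ1)
  · have e : 1 - ψ * ψ = (1 - ψ) + ψ * (1 - ψ) := by
      rw [mul_sub, mul_one]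
      abel
    rw [e]
    exact R.add_mem h1ψ (R.mul_mem_left ψ h1ψ)
  · have e : d * (c * (ψ * ψ) * c) = d * c * ψ * (ψ * c) := by
      simp only [mul_assoc]
    rw [e]
    refine (norm_mul_le _ _).trans ?_
    have h1 : ‖ψ * c‖ ≤ 1 := (norm_mul_le _ _).trans (mul_le_one₀ hψ1 (norm_nonneg _) hc1)
    calc ‖d * c * ψ‖ * ‖ψ * c‖ ≤ θ * 1 :=
          mul_le_mul hdcψ h1 (norm_nonneg _) hθ.le
      _ = θ := mul_one θ

end P133
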