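import Vale.Agent.Lib.P133.Sq
import Vale.Agent.Lib.P133.Sep

/-!
# P133, module CombA: a square-zero element outside finitely many primes

`comb_step`: `x' ∈ R`, `x' ∈ Hr h`, `x' x' = 0`.  `a = star x' * x'`, `b = x' * star x'` (`a b = 0`), `f t = min (t / δ) 1`
(for `t ≥ 0`; e.g. `f t = max 0 (min (t / δ) 1)`), `g t = max (t - δ) 0` (so `f g = g` on `[0, ∞)`), `e = f(a) + f(b) ∈ R ∩ Hr h`,
`h'' = (1 - e) h (1 - e) = h - e h - h e + e h e ∈ Hr h`, `h'' - h ∈ R`, so `h'' ∉ R`: `exists_sq` for the quotient by `R`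
(`exists_quot`, `prime_quot`) gives `y ∈ Hr h''`, `y y = 0`, `y ∉ R`.  `x'' = g(b) * x'` satisfies `x'' x'' = 0`,
`(1 - e) x'' = 0` and `x'' (1 - e) = 0` (`g(b) x' = x' g(a)`), so `star x'' * y = 0`, `x'' y = 0`, `y x'' = 0`,
`star y * x'' = 0`; `x = x'' + y`.  `x x = 0`.  If `x ∈ S` then `star x'' * x = star x'' * x'' ∈ S`, `x'' ∈ S`; but for small
`δ` (finitely many `S`) `x'' ∉ S` (`g(b) x' → b x'`.. precisely `x'' → b x'` as `δ → 0` and `b x' ∉ S`, otherwise
`star (x') * b * x' = a * a ∈ S`, `a ∈ S`, `x' ∈ S`; the complement of `S` is open).  If `x ∈ R` then `y ∈ R`.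

`comb_sq`: induction on the number of elements of `T`: `R` maximal in `T` (`Finset.exists_maximal`), `T' = T.erase R`,
`¬ R ≤ S` for `S ∈ T'`; `κ` from `exists_sep` (`x = y = h`), `h' = h κ h ∈ R ∩ Hr h`, induction hypothesis for `h'`, `T'` gives
`x' ∈ Hr h' ⊆ Hr h`, `x' ∈ R`; `comb_step`.  `T = ∅`: `x = 0`.
-/

open scoped Topology

namespace P133

universe u

attribute [local instance] CStarAlgebra.spectralOrder CStarAlgebra.spectralOrderedRing

variable {E : Type u} [CStarAlgebra E]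

/-- left annihilation passes to the hereditary subalgebra -/
private theorem CombA_left {b z x : E} (h : x * b = 0) (hz : z ∈ Hr b) : x * z = 0 := by
  have h1 : Hr b ⊆ {z | x * z = 0} := by
    refine closure_minimal ?_ (isClosed_eq (by fun_prop) continuous_const)
    rintro _ ⟨w, rfl⟩
    change x * (b * w * b) = 0
    rw [← mul_assoc, ← mul_assoc, h, zero_mul, zero_mul]
  exact h1 hz

private theorem CombA_right {b z x : E} (h : b * x = 0) (hz : z ∈ Hr b) : z * x = 0 := by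
  have h1 : Hr b ⊆ {z | z * x = 0} := by
    refine closure_minimal ?_ (isClosed_eq (by fun_prop) continuous_const)
    rintro _ ⟨w, rfl⟩
    change b * w * b * x = 0
    rw [mul_assoc, h, mul_zero]
  exact h1 hz

/-- the plateau function -/
private noncomputable def CombA_f (δ t : ℝ) : ℝ := max 0 (min (t / δ) 1)

private theorem CombA_f_cont (δ : ℝ) : Continuous (CombA_f δ) := by
  unfold CombA_f
  fun_prop

private theorem CombA_f_zero (δ : ℝ) : CombA_f δ 0 = 0 := by
  simp [CombA_f]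

private theorem CombA_fg {a : E} (h0 : 0 ≤ a) {δ : ℝ} (hδ : 0 < δ) :
    cfc (CombA_f δ) a * cut δ a = cut δ a := by
  unfold cut
  rw [← cfc_mul (CombA_f δ) (fun t : ℝ => max (t - δ) 0) a (CombA_f_cont δ).continuousOn
    (continuous_cutf δ).continuousOn]
  refine cfc_congr fun t ht => ?_
  rcases le_total t δ with h1 | h1
  · have h2 : max (t - δ) 0 = 0 := max_eq_right (by linarith)
    simp only [h2, mul_zero]
  · have h2 : CombA_f δ t = 1 := by
      have h3 : 1 ≤ t / δ := (one_le_div hδ).2 h1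
      rw [CombA_f, min_eq_right h3, max_eq_right zero_le_one]
    simp only [h2, one_mul]

private theorem CombA_gf {a : E} (h0 : 0 ≤ a) {δ : ℝ} (hδ : 0 < δ) :
    cut δ a * cfc (CombA_f δ) a = cut δ a := by
  have h1 := CombA_fg h0 hδ
  have h2 := cfc_commute_cfc (CombA_f δ) (fun t : ℝ => max (t - δ) 0) a
  have h3 : cut δ a * cfc (CombA_f δ) a = cfc (CombA_f δ) a * cut δ a := h2.eq.symm
  rw [h3, h1]

private theorem CombA_tendsto {a : E} (h0 : 0 ≤ a) :
    Filter.Tendsto (fun δ : ℝ => cut δ a) (𝓝[>] 0) (𝓝 a) := by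
  rw [tendsto_iff_norm_sub_tendsto_zero]
  refine squeeze_zero' (Filter.Eventually.of_forall fun _ => norm_nonneg _)
    (g := fun δ : ℝ => δ) ?_ (Filter.Tendsto.mono_left Filter.tendsto_id nhdsWithin_le_nhds)
  filter_upwards [self_mem_nhdsWithin] with δ hδ
  rw [norm_sub_rev]
  exact norm_sub_cut h0 (le_of_lt hδ)

theorem comb_step {P : Ideal E} (hP : CId P) {n : ℕ} (hn : 1 ≤ n) (hW : WP P n) {R : Ideal E}
    (hR : CId R) (hRp : PrimeI P R) {T : Finset (Ideal E)} (hT : ∀ S ∈ T, CId S) {h : E}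
    (hh : h ∈ P) (h0 : 0 ≤ h) (hhR : h ∉ R) {x' : E} (hx' : x' ∈ Hr h) (hxR : x' ∈ R)
    (hxx : x' * x' = 0) (hxT : ∀ S ∈ T, x' ∉ S) :
    ∃ x ∈ Hr h, x * x = 0 ∧ x ∉ R ∧ ∀ S ∈ T, x ∉ S := by
  have hRt := hR.two
  obtain ⟨a, ha⟩ : ∃ a : E, a = star x' * x' := ⟨_, rfl⟩
  obtain ⟨b, hb⟩ : ∃ b : E, b = x' * star x' := ⟨_, rfl⟩
  have ha0 : 0 ≤ a := by
    rw [ha]
    exact star_mul_self_nonneg _
  have hb0 : 0 ≤ b := by
    rw [hb]
    exact mul_star_self_nonneg _
  have hsx : star x' * star x' = 0 := by rw [← star_mul, hxx, star_zero]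
  have hab : a * b = 0 := by
    rw [ha, hb, mul_assoc, ← mul_assoc x' x', hxx, zero_mul, mul_zero]
  have hxs : star x' ∈ Hr h := hr_star h0 hx'
  have haH : a ∈ Hr h := by
    rw [ha]
    exact hr_mul2 hxs hx'
  have hbH : b ∈ Hr h := by
    rw [hb]
    exact hr_mul2 hx' hxs
  have haR : a ∈ R := by
    rw [ha]
    exact R.mul_mem_left _ hxR
  have hbR : b ∈ R := by
    rw [hb]
    exact R.mul_mem_right _ hxR
  -- choice of `δ`
  have hlim : Filter.Tendsto (fun δ : ℝ => cut δ b * x' * cut δ a) (𝓝[>] 0)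
      (𝓝 (b * x' * a)) :=
    ((CombA_tendsto hb0).mul_const x').mul (CombA_tendsto ha0)
  have hne : ∀ S ∈ T, b * x' * a ∉ S := by
    intro S hS hmem
    have hSi := hT S hS
    apply hxT S hS
    apply cid_of_star_mul hSi
    rw [← ha]
    apply cid_of_star_mul hSi
    rw [(IsSelfAdjoint.of_nonneg ha0).star_eq]
    apply cid_of_star_mul hSi
    have h1 : star (a * a) * (a * a) = (star x' * (b * x' * a)) * a := by
      rw [star_mul, (IsSelfAdjoint.of_nonneg ha0).star_eq, ha, hb]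
      noncomm_ring
    rw [h1]
    exact cid_mul_right hSi (S.mul_mem_left _ hmem) a
  have hev : ∀ᶠ δ in 𝓝[>] (0 : ℝ), ∀ S ∈ T, cut δ b * x' * cut δ a ∉ S := by
    rw [Filter.eventually_all_finset]
    intro S hS
    have hopen : IsOpen ((S : Set E)ᶜ) := (hT S hS).closed.isOpen_compl
    exact hlim.eventually (hopen.mem_nhds (hne S hS))
  obtain ⟨δ, hδT, hδ⟩ := (hev.and self_mem_nhdsWithin).exists
  have hδ : 0 < δ := hδ
  obtain ⟨x2, hx2⟩ : ∃ x2 : E, x2 = cut δ b * x' * cut δ a := ⟨_, rfl⟩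
  rw [← hx2] at hδT
  -- the element `e`
  obtain ⟨fa, hfa⟩ : ∃ fa : E, fa = cfc (CombA_f δ) a := ⟨_, rfl⟩
  obtain ⟨fb, hfb⟩ : ∃ fb : E, fb = cfc (CombA_f δ) b := ⟨_, rfl⟩
  have hfaa : fa ∈ Hr a := by
    rw [hfa]
    exact hr_cfc (hr_self ha0) ha0.isSelfAdjoint (CombA_f_cont δ) (CombA_f_zero δ)
  have hfbb : fb ∈ Hr b := by
    rw [hfb]
    exact hr_cfc (hr_self hb0) hb0.isSelfAdjoint (CombA_f_cont δ) (CombA_f_zero δ)
  have hcaa : cut δ a ∈ Hr a :=
    hr_cfc (hr_self ha0) ha0.isSelfAdjoint (continuous_cutf δ) (by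
      rw [max_eq_right]
      linarith)
  have hcbb : cut δ b ∈ Hr b :=
    hr_cfc (hr_self hb0) hb0.isSelfAdjoint (continuous_cutf δ) (by
      rw [max_eq_right]
      linarith)
  have hfs : star fa = fa := by
    rw [hfa]
    exact (cfc_predicate (CombA_f δ) a : IsSelfAdjoint _).star_eq
  have hfbs : star fb = fb := by
    rw [hfb]
    exact (cfc_predicate (CombA_f δ) b : IsSelfAdjoint _).star_eq
  obtain ⟨e, he⟩ : ∃ e : E, e = fa + fb := ⟨_, rfl⟩
  have hes : star (1 - e) = 1 - e := by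
    rw [he, star_sub, star_one, star_add, hfs, hfbs]
  have heH : e ∈ Hr h := by
    rw [he]
    exact hr_add (hr_trans haH hfaa) (hr_trans hbH hfbb)
  have heR : e ∈ R := by
    rw [he]
    exact R.add_mem (hr_mem_ideal hR haR hfaa) (hr_mem_ideal hR hbR hfbb)
  -- orthogonality
  have o1 : fa * cut δ b = 0 := CombA_left (CombA_right hab hfaa) hcbb
  have o2 : cut δ a * fb = 0 := CombA_left (CombA_right hab hcaa) hfbb
  have o3 : cut δ a * cut δ b = 0 := CombA_left (CombA_right hab hcaa) hcbb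
  have o4 : fb * cut δ b = cut δ b := by
    rw [hfb]
    exact CombA_fg hb0 hδ
  have o5 : cut δ a * fa = cut δ a := by
    rw [hfa]
    exact CombA_gf ha0 hδ
  have e1 : (1 - e) * x2 = 0 := by
    rw [hx2, he, sub_mul, one_mul, add_mul, ← mul_assoc, ← mul_assoc, ← mul_assoc, ← mul_assoc,
      o1, o4, zero_mul, zero_mul, zero_add, sub_self]
  have e2 : x2 * (1 - e) = 0 := by
    rw [hx2, he, mul_sub, mul_one, mul_add, mul_assoc _ (cut δ a) fa, mul_assoc _ (cut δ a) fb,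
      o2, o5, mul_zero, add_zero, sub_self]
  have e3 : star x2 * (1 - e) = 0 := by
    have h1 := congrArg star e1
    rwa [star_mul, hes, star_zero] at h1
  have e4 : x2 * x2 = 0 := by
    rw [hx2]
    have h1 : cut δ b * x' * cut δ a * (cut δ b * x' * cut δ a) =
        cut δ b * x' * (cut δ a * cut δ b) * (x' * cut δ a) := by
      simp only [mul_assoc]
    rw [h1, o3, mul_zero, zero_mul]
  -- the element `h2`
  obtain ⟨h2, hh2⟩ : ∃ h2 : E, h2 = (1 - e) * h * (1 - e) := ⟨_, rfl⟩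
  have h20 : 0 ≤ h2 := by
    rw [hh2]
    have h1 := star_left_conjugate_nonneg h0 (1 - e)
    rwa [hes] at h1
  have hexp : h2 = h - e * h - h * e + e * h * e := by
    rw [hh2]
    noncomm_ring
  have hhH : h ∈ Hr h := hr_self h0
  have h2H : h2 ∈ Hr h := by
    rw [hexp]
    have k1 : e * h ∈ Hr h := hr_mul2 heH hhH
    have k2 : h * e ∈ Hr h := hr_mul2 hhH heH
    have k3 : e * h * e ∈ Hr h := hr_mul2 k1 heH
    have k4 : -(e * h) ∈ Hr h := by
      have := hr_smul (-1 : ℂ) k1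
      rwa [neg_one_smul] at this
    have k5 : -(h * e) ∈ Hr h := by
      have := hr_smul (-1 : ℂ) k2
      rwa [neg_one_smul] at this
    rw [sub_eq_add_neg, sub_eq_add_neg]
    exact hr_add (hr_add (hr_add hhH k4) k5) k3
  have h2R : h2 ∉ R := by
    intro hmem
    apply hhR
    have h1 : h = h2 + (e * h + h * e - e * h * e) := by
      rw [hexp]
      abel
    rw [h1]
    refine R.add_mem hmem (R.sub_mem (R.add_mem ?_ ?_) ?_)
    · exact R.mul_mem_right _ heR
    · exact R.mul_mem_left _ heR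
    · exact R.mul_mem_left _ heR
  obtain ⟨F, instF, π, hπ, -⟩ := exists_quot hR
  obtain ⟨y, hyH, hyy, hyπ⟩ := exists_sq π hP (prime_quot hRp π hπ) hn hW
    (hr_mem_ideal hP hh h2H) h20 (fun h1 => h2R ((hπ h2).1 h1))
  have hyR : y ∉ R := fun h1 => hyπ ((hπ y).2 h1)
  have m1 : star x2 * h2 = 0 := by
    rw [hh2, ← mul_assoc, ← mul_assoc, e3, zero_mul, zero_mul]
  have m2 : x2 * h2 = 0 := by
    rw [hh2, ← mul_assoc, ← mul_assoc, e2, zero_mul, zero_mul]
  have m3 : h2 * x2 = 0 := by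
    rw [hh2, mul_assoc, e1, mul_zero]
  have n1 : star x2 * y = 0 := CombA_left m1 hyH
  have n2 : x2 * y = 0 := CombA_left m2 hyH
  have n3 : y * x2 = 0 := CombA_right m3 hyH
  refine ⟨x2 + y, ?_, ?_, ?_, ?_⟩
  · refine hr_add ?_ (hr_trans h2H hyH)
    rw [hx2]
    exact hr_mul2 (hr_mul2 (hr_trans hbH hcbb) hx') (hr_trans haH hcaa)
  · rw [mul_add, add_mul, add_mul, e4, n2, n3, hyy]
    simp
  · intro hmem
    apply hyR
    have h1 : x2 ∈ R := by
      rw [hx2]
      exact R.mul_mem_right _ (R.mul_mem_left _ hxR)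
    have h3 := R.sub_mem hmem h1
    rwa [add_sub_cancel_left] at h3
  · intro S hS hmem
    apply hδT S hS
    apply cid_of_star_mul (hT S hS)
    have h1 : star x2 * x2 = star x2 * (x2 + y) := by
      rw [mul_add, n1, add_zero]
    rw [h1]
    exact S.mul_mem_left _ hmem

theorem comb_sq {P : Ideal E} (hP : CId P) {n : ℕ} (hn : 1 ≤ n) (hW : WP P n)
    (T : Finset (Ideal E)) (hT : ∀ R ∈ T, CId R ∧ R ≤ P ∧ PrimeI P R) {h : E} (hh : h ∈ P)
    (h0 : 0 ≤ h) (hhT : ∀ R ∈ T, h ∉ R) :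
    ∃ x ∈ Hr h, x * x = 0 ∧ ∀ R ∈ T, x ∉ R := by
  classical
  have key : ∀ (m : ℕ) (T : Finset (Ideal E)), T.card = m →
      (∀ R ∈ T, CId R ∧ R ≤ P ∧ PrimeI P R) → ∀ h ∈ P, 0 ≤ h → (∀ R ∈ T, h ∉ R) →
      ∃ x ∈ Hr h, x * x = 0 ∧ ∀ R ∈ T, x ∉ R := by
    intro m
    induction m with
    | zero =>
      intro T hc _ h _ _ _
      rw [Finset.card_eq_zero] at hc
      subst hc
      exact ⟨0, hr_zero h, by rw [mul_zero], fun R hR => absurd hR (Finset.notMem_empty R)⟩
    | succ m ih =>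
      intro T hc hT h hh h0 hhT
      have hne : T.Nonempty := by
        rw [← Finset.card_pos, hc]
        omega
      obtain ⟨R, hRmax⟩ := T.exists_maximal hne
      have hRT : R ∈ T := hRmax.prop
      obtain ⟨hRc, hRP, hRp⟩ := hT R hRT
      have hT' : ∀ S ∈ T.erase R, CId S ∧ PrimeI P S ∧ ¬ R ≤ S := by
        intro S hS
        obtain ⟨hSR, hST⟩ := Finset.mem_erase.1 hS
        refine ⟨(hT S hST).1, (hT S hST).2.2, fun hle => hSR ?_⟩
        exact le_antisymm (hRmax.le_of_ge hST hle) hle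
      obtain ⟨κ, hκR, hκ0, -, hκ⟩ := exists_sep hRc hRP hT' hh hh h0 h0
      obtain ⟨h', hh'⟩ : ∃ h' : E, h' = h * κ * h := ⟨_, rfl⟩
      have hh'H : h' ∈ Hr h := by
        rw [hh']
        exact mem_hr h κ
      have hh'R : h' ∈ R := by
        rw [hh']
        have := hRc.two
        exact R.mul_mem_right _ (R.mul_mem_left _ hκR)
      have hh'0 : 0 ≤ h' := by
        rw [hh']
        have h1 := star_left_conjugate_nonneg hκ0 h
        rwa [(IsSelfAdjoint.of_nonneg h0).star_eq] at h1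
      obtain ⟨x', hx'1, hx'2, hx'3⟩ := ih (T.erase R) (by
          rw [Finset.card_erase_of_mem hRT, hc]
          rfl)
        (fun S hS => hT S (Finset.mem_of_mem_erase hS)) h' (hr_mem_ideal hP hh hh'H) hh'0
        (fun S hS => by
          rw [hh']
          exact (hκ S hS).1 (hhT S (Finset.mem_of_mem_erase hS)))
      obtain ⟨x, hx1, hx2, hx3, hx4⟩ := comb_step hP hn hW hRc hRp
        (fun S hS => (hT' S hS).1) hh h0 (hhT R hRT) (hr_trans hh'H hx'1)
        (hr_mem_ideal hRc hh'R hx'1) hx'2 hx'3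
      refine ⟨x, hx1, hx2, fun S hS => ?_⟩
      rcases eq_or_ne S R with rfl | hne
      · exact hx3
      · exact hx4 S (Finset.mem_erase.2 ⟨hne, hS⟩)
  exact key T.card T rfl hT h hh h0 hhT

end P133
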