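import Vale.Agent.Lib.P133.LocE
import Vale.Agent.Lib.P133.Sep

/-!
# P133, module CombB: almost orthogonal elements for finitely many primes

* `loc_cases`: `exists_quot` for `R` (`π`), cases `x ∈ R` / `y ∈ R`: both outside: `loc_orth`; `x ∉ R`, `y ∈ R`: `c = x`
  (`ν = ‖π x‖`), `d = 0`; etc.
* `comb_orth`: induction on the number of elements of `T`.  `T = ∅`: `c = d = 0`.  Otherwise `R` maximal in `T`
  (`Finset.exists_maximal`), `T' = T.erase R`, `¬ R ≤ S` for `S ∈ T'`; `κ` from `exists_sep`; induction hypothesis for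
  `x κ x`, `y κ y`, `T'`: `ν'`, and (given `η`) `c', d' ∈ R` (`hr_mem_ideal`); `loc_cases` at `R`: `ν''`, `c'', d''` (we can take
  `ν'' ≤ 1`).  `cut_lemma` (`c = c''`, `d = d'`): `w`, `c₁ = c'' w c''`; (`c = d''`, `d = c'`): `w'`, `d₁ = d'' w' d''`.
  `c = (1/2) • (c' + c₁)`, `d = (1/2) • (d' + d₁)`: `‖c d‖ ≤ (η + η + η + η) / 4`: `‖c₁ d'‖ = ‖d' c₁‖ ≤ η`, `‖c' d₁‖ ≤ η`,
  `‖c₁ d₁‖ ≤ ‖c'' d''‖`.  `ν = min (ν' / 2) (ν'' ^ 2 / 2)`: for `S ∈ T'`: `c ≥ (1/2) c' ≥ 0` and in the quotient by `S`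
  (`exists_quot`) `‖π c‖ ≥ ‖π c'‖ / 2`; for `R`: `π c = (1/2) π (c'' c'')`.
-/

open scoped Topology

namespace P133

universe u

attribute [local instance] CStarAlgebra.spectralOrder CStarAlgebra.spectralOrderedRing

variable {E : Type u} [CStarAlgebra E]

/-- the quotient norm of `(c' + c₁) / 2` is at least half of that of `c'` -/
private theorem CombB_low {S : Ideal E} (hS : CId S) {c' c₁ : E} (h0 : 0 ≤ c') (h1 : 0 ≤ c₁)
    {ν : ℝ} (h : ∀ r ∈ S, ν ≤ ‖c' - r‖) :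
    ∀ r ∈ S, ν / 2 ≤ ‖(1 / 2 : ℝ) • (c' + c₁) - r‖ := by
  obtain ⟨F, instF, π, hπ, hν⟩ := exists_quot hS
  rw [← hν] at h ⊢
  have e : (1 / 2 : ℝ) • (c' + c₁) = ((1 / 2 : ℝ) : ℂ) • (c' + c₁) := (Complex.coe_smul _ _).symm
  rw [e, map_smul, norm_smul, map_add]
  have h2 : ‖π c'‖ ≤ ‖π c' + π c₁‖ :=
    CStarAlgebra.norm_le_norm_of_nonneg_of_le (pi_nonneg π h0)
      (le_add_of_nonneg_right (pi_nonneg π h1))
  have h3 : ‖((1 / 2 : ℝ) : ℂ)‖ = 1 / 2 := by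
    rw [Complex.norm_real]
    norm_num
  rw [h3]
  linarith

/-- the quotient norm at the top ideal -/
private theorem CombB_top {R : Ideal E} (hR : CId R) {c' c w : E} (hc' : c' ∈ R) (h0 : 0 ≤ c)
    (hw : 1 - w ∈ R) {ν : ℝ} (hν0 : 0 ≤ ν) (h : ∀ r ∈ R, ν ≤ ‖c - r‖) :
    ∀ r ∈ R, ν ^ 2 / 2 ≤ ‖(1 / 2 : ℝ) • (c' + c * w * c) - r‖ := by
  obtain ⟨F, instF, π, hπ, hν⟩ := exists_quot hR
  rw [← hν] at h ⊢
  have e : (1 / 2 : ℝ) • (c' + c * w * c) = ((1 / 2 : ℝ) : ℂ) • (c' + c * w * c) :=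
    (Complex.coe_smul _ _).symm
  have h1 : π w = 1 := by
    have h2 := (hπ (1 - w)).2 hw
    rw [map_sub, map_one, sub_eq_zero] at h2
    exact h2.symm
  have h3 : ‖((1 / 2 : ℝ) : ℂ)‖ = 1 / 2 := by
    rw [Complex.norm_real]
    norm_num
  have h4 : star (π c) = π c := (pi_nonneg π h0).isSelfAdjoint.star_eq
  have h5 : ‖π c * π c‖ = ‖π c‖ * ‖π c‖ := by
    have h6 := CStarRing.norm_star_mul_self (x := π c)
    rwa [h4] at h6
  rw [e, map_smul, norm_smul, map_add, (hπ c').2 hc', zero_add, map_mul, map_mul, h1, mul_one, h3,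
    h5]
  nlinarith

theorem loc_cases {P : Ideal E} (hP : CId P) {n : ℕ} (hn : 1 ≤ n) (hW : WP P n) {R : Ideal E}
    (hR : CId R) {x y : E} (hx : x ∈ P) (hy : y ∈ P) (hx0 : 0 ≤ x) (hy0 : 0 ≤ y)
    (hx1 : ‖x‖ ≤ 1) (hy1 : ‖y‖ ≤ 1) :
    ∃ ν : ℝ, 0 < ν ∧ ν ≤ 1 ∧ ∀ η : ℝ, 0 < η → ∃ c ∈ Hr x, ∃ d ∈ Hr y, 0 ≤ c ∧ 0 ≤ d ∧ ‖c‖ ≤ 1 ∧
      ‖d‖ ≤ 1 ∧ ‖c * d‖ ≤ η ∧ (x ∉ R → ∀ r ∈ R, ν ≤ ‖c - r‖) ∧ (y ∉ R → ∀ r ∈ R, ν ≤ ‖d - r‖) := by
  obtain ⟨F, instF, π, hπ, hν⟩ := exists_quot hR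
  by_cases hxR : x ∈ R
  · by_cases hyR : y ∈ R
    · refine ⟨1, one_pos, le_rfl, fun η hη => ⟨0, hr_zero x, 0, hr_zero y, le_rfl, le_rfl, ?_, ?_,
        ?_, fun h => absurd hxR h, fun h => absurd hyR h⟩⟩
      · rw [norm_zero]; exact zero_le_one
      · rw [norm_zero]; exact zero_le_one
      · rw [mul_zero, norm_zero]; exact hη.le
    · have hπy : 0 < ‖π y‖ := norm_pos_iff.2 fun h => hyR ((hπ y).1 h)
      refine ⟨min ‖π y‖ 1, lt_min hπy one_pos, min_le_right _ _, fun η hη => ⟨0, hr_zero x, y,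
        hr_self hy0, le_rfl, hy0, ?_, hy1, ?_, fun h => absurd hxR h, fun _ => ?_⟩⟩
      · rw [norm_zero]; exact zero_le_one
      · rw [zero_mul, norm_zero]; exact hη.le
      · exact (hν y _).1 (min_le_left _ _)
  · have hπx : 0 < ‖π x‖ := norm_pos_iff.2 fun h => hxR ((hπ x).1 h)
    by_cases hyR : y ∈ R
    · refine ⟨min ‖π x‖ 1, lt_min hπx one_pos, min_le_right _ _, fun η hη => ⟨x, hr_self hx0, 0,
        hr_zero y, hx0, le_rfl, hx1, ?_, ?_, fun _ => ?_, fun h => absurd hyR h⟩⟩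
      · rw [norm_zero]; exact zero_le_one
      · rw [mul_zero, norm_zero]; exact hη.le
      · exact (hν x _).1 (min_le_left _ _)
    · have hπy : 0 < ‖π y‖ := norm_pos_iff.2 fun h => hyR ((hπ y).1 h)
      obtain ⟨ν, hν0, H⟩ := loc_orth π hP hn hW hx hx0 hy0 hy1 (norm_pos_iff.1 hπx)
        (norm_pos_iff.1 hπy)
      refine ⟨min ν 1, lt_min hν0 one_pos, min_le_right _ _, fun η hη => ?_⟩
      obtain ⟨c, hc, d, hd, hc0, hd0, hc1, hd1, hcν, hdν, hcd⟩ := H η hη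
      exact ⟨c, hc, d, hd, hc0, hd0, hc1, hd1, hcd,
        fun _ => (hν c _).1 ((min_le_left _ _).trans hcν),
        fun _ => (hν d _).1 ((min_le_left _ _).trans hdν)⟩

theorem comb_orth {P : Ideal E} (hP : CId P) {n : ℕ} (hn : 1 ≤ n) (hW : WP P n)
    (T : Finset (Ideal E)) (hT : ∀ R ∈ T, CId R ∧ R ≤ P ∧ PrimeI P R) {x y : E} (hx : x ∈ P)
    (hy : y ∈ P) (hx0 : 0 ≤ x) (hy0 : 0 ≤ y) (hx1 : ‖x‖ ≤ 1) (hy1 : ‖y‖ ≤ 1) :
    ∃ ν : ℝ, 0 < ν ∧ ∀ η : ℝ, 0 < η → ∃ c ∈ Hr x, ∃ d ∈ Hr y, 0 ≤ c ∧ 0 ≤ d ∧ ‖c‖ ≤ 1 ∧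
      ‖d‖ ≤ 1 ∧ ‖c * d‖ ≤ η ∧
      ∀ R ∈ T, (x ∉ R → ∀ r ∈ R, ν ≤ ‖c - r‖) ∧ (y ∉ R → ∀ r ∈ R, ν ≤ ‖d - r‖) := by
  classical
  induction T using Finset.strongInduction generalizing x y with
  | H T IH =>
  rcases T.eq_empty_or_nonempty with rfl | hne
  · refine ⟨1, one_pos, fun η hη => ⟨0, hr_zero x, 0, hr_zero y, le_rfl, le_rfl, ?_, ?_, ?_,
      fun R hR => absurd hR (Finset.notMem_empty R)⟩⟩
    · rw [norm_zero]; exact zero_le_one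
    · rw [norm_zero]; exact zero_le_one
    · rw [mul_zero, norm_zero]; exact hη.le
  · obtain ⟨R, hRmax⟩ := T.exists_maximal hne
    have hRT : R ∈ T := hRmax.prop
    obtain ⟨hR, hRP, hRp⟩ := hT R hRT
    have hS : ∀ S ∈ T.erase R, CId S ∧ PrimeI P S ∧ ¬ R ≤ S := by
      intro S hS
      obtain ⟨h1, h2⟩ := Finset.mem_erase.1 hS
      exact ⟨(hT S h2).1, (hT S h2).2.2, fun h3 => h1 (hRmax.eq_of_le h2 h3).symm⟩
    obtain ⟨κ, hκR, hκ0, hκ1, hκ⟩ := exists_sep hR hRP hS hx hy hx0 hy0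
    have hsx : star x = x := (IsSelfAdjoint.of_nonneg hx0).star_eq
    have hsy : star y = y := (IsSelfAdjoint.of_nonneg hy0).star_eq
    have key : ∀ z : E, 0 ≤ z → ‖z‖ ≤ 1 → 0 ≤ z * κ * z ∧ ‖z * κ * z‖ ≤ 1 ∧ z * κ * z ∈ R := by
      intro z hz0 hz1
      have hsz : star z = z := (IsSelfAdjoint.of_nonneg hz0).star_eq
      refine ⟨?_, ?_, ?_⟩
      · have h1 := star_left_conjugate_nonneg hκ0 z
        rwa [hsz] at h1
      · refine (norm_mul_le _ _).trans (mul_le_one₀ ((norm_mul_le _ _).trans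
          (mul_le_one₀ hz1 (norm_nonneg _) hκ1)) (norm_nonneg _) hz1)
      · exact cid_mul_right hR (R.mul_mem_left z hκR) z
    obtain ⟨hx'0, hx'1, hx'R⟩ := key x hx0 hx1
    obtain ⟨hy'0, hy'1, hy'R⟩ := key y hy0 hy1
    obtain ⟨ν₁, hν₁, H₁⟩ := IH (T.erase R) (Finset.erase_ssubset hRT)
      (fun S hS => hT S (Finset.mem_of_mem_erase hS)) (P.mul_mem_left (x * κ) hx)
      (P.mul_mem_left (y * κ) hy) hx'0 hy'0 hx'1 hy'1
    obtain ⟨ν₂, hν₂, hν₂1, H₂⟩ := loc_cases hP hn hW hR hx hy hx0 hy0 hx1 hy1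
    refine ⟨min (ν₁ / 2) (ν₂ ^ 2 / 2), lt_min (by positivity) (by positivity), fun η hη => ?_⟩
    obtain ⟨c', hc', d', hd', hc'0, hd'0, hc'1, hd'1, hcd', hl'⟩ := H₁ η hη
    obtain ⟨c₂, hc₂, d₂, hd₂, hc₂0, hd₂0, hc₂1, hd₂1, hcd₂, hlc₂, hld₂⟩ := H₂ η hη
    have hc'R : c' ∈ R := hr_mem_ideal hR hx'R hc'
    have hd'R : d' ∈ R := hr_mem_ideal hR hy'R hd'
    obtain ⟨w, hw0, hw1, hwR, hwd⟩ := cut_lemma hR hc₂0 hc₂1 hd'R hη
    obtain ⟨v, hv0, hv1, hvR, hvc⟩ := cut_lemma hR hd₂0 hd₂1 hc'R hη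
    have hc₂s : star c₂ = c₂ := (IsSelfAdjoint.of_nonneg hc₂0).star_eq
    have hd₂s : star d₂ = d₂ := (IsSelfAdjoint.of_nonneg hd₂0).star_eq
    have hc's : star c' = c' := (IsSelfAdjoint.of_nonneg hc'0).star_eq
    have hd's : star d' = d' := (IsSelfAdjoint.of_nonneg hd'0).star_eq
    have hc₁0 : 0 ≤ c₂ * w * c₂ := by
      have h1 := star_left_conjugate_nonneg hw0 c₂
      rwa [hc₂s] at h1
    have hd₁0 : 0 ≤ d₂ * v * d₂ := by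
      have h1 := star_left_conjugate_nonneg hv0 d₂
      rwa [hd₂s] at h1
    have hc₁1 : ‖c₂ * w * c₂‖ ≤ 1 := (norm_mul_le _ _).trans (mul_le_one₀ ((norm_mul_le _ _).trans
          (mul_le_one₀ hc₂1 (norm_nonneg _) hw1)) (norm_nonneg _) hc₂1)
    have hd₁1 : ‖d₂ * v * d₂‖ ≤ 1 := (norm_mul_le _ _).trans (mul_le_one₀ ((norm_mul_le _ _).trans
          (mul_le_one₀ hd₂1 (norm_nonneg _) hv1)) (norm_nonneg _) hd₂1)
    have half : ∀ a b : E, ‖a‖ ≤ 1 → ‖b‖ ≤ 1 → ‖(1 / 2 : ℝ) • (a + b)‖ ≤ 1 := by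
      intro a b ha hb
      rw [norm_smul, Real.norm_of_nonneg (by norm_num : (0 : ℝ) ≤ 1 / 2)]
      have h1 := norm_add_le a b
      linarith
    have h1 : ‖(c₂ * w * c₂) * d'‖ ≤ η := by
      have h2 : star (d' * (c₂ * w * c₂)) = (c₂ * w * c₂) * d' := by
        rw [star_mul, (IsSelfAdjoint.of_nonneg hc₁0).star_eq, hd's]
      rw [← h2, norm_star]
      exact hwd
    have h2 : ‖(c₂ * w * c₂) * (d₂ * v * d₂)‖ ≤ η := by
      have e : (c₂ * w * c₂) * (d₂ * v * d₂) = (c₂ * w) * (c₂ * d₂) * (v * d₂) := by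
        noncomm_ring
      rw [e]
      have hcw : ‖c₂ * w‖ ≤ 1 := (norm_mul_le _ _).trans (mul_le_one₀ hc₂1 (norm_nonneg _) hw1)
      have hvd : ‖v * d₂‖ ≤ 1 := (norm_mul_le _ _).trans (mul_le_one₀ hv1 (norm_nonneg _) hd₂1)
      calc ‖(c₂ * w) * (c₂ * d₂) * (v * d₂)‖ ≤ ‖(c₂ * w) * (c₂ * d₂)‖ * ‖v * d₂‖ :=
            norm_mul_le _ _
        _ ≤ ‖c₂ * w‖ * ‖c₂ * d₂‖ * ‖v * d₂‖ := by
            gcongr
            exact norm_mul_le _ _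
        _ ≤ 1 * η * 1 := by
            gcongr
        _ = η := by ring
    refine ⟨(1 / 2 : ℝ) • (c' + c₂ * w * c₂), hr_rsmul _ (hr_add (hr_trans (mem_hr x κ) hc')
      (hr_mul hc₂ w hc₂)), (1 / 2 : ℝ) • (d' + d₂ * v * d₂), hr_rsmul _ (hr_add
      (hr_trans (mem_hr y κ) hd') (hr_mul hd₂ v hd₂)),
      smul_nonneg (by norm_num) (add_nonneg hc'0 hc₁0),
      smul_nonneg (by norm_num) (add_nonneg hd'0 hd₁0), half _ _ hc'1 hc₁1, half _ _ hd'1 hd₁1,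
      ?_, ?_⟩
    · have e : (1 / 2 : ℝ) • (c' + c₂ * w * c₂) * (1 / 2 : ℝ) • (d' + d₂ * v * d₂) =
          (1 / 4 : ℝ) • (c' * d' + c' * (d₂ * v * d₂) + (c₂ * w * c₂) * d' +
            (c₂ * w * c₂) * (d₂ * v * d₂)) := by
        rw [smul_mul_smul_comm, show (1 / 2 : ℝ) * (1 / 2) = 1 / 4 by norm_num]
        congr 1
        noncomm_ring
      rw [e, norm_smul, Real.norm_of_nonneg (by norm_num : (0 : ℝ) ≤ 1 / 4)]
      have h3 : ‖c' * d' + c' * (d₂ * v * d₂) + (c₂ * w * c₂) * d' +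
            (c₂ * w * c₂) * (d₂ * v * d₂)‖ ≤ η + η + η + η :=
        (norm_add_le _ _).trans (add_le_add ((norm_add_le _ _).trans (add_le_add
          ((norm_add_le _ _).trans (add_le_add hcd' hvc)) h1)) h2)
      linarith
    · intro S hST
      rcases eq_or_ne S R with rfl | hne'
      · exact ⟨fun hxS r hr => (min_le_right _ _).trans
            (CombB_top hR hc'R hc₂0 hwR hν₂.le (hlc₂ hxS) r hr),
          fun hyS r hr => (min_le_right _ _).trans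
            (CombB_top hR hd'R hd₂0 hvR hν₂.le (hld₂ hyS) r hr)⟩
      · have hSe : S ∈ T.erase R := Finset.mem_erase.2 ⟨hne', hST⟩
        exact ⟨fun hxS r hr => (min_le_left _ _).trans
            (CombB_low (hS S hSe).1 hc'0 hc₁0 ((hl' S hSe).1 ((hκ S hSe).1 hxS)) r hr),
          fun hyS r hr => (min_le_left _ _).trans
            (CombB_low (hS S hSe).1 hd'0 hd₁0 ((hl' S hSe).2 ((hκ S hSe).2 hyS)) r hr)⟩

end P133
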