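import Vale.Agent.Lib.P133.Defs

/-!
# P133, module Cu: calculus of the comparison `CLe`

`CLe M N`: `M` is in the closure (product topology) of `{Xᴴ * N * X}`.

* `cle_trans`: for fixed `X` the map `N' ↦ Xᴴ * N' * X` is continuous and maps `Yᴴ * L * Y` to
  `(Y * X)ᴴ * L * (Y * X)`: `map_mem_closure`, then `closure_minimal`.
* `cle_sub`: `M.submatrix f f = Xᴴ * M * X` with `X i j = if i = f j then 1 else 0`.
* `cle_sum`: `map_mem_closure₂` for `(M, M') ↦ fromBlocks M 0 0 M'` (`Continuous.matrix_fromBlocks`) and `X ⊕ X'`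
  (`Matrix.fromBlocks_multiply`, `fromBlocks_conjTranspose`).
* `cle_dg_double`: induction on `m`: `2 (m+1) = 2 m + 2`: reindex (`cle_sub`), `dg_sum`, `cle_sum`.
* `wp_all`: `CLe (Dg (Fin (m + m)) h) (Dg (Fin m ⊕ Fin m) h)`, so if `Dg (Fin m) h ≾ Dg (Fin n) h` then the same for
  `m + m`; start with `m = n`, `2 ^ j * n ≥ m`.
* `cle_gram`: `z ↦ (star (z i) * z j)` is continuous on `Fin m → E`; `hu` says `u` is in the closure of
  `{(h * z i)}`, and `star (h z) (h z') = star (√h z) h (√h z')` (`CFC.sqrt`).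
* `cle_one`: reindexing by `Fin 1`.
* `cle_dg_lim`: `‖h - cut ε h‖ ≤ ε` (prove it here again if needed: spectrum in `[0, ∞)`), closedness.
-/

open scoped Topology

namespace P133

universe u

attribute [local instance] CStarAlgebra.spectralOrder CStarAlgebra.spectralOrderedRing

variable {E : Type u} [CStarAlgebra E] {p q r p' q' : Type}

theorem cle_conj [Fintype q] (N : Matrix q q E) (X : Matrix q p E) :
    CLe (X.conjTranspose * N * X) N :=
  subset_closure ⟨X, rfl⟩

theorem cle_closed [Fintype q] (N : Matrix q q E) : IsClosed {M : Matrix p p E | CLe M N} :=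
  isClosed_closure

theorem cle_trans [Fintype q] [Fintype r] {M : Matrix p p E} {N : Matrix q q E}
    {L : Matrix r r E} (h : CLe M N) (h' : CLe N L) : CLe M L := by
  refine closure_minimal ?_ isClosed_closure h
  rintro _ ⟨X, rfl⟩
  have hc : Continuous fun N' : Matrix q q E => X.conjTranspose * N' * X :=
    (continuous_const.matrix_mul continuous_id).matrix_mul continuous_const
  have key := map_mem_closure hc h' (t := Set.range fun Y : Matrix r p E =>
      Y.conjTranspose * L * Y) (by
    rintro _ ⟨Y, rfl⟩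
    refine ⟨Y * X, ?_⟩
    simp only [Matrix.conjTranspose_mul, Matrix.mul_assoc])
  exact key

theorem cle_sub [Fintype q] [DecidableEq q] (M : Matrix q q E) (f : p → q) :
    CLe (M.submatrix f f) M := by
  have h : M.submatrix f f = (Matrix.of fun (i : q) (j : p) => if i = f j then (1 : E) else 0).conjTranspose
      * M * (Matrix.of fun (i : q) (j : p) => if i = f j then (1 : E) else 0) := by
    ext a b
    simp only [Matrix.mul_apply, Matrix.submatrix_apply, Matrix.conjTranspose_apply, Matrix.of_apply]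
    simp only [apply_ite (star : E → E), star_one, star_zero, ite_mul, one_mul, zero_mul,
      Finset.sum_ite_eq', Finset.mem_univ, if_true, mul_ite, mul_one, mul_zero]
  rw [h]
  exact cle_conj M _

theorem cle_refl [Fintype q] [DecidableEq q] (M : Matrix q q E) : CLe M M :=
  cle_sub M id

theorem cle_sum [Fintype q] [Fintype q'] {M : Matrix p p E} {N : Matrix q q E}
    {M' : Matrix p' p' E} {N' : Matrix q' q' E} (h : CLe M N) (h' : CLe M' N') :
    CLe (Matrix.fromBlocks M 0 0 M') (Matrix.fromBlocks N 0 0 N') := by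
  have hc : Continuous (Function.uncurry fun (A : Matrix p p E) (B : Matrix p' p' E) =>
      Matrix.fromBlocks A 0 0 B) := by
    unfold Function.uncurry
    exact continuous_fst.matrix_fromBlocks continuous_const continuous_const continuous_snd
  have key := map_mem_closure₂ hc h h' (u := Set.range fun Y : Matrix (q ⊕ q') (p ⊕ p') E =>
      Y.conjTranspose * Matrix.fromBlocks N 0 0 N' * Y) (by
    rintro _ ⟨X, rfl⟩ _ ⟨Y, rfl⟩
    refine ⟨Matrix.fromBlocks X 0 0 Y, ?_⟩
    simp only [Matrix.fromBlocks_conjTranspose, Matrix.fromBlocks_multiply,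
      Matrix.conjTranspose_zero, Matrix.mul_zero, Matrix.zero_mul, add_zero, zero_add])
  exact key

theorem dg_sum {s t : Type} [DecidableEq s] [DecidableEq t] (b : E) :
    Dg (s ⊕ t) b = Matrix.fromBlocks (Dg s b) 0 0 (Dg t b) := by
  ext (i | i) (j | j)
  · simp [Dg, Matrix.diagonal_apply]
  · simp [Dg, Matrix.diagonal_apply]
  · simp [Dg, Matrix.diagonal_apply]
  · simp [Dg, Matrix.diagonal_apply]

theorem cle_dg_emb {s t : Type} [DecidableEq s] [DecidableEq t] [Fintype t] (f : s ↪ t) (b : E) :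
    CLe (Dg s b) (Dg t b) := by
  have h : Dg s b = (Dg t b).submatrix f f := by
    unfold Dg
    rw [Matrix.submatrix_diagonal _ _ f.injective]
    rfl
  rw [h]
  exact cle_sub _ _

theorem cle_dg_le {m k : ℕ} (hmk : m ≤ k) (b : E) : CLe (Dg (Fin m) b) (Dg (Fin k) b) :=
  cle_dg_emb (Fin.castLEEmb hmk) b

theorem cle_dg_double {b b' : E} (h : CLe (Dg (Fin 2) b') (Dg (Fin 1) b)) (m : ℕ) :
    CLe (Dg (Fin (2 * m)) b') (Dg (Fin m) b) := by
  induction m with
  | zero => exact subset_closure ⟨0, by ext i; exact i.elim0⟩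
  | succ m ih =>
    have h1 : CLe (Dg (Fin (2 * (m + 1))) b') (Dg (Fin (2 * m) ⊕ Fin 2) b') :=
      cle_dg_emb (finSumFinEquiv (m := 2 * m) (n := 2)).symm.toEmbedding b'
    have h2 : CLe (Dg (Fin m ⊕ Fin 1) b) (Dg (Fin (m + 1)) b) :=
      cle_dg_emb (finSumFinEquiv (m := m) (n := 1)).toEmbedding b
    refine cle_trans h1 (cle_trans ?_ h2)
    rw [dg_sum, dg_sum]
    exact cle_sum ih h

theorem wp_all {P : Ideal E} {n : ℕ} (hn : 1 ≤ n) (hP : WP P n) {h : E} (hh : h ∈ P)
    (h0 : 0 ≤ h) (m : ℕ) : CLe (Dg (Fin m) h) (Dg (Fin n) h) := by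
  have key : ∀ j : ℕ, CLe (Dg (Fin (2 ^ j * n)) h) (Dg (Fin n) h) := by
    intro j
    induction j with
    | zero => exact cle_dg_le (by simp) h
    | succ j ih =>
      have h1 : CLe (Dg (Fin (2 ^ (j + 1) * n)) h) (Dg (Fin (2 ^ j * n + 2 ^ j * n)) h) :=
        cle_dg_le (by rw [pow_succ]; exact le_of_eq (by ring)) h
      have h2 : CLe (Dg (Fin (2 ^ j * n + 2 ^ j * n)) h) (Dg (Fin (2 ^ j * n) ⊕ Fin (2 ^ j * n)) h) :=
        cle_dg_emb finSumFinEquiv.symm.toEmbedding h
      have h3 : CLe (Dg (Fin (2 ^ j * n) ⊕ Fin (2 ^ j * n)) h) (Dg (Fin n ⊕ Fin n) h) := by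
        rw [dg_sum, dg_sum]
        exact cle_sum ih ih
      exact cle_trans h1 (cle_trans h2 (cle_trans h3 (hP h hh h0)))
  refine cle_trans (cle_dg_le (k := 2 ^ m * n) ?_ h) (key m)
  calc m ≤ 2 ^ m := Nat.lt_two_pow_self.le
    _ = 2 ^ m * 1 := (mul_one _).symm
    _ ≤ 2 ^ m * n := Nat.mul_le_mul_left _ hn

theorem cle_gram {m : ℕ} {h : E} (h0 : 0 ≤ h) (u : Fin m → E) (hu : ∀ i, u i ∈ Rt h) :
    CLe (Matrix.of fun i j => star (u i) * u j) (Dg (Fin 1) h) := by
  set s : E := CFC.sqrt h with hs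
  have hs0 : 0 ≤ s := CFC.sqrt_nonneg h
  have hss : star s = s := (IsSelfAdjoint.of_nonneg hs0).star_eq
  have hsq : s * s = h := CFC.sqrt_mul_sqrt_self h h0
  have hsh : star h = h := (IsSelfAdjoint.of_nonneg h0).star_eq
  have hc : Continuous fun w : Fin m → E => (Matrix.of fun i j => star (w i) * w j :
      Matrix (Fin m) (Fin m) E) := by
    refine continuous_matrix fun i j => ?_
    exact ((continuous_apply i).star).mul (continuous_apply j)
  have hu' : u ∈ closure (Set.pi Set.univ fun _ : Fin m => Set.range fun z : E => h * z) := by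
    rw [closure_pi_set]
    exact fun i _ => hu i
  have key := map_mem_closure hc hu' (t := Set.range fun Y : Matrix (Fin 1) (Fin m) E =>
      Y.conjTranspose * Dg (Fin 1) h * Y) ?_
  · exact key
  intro w hw
  choose z hz using fun i => hw i (Set.mem_univ i)
  refine ⟨Matrix.of fun _ j => s * z j, ?_⟩
  ext i j
  simp only [Matrix.mul_apply, Matrix.of_apply, Matrix.conjTranspose_apply, Dg,
    Finset.univ_unique, Finset.sum_singleton, Matrix.diagonal_apply_eq]
  rw [← hz i, ← hz j]
  simp only [star_mul, hss, hsh]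
  calc star (z i) * s * h * (s * z j) = star (z i) * (s * (s * s) * s) * z j := by
        rw [hsq]
        simp only [mul_assoc]
    _ = star (z i) * ((s * s) * (s * s)) * z j := by simp only [mul_assoc]
    _ = star (z i) * h * (h * z j) := by
        rw [hsq]
        simp only [mul_assoc]

theorem cle_one {a b : E} :
    CLe (Dg (Fin 1) a) (Dg (Fin 1) b) ↔ a ∈ closure (Set.range fun z : E => star z * b * z) := by
  constructor
  · intro h
    have hc : Continuous fun M : Matrix (Fin 1) (Fin 1) E => M 0 0 :=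
      continuous_id.matrix_elem 0 0
    have h1 := map_mem_closure hc h (t := Set.range fun z : E => star z * b * z) (by
      rintro _ ⟨X, rfl⟩
      refine ⟨X 0 0, ?_⟩
      simp [Matrix.mul_apply, Dg, Matrix.conjTranspose_apply])
    simpa [Dg] using h1
  · intro h
    have hc : Continuous fun a : E => Dg (Fin 1) a :=
      (continuous_pi fun _ => continuous_id).matrix_diagonal
    have key := map_mem_closure hc h (t := Set.range fun Y : Matrix (Fin 1) (Fin 1) E =>
      Y.conjTranspose * Dg (Fin 1) b * Y) ?_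
    · exact key
    rintro _ ⟨z, rfl⟩
    refine ⟨Matrix.of fun _ _ => z, ?_⟩
    ext i j
    fin_cases i
    fin_cases j
    simp [Matrix.mul_apply, Dg, Matrix.conjTranspose_apply]

theorem Cu_cut_norm {h : E} (h0 : 0 ≤ h) {ε : ℝ} (hε : 0 ≤ ε) : ‖h - cut ε h‖ ≤ ε := by
  have hsa : IsSelfAdjoint h := IsSelfAdjoint.of_nonneg h0
  have h1 : h - cut ε h = cfc (fun t : ℝ => t - max (t - ε) 0) h := by
    unfold cut
    rw [cfc_sub (fun t : ℝ => t) (fun t : ℝ => max (t - ε) 0) h (by fun_prop) (by fun_prop),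
      cfc_id' ℝ h hsa]
  rw [h1]
  refine norm_cfc_le hε fun t ht => ?_
  have ht0 : 0 ≤ t := spectrum_nonneg_of_nonneg h0 ht
  rw [Real.norm_eq_abs, abs_le]
  rcases le_total (t - ε) 0 with h2 | h2
  · rw [max_eq_right h2]
    constructor <;> linarith
  · rw [max_eq_left h2]
    constructor <;> linarith

theorem cle_dg_lim {s : Type} [DecidableEq s] [Fintype q] {N : Matrix q q E} {h : E} (h0 : 0 ≤ h)
    (hc : ∀ ε : ℝ, 0 < ε → CLe (Dg s (cut ε h)) N) : CLe (Dg s h) N := by
  have hcont : Continuous fun a : E => Dg s a :=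
    (continuous_pi fun _ => continuous_id).matrix_diagonal
  have hcl : IsClosed {a : E | CLe (Dg s a) N} := (cle_closed N).preimage hcont
  have hlim : Filter.Tendsto (fun n : ℕ => cut (1 / ((n : ℝ) + 1)) h) Filter.atTop (𝓝 h) := by
    rw [tendsto_iff_norm_sub_tendsto_zero]
    refine squeeze_zero (fun _ => norm_nonneg _) (fun n => ?_)
      tendsto_one_div_add_atTop_nhds_zero_nat
    rw [norm_sub_rev]
    exact Cu_cut_norm h0 (by positivity)
  exact hcl.mem_of_tendsto hlim (Filter.Eventually.of_forall fun n => hc _ (by positivity))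

end P133
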