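import Mathlib
import Vale.Agent.Lib.P101.Quot

/-!
# P133: the three notions of pure infiniteness

First part: the definitions of the final statement, for an arbitrary (possibly nonunital) C*-algebra `A`.
Second part: working definitions in a unital C*-algebra `E` (the unitization of `A`); `P` is `A` as an
ideal of `E`.  See the file `PROOF.md` in this folder.
-/

open scoped Topology

namespace P133

universe u

section NU

variable {A : Type u} [NonUnitalCStarAlgebra A]

/-- positive elements of a C*-algebra -/
def IsPos (x : A) : Prop := ∃ c : A, x = star c * c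

/-- Cuntz comparison of square matrices over `A` (of any finite sizes) -/
def CuntzLE {p q : Type} [Fintype q] (U : Matrix p p A) (V : Matrix q q A) : Prop :=
  ∀ ε : ℝ, 0 < ε → ∃ X : Matrix q p A, ∀ i j, ‖(X.conjTranspose * V * X - U) i j‖ < ε

/-- `H` is properly infinite: `H ⊕ H ≾ H` -/
def ProperlyInfinite {p : Type} [Fintype p] (H : Matrix p p A) : Prop :=
  CuntzLE (Matrix.fromBlocks H 0 0 H) H

variable (A)

/-- every positive element is properly infinite -/
def PurelyInfinite : Prop :=
  ∀ h : A, IsPos h → ProperlyInfinite (Matrix.diagonal fun _ : Fin 1 => h)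

/-- for some `n ≥ 1` the `n`-fold diagonal amplification of each positive element is
properly infinite -/
def WeaklyPurelyInfinite : Prop :=
  ∃ n : ℕ, 1 ≤ n ∧ ∀ h : A, IsPos h → ProperlyInfinite (Matrix.diagonal fun _ : Fin n => h)

/-- strong pure infiniteness -/
def StronglyPurelyInfinite : Prop :=
  ∀ x y : A, IsPos x → IsPos y → ∀ ε : ℝ, 0 < ε → ∃ s t : A,
    ‖star s * (x * x) * s - x * x‖ < ε ∧ ‖star t * (y * y) * t - y * y‖ < ε ∧
      ‖star s * (x * y) * t‖ < ε

/-- the closed two-sided ideals of `A` contain no infinite antichain -/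
def NoInfiniteAntichain : Prop :=
  ∀ S : Set (TwoSidedIdeal A), (∀ I ∈ S, IsClosed (I : Set A)) → IsAntichain (· ≤ ·) S → S.Finite

end NU

section U

attribute [local instance] CStarAlgebra.spectralOrder CStarAlgebra.spectralOrderedRing

variable {E : Type u} [CStarAlgebra E]

/-- closed two-sided ideals of `E` -/
structure CId (R : Ideal E) : Prop where
  two : R.IsTwoSided
  closed : IsClosed (R : Set E)

/-- the hereditary subalgebra generated by `h` -/
def Hr (h : E) : Set E := closure (Set.range fun z : E => h * z * h)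

/-- the closed right ideal generated by `h` -/
def Rt (h : E) : Set E := closure (Set.range fun z : E => h * z)

/-- Cuntz comparison (closure in the product topology of matrices) -/
def CLe {p q : Type} [Fintype q] (M : Matrix p p E) (N : Matrix q q E) : Prop :=
  M ∈ closure (Set.range fun X : Matrix q p E => X.conjTranspose * N * X)

/-- `b ⊗ 1_s` -/
def Dg (s : Type) [DecidableEq s] (b : E) : Matrix s s E := Matrix.diagonal fun _ => b

/-- the `n`-fold amplification of every positive element of `P` is properly infinite -/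
def WP (P : Ideal E) (n : ℕ) : Prop :=
  ∀ h ∈ P, 0 ≤ h → CLe (Dg (Fin n ⊕ Fin n) h) (Dg (Fin n) h)

/-- primeness of the kernel of `π`, relative to `P` -/
def PrimeAt {F : Type u} [CStarAlgebra F] (P : Ideal E) (π : E →⋆ₐ[ℂ] F) : Prop :=
  ∀ x ∈ P, ∀ y ∈ P, (∀ a, π (x * a * y) = 0) → π x = 0 ∨ π y = 0

/-- prime ideals, relative to `P` -/
def PrimeI (P R : Ideal E) : Prop :=
  ∀ x ∈ P, ∀ y ∈ P, (∀ a, x * a * y ∈ R) → x ∈ R ∨ y ∈ R

/-- the closed two-sided ideals below `P` contain no infinite antichain -/
def NoAnti (P : Ideal E) : Prop :=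
  ∀ S : Set (Ideal E), (∀ R ∈ S, CId R ∧ R ≤ P) → IsAntichain (· ≤ ·) S → S.Finite

/-- `(h - ε)_+` -/
noncomputable def cut (ε : ℝ) (h : E) : E := cfc (fun t : ℝ => max (t - ε) 0) h

/-- `T` is a finite set of closed prime ideals for `(h, ε)`: none contains `h`, and an element of `P` outside all of
them generates an ideal containing `(h - ε)_+` -/
structure PrimeSet (P : Ideal E) (h : E) (ε : ℝ) (T : Finset (Ideal E)) : Prop where
  cid : ∀ R ∈ T, CId R
  le : ∀ R ∈ T, R ≤ P
  prime : ∀ R ∈ T, PrimeI P R
  not_mem : ∀ R ∈ T, h ∉ R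
  gen : ∀ z ∈ P, (∀ R ∈ T, z ∉ R) → ∀ I : Ideal E, CId I → z ∈ I → cut ε h ∈ I

end U

end P133
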