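import Vale.Agent.Lib.P133.Cu
import Vale.Agent.Lib.P133.Quo

/-!
# P133, module Gen: ideals and comparison

* `le_approx`: for `0 ≤ u ≤ k` and `δ > 0`: with `r = (k + δ)^(-1/2) * √u` one has
  `u - star r * k * r = √u * (δ (k + δ)⁻¹) * √u`, norm `δ ‖(k + δ)^(-1/2) u (k + δ)^(-1/2)‖ ≤ δ ‖k (k + δ)⁻¹‖ ≤ δ`.
  (`(k + δ)^(-1/2) = cfc (fun t => 1 / √(t + δ)) k`, `√u = CFC.sqrt u`.)
* `gen_approx`: let `C` be the closure of the set of all `∑ i : Fin m, star (x i) * b * x i`.  `C` is closed under
  addition, conjugation `star z * _ * z`, and hereditary (`le_approx`).  `R = {y | star y * y ∈ C}` is a closed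
  two-sided ideal: `star (z y) (z y) ≤ ‖z‖ ^ 2 star y y`, `star (y + y') (y + y') ≤ 2 star y y + 2 star y' y'`,
  `star (y z) (y z) = star z (star y y) z`.  `√b ∈ R`, so `b = √b * √b ∈ R`, so `a ∈ R` by hypothesis, so `√a ∈ R` (`cid_of_star_mul`),
  so `a ∈ C`.
* `cle_of_ideal`: `∑ i, star (x i) * b * x i` is `Xᴴ * Dg (Fin m) b * X` (`X i 0 = x i`), `cle_conj`, `wp_all`,
  `cle_trans`, `cle_closed`.
-/

open scoped Topology

namespace P133

universe u

attribute [local instance] CStarAlgebra.spectralOrder CStarAlgebra.spectralOrderedRing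

variable {E : Type u} [CStarAlgebra E]

private theorem Gen_g {k : E} (hk : 0 ≤ k) {δ : ℝ} (hδ : 0 < δ) :
    ∃ g : E, star g = g ∧ g * k * g + δ • (g * g) = 1 := by
  have hspec : ∀ t ∈ spectrum ℝ k, 0 ≤ t := fun t ht => spectrum_nonneg_of_nonneg hk ht
  have hf : ContinuousOn (fun t : ℝ => (Real.sqrt (t + δ))⁻¹) (spectrum ℝ k) := by
    refine ContinuousOn.inv₀ (by fun_prop) fun t ht => ?_
    exact (Real.sqrt_pos.2 (by linarith [hspec t ht])).ne'
  set f : ℝ → ℝ := fun t : ℝ => (Real.sqrt (t + δ))⁻¹ with hfdef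
  refine ⟨cfc f k, (cfc_predicate f k).star_eq, ?_⟩
  have hk' : cfc (fun t : ℝ => t) k = k := cfc_id' ℝ k
  have h1 : cfc f k * k * cfc f k = cfc (fun t : ℝ => f t * t * f t) k := by
    calc cfc f k * k * cfc f k = cfc f k * cfc (fun t : ℝ => t) k * cfc f k := by rw [hk']
      _ = _ := by
        rw [← cfc_mul f (fun t => t) k hf continuousOn_id,
          ← cfc_mul (fun t => f t * t) f k (hf.mul continuousOn_id) hf]
  have h2 : δ • (cfc f k * cfc f k) = cfc (fun t : ℝ => δ * (f t * f t)) k := by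
    rw [← cfc_mul f f k hf hf, cfc_const_mul δ (fun t => f t * f t) k (hf.mul hf)]
  rw [h1, h2, ← cfc_add k (fun t : ℝ => f t * t * f t) (fun t : ℝ => δ * (f t * f t))
    ((hf.mul continuousOn_id).mul hf) (continuousOn_const.mul (hf.mul hf)),
    ← cfc_const_one ℝ k]
  refine cfc_congr fun t ht => ?_
  have h3 : 0 < t + δ := by linarith [hspec t ht]
  have h4 : f t * f t = (t + δ)⁻¹ := by
    rw [hfdef]
    change (Real.sqrt (t + δ))⁻¹ * (Real.sqrt (t + δ))⁻¹ = _
    rw [← mul_inv, Real.mul_self_sqrt h3.le]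
  change f t * t * f t + δ * (f t * f t) = 1
  calc f t * t * f t + δ * (f t * f t) = (t + δ) * (f t * f t) := by ring
    _ = 1 := by rw [h4, mul_inv_cancel₀ h3.ne']

theorem le_approx {u k : E} (hu : 0 ≤ u) (huk : u ≤ k) {δ : ℝ} (hδ : 0 < δ) :
    ∃ r : E, ‖u - star r * k * r‖ ≤ δ := by
  obtain ⟨g, hg, hgk⟩ := Gen_g (hu.trans huk) hδ
  have hs : star (CFC.sqrt u) = CFC.sqrt u := (IsSelfAdjoint.of_nonneg (CFC.sqrt_nonneg u)).star_eq
  have hss : CFC.sqrt u * CFC.sqrt u = u := CFC.sqrt_mul_sqrt_self u hu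
  refine ⟨g * CFC.sqrt u, ?_⟩
  have h1 : u - star (g * CFC.sqrt u) * k * (g * CFC.sqrt u) =
      δ • (star (g * CFC.sqrt u) * (g * CFC.sqrt u)) := by
    have h2 : CFC.sqrt u * (g * k * g + δ • (g * g)) * CFC.sqrt u = u := by
      rw [hgk, mul_one, hss]
    rw [star_mul, hg, hs]
    nth_rw 1 [← h2]
    rw [mul_add, add_mul, mul_smul_comm, smul_mul_assoc]
    simp only [mul_assoc]
    abel
  rw [h1, norm_smul, Real.norm_eq_abs, abs_of_pos hδ]
  have h3 : ‖star (g * CFC.sqrt u) * (g * CFC.sqrt u)‖ ≤ 1 := by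
    rw [CStarRing.norm_star_mul_self, ← CStarRing.norm_self_mul_star]
    have h4 : g * CFC.sqrt u * star (g * CFC.sqrt u) = g * u * g := by
      rw [star_mul, hg, hs]
      calc g * CFC.sqrt u * (CFC.sqrt u * g) = g * (CFC.sqrt u * CFC.sqrt u) * g := by
            simp only [mul_assoc]
        _ = _ := by rw [hss]
    rw [h4]
    have h5 : 0 ≤ g * u * g := by
      have := star_left_conjugate_nonneg hu g
      rwa [hg] at this
    rw [CStarAlgebra.norm_le_one_iff_of_nonneg (g * u * g) h5]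
    have h6 : g * u * g ≤ g * k * g := by
      have := star_left_conjugate_le_conjugate huk g
      rwa [hg] at this
    refine h6.trans ?_
    rw [← hgk]
    refine le_add_of_nonneg_right (smul_nonneg hδ.le ?_)
    have := star_mul_self_nonneg g
    rwa [hg] at this
  calc δ * _ ≤ δ * 1 := mul_le_mul_of_nonneg_left h3 hδ.le
    _ = δ := mul_one δ

/-- the closed cone generated by `star x * b * x` -/
private def GenC (b : E) : Set E :=
  closure (AddSubmonoid.closure (Set.range fun x : E => star x * b * x) : Set E)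

private theorem GenC_add {b x y : E} (hx : x ∈ GenC b) (hy : y ∈ GenC b) : x + y ∈ GenC b :=
  map_mem_closure₂ continuous_add hx hy fun _ h1 _ h2 => add_mem h1 h2

private theorem GenC_zero (b : E) : (0 : E) ∈ GenC b := subset_closure (zero_mem _)

private theorem GenC_conj {b x : E} (hx : x ∈ GenC b) (z : E) : star z * x * z ∈ GenC b := by
  refine map_mem_closure (f := fun y => star z * y * z) (by fun_prop) hx fun y hy => ?_
  induction hy using AddSubmonoid.closure_induction with
  | mem y hy =>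
    obtain ⟨w, rfl⟩ := hy
    refine AddSubmonoid.subset_closure ⟨w * z, ?_⟩
    change star (w * z) * b * (w * z) = star z * (star w * b * w) * z
    rw [star_mul]
    simp only [mul_assoc]
  | zero =>
    change star z * 0 * z ∈ _
    rw [mul_zero, zero_mul]
    exact zero_mem _
  | add y y' _ _ h1 h2 =>
    change star z * (y + y') * z ∈ _
    rw [mul_add, add_mul]
    exact add_mem h1 h2

private theorem GenC_her {b u k : E} (hu : 0 ≤ u) (huk : u ≤ k) (hk : k ∈ GenC b) :
    u ∈ GenC b := by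
  have h0 : IsClosed (GenC b) := isClosed_closure
  rw [← h0.closure_eq, Metric.mem_closure_iff]
  intro ε hε
  obtain ⟨r, hr⟩ := le_approx hu huk (half_pos hε)
  refine ⟨star r * k * r, GenC_conj hk r, ?_⟩
  rw [dist_eq_norm]
  exact lt_of_le_of_lt hr (half_lt_self hε)

private theorem GenC_smul {b x : E} (hx : x ∈ GenC b) {c : ℝ} (hc : 0 ≤ c) : c • x ∈ GenC b := by
  have h1 := GenC_conj hx ((Real.sqrt c : ℝ) • (1 : E))
  rw [star_smul, star_one, smul_mul_assoc, one_mul, smul_mul_assoc, mul_smul_comm, mul_one,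
    smul_smul] at h1
  have h2 : star (Real.sqrt c) * Real.sqrt c = c := by
    change Real.sqrt c * Real.sqrt c = c
    exact Real.mul_self_sqrt hc
  rwa [h2] at h1

/-- the ideal generated by `b` -/
private def GenI (b : E) : Ideal E where
  carrier := {y | star y * y ∈ GenC b}
  add_mem' := by
    intro y y' hy hy'
    change star (y + y') * (y + y') ∈ GenC b
    have h1 : star (y + y') * (y + y') + star (y - y') * (y - y') =
        (star y * y + star y * y) + (star y' * y' + star y' * y') := by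
      rw [star_add, star_sub]
      noncomm_ring
    have h2 : star (y + y') * (y + y') ≤
        (star y * y + star y * y) + (star y' * y' + star y' * y') := by
      rw [← h1]
      exact le_add_of_nonneg_right (star_mul_self_nonneg _)
    exact GenC_her (star_mul_self_nonneg _) h2 (GenC_add (GenC_add hy hy) (GenC_add hy' hy'))
  zero_mem' := by
    change star (0 : E) * 0 ∈ GenC b
    rw [mul_zero]
    exact GenC_zero b
  smul_mem' := by
    intro z y hy
    change star (z * y) * (z * y) ∈ GenC b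
    have h1 : star (z * y) * (z * y) = star y * (star z * z) * y := by
      rw [star_mul]
      simp only [mul_assoc]
    have h2 : star y * (star z * z) * y ≤ ‖star z * z‖ • (star y * y) :=
      CStarAlgebra.star_left_conjugate_le_norm_smul (IsSelfAdjoint.star_mul_self z)
    rw [h1]
    exact GenC_her (star_left_conjugate_nonneg (star_mul_self_nonneg z) y) h2
      (GenC_smul hy (norm_nonneg _))

private theorem GenI_cid (b : E) : CId (GenI b) where
  two := ⟨fun {y} z hy => by
    change star (y * z) * (y * z) ∈ GenC b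
    have h1 : star (y * z) * (y * z) = star z * (star y * y) * z := by
      rw [star_mul]
      simp only [mul_assoc]
    rw [h1]
    exact GenC_conj hy z⟩
  closed := IsClosed.preimage (f := fun y : E => star y * y) (by fun_prop)
    (isClosed_closure : IsClosed (GenC b))

theorem gen_approx {a b : E} (ha : 0 ≤ a) (hb : 0 ≤ b)
    (h : ∀ R : Ideal E, CId R → b ∈ R → a ∈ R) {ε : ℝ} (hε : 0 < ε) :
    ∃ (m : ℕ) (x : Fin m → E), ‖a - ∑ i, star (x i) * b * x i‖ < ε := by
  have hsb : star (CFC.sqrt b) = CFC.sqrt b := (IsSelfAdjoint.of_nonneg (CFC.sqrt_nonneg b)).star_eq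
  have hssb : CFC.sqrt b * CFC.sqrt b = b := CFC.sqrt_mul_sqrt_self b hb
  have hsa : star (CFC.sqrt a) = CFC.sqrt a := (IsSelfAdjoint.of_nonneg (CFC.sqrt_nonneg a)).star_eq
  have hssa : CFC.sqrt a * CFC.sqrt a = a := CFC.sqrt_mul_sqrt_self a ha
  have hbI : b ∈ GenI b := by
    change star b * b ∈ GenC b
    refine subset_closure (AddSubmonoid.subset_closure ⟨CFC.sqrt b, ?_⟩)
    change star (CFC.sqrt b) * b * CFC.sqrt b = star b * b
    rw [hsb, (IsSelfAdjoint.of_nonneg hb).star_eq]
    nth_rw 2 [← hssb]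
    calc CFC.sqrt b * (CFC.sqrt b * CFC.sqrt b) * CFC.sqrt b =
        (CFC.sqrt b * CFC.sqrt b) * (CFC.sqrt b * CFC.sqrt b) := by simp only [mul_assoc]
      _ = b * b := by rw [hssb]
  have haI : a ∈ GenI b := h _ (GenI_cid b) hbI
  have hsaI : CFC.sqrt a ∈ GenI b := by
    refine cid_of_star_mul (GenI_cid b) ?_
    rw [hsa, hssa]
    exact haI
  have haC : a ∈ GenC b := by
    have h1 : star (CFC.sqrt a) * CFC.sqrt a ∈ GenC b := hsaI
    rwa [hsa, hssa] at h1
  obtain ⟨y, hy, hay⟩ := Metric.mem_closure_iff.1 haC ε hε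
  obtain ⟨l, hl, rfl⟩ := AddSubmonoid.exists_list_of_mem_closure hy
  choose! x hx using hl
  refine ⟨l.length, fun i => x (l.get i), ?_⟩
  have h1 : ∑ i, star (x (l.get i)) * b * x (l.get i) = l.sum := by
    have h2 : ∀ i, star (x (l.get i)) * b * x (l.get i) = l.get i := fun i =>
      hx _ (l.get_mem i)
    rw [Finset.sum_congr rfl fun i _ => h2 i, ← List.sum_ofFn, List.ofFn_get]
  rw [h1, ← dist_eq_norm]
  exact hay

theorem cle_of_ideal {P : Ideal E} {n : ℕ} (hn : 1 ≤ n) (hP : WP P n) {a b : E} (ha : 0 ≤ a)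
    (hb : 0 ≤ b) (hbP : b ∈ P) (h : ∀ R : Ideal E, CId R → b ∈ R → a ∈ R) :
    CLe (Dg (Fin 1) a) (Dg (Fin n) b) := by
  have hcl : IsClosed {c : E | CLe (Dg (Fin 1) c) (Dg (Fin n) b)} := by
    refine (cle_closed (p := Fin 1) (Dg (Fin n) b)).preimage (f := fun c : E => Dg (Fin 1) c) ?_
    unfold Dg
    fun_prop
  have hmem : a ∈ closure {c : E | CLe (Dg (Fin 1) c) (Dg (Fin n) b)} := by
    rw [Metric.mem_closure_iff]
    intro ε hε
    obtain ⟨m, x, hx⟩ := gen_approx ha hb h hε
    refine ⟨_, ?_, by rw [dist_eq_norm]; exact hx⟩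
    have h1 : Dg (Fin 1) (∑ i, star (x i) * b * x i) =
        (Matrix.of fun (i : Fin m) (_ : Fin 1) => x i).conjTranspose * Dg (Fin m) b *
          (Matrix.of fun (i : Fin m) (_ : Fin 1) => x i) := by
      ext i j
      rw [Subsingleton.elim i j]
      simp [Dg, Matrix.mul_apply, Matrix.diagonal_apply]
    change CLe (Dg (Fin 1) (∑ i, star (x i) * b * x i)) (Dg (Fin n) b)
    rw [h1]
    exact cle_trans (cle_conj _ _) (wp_all hn hP hbP hb m)
  rw [hcl.closure_eq] at hmem
  exact hmem

end P133
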