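import Vale.Agent.Lib.P133.Quo

/-!
# P133, module Zorn: the finite set of primes

`M = {I | CId I ∧ I ≤ P ∧ ∀ y ∈ I, ε ≤ ‖h - y‖}`.

* `bad_chain`: the closure of the union of a nonempty chain in `M` is in `M` (`sSup` of a directed set of ideals is the
  union, `Submodule.mem_sSup_of_directed`; `Ideal.closure`; two-sidedness passes to unions and closures; the condition
  `ε ≤ ‖h - y‖` is closed in `y`).
* `bad_maximal`: `zorn_le_nonempty₀`.
* `genId x R`: the closure of `R + E x E`; a closed two-sided ideal containing `R` and `x`, `≤ P` if `R ≤ P`, `x ∈ P`.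
* `maximal_prime`: `R` maximal in `M`, `x, y ∈ P`, `x a y ∈ R` for all `a`, `x, y ∉ R`.  `I₁ = genId x R`, `I₂ = genId y R` are
  not in `M`: `y_i ∈ I_i` with `‖h - y_i‖ < ε`; `η = max ‖h - y₁‖ ‖h - y₂‖ < ε`, `cut η h ∈ I₁ ∩ I₂` (`cid_cut`),
  `cut η h * cut η h ∈ R` (`I₁ I₂ ⊆ R`: `(r + ∑ a x b) (r' + ∑ c y d) ∈ R`, closure), so `cut η h ∈ R` (`cid_of_star_mul`), but
  `‖h - cut η h‖ ≤ η < ε` (`norm_sub_cut`), a contradiction.
* `exists_primeSet`: the set of maximal elements of `M` is an antichain of closed ideals `≤ P`, finite by `NoAnti`.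
  `h ∉ R` since `ε ≤ ‖h - h‖` fails.  `gen`: `I ⊓ P` (`cid_inf`) is not in `M` (otherwise it is below some maximal `R`, and
  `z ∈ I ⊓ P`), so there is `y ∈ I ⊓ P` with `‖h - y‖ < ε`; `cid_cut`.
-/

open scoped Topology

namespace P133

universe u

attribute [local instance] CStarAlgebra.spectralOrder CStarAlgebra.spectralOrderedRing

variable {E : Type u} [CStarAlgebra E]

/-- closed two-sided ideals below `P` at distance `≥ ε` from `h` -/
def Bad (P : Ideal E) (h : E) (ε : ℝ) : Set (Ideal E) :=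
  {I | CId I ∧ I ≤ P ∧ ∀ y ∈ I, ε ≤ ‖h - y‖}

theorem bad_chain {P : Ideal E} (hP : CId P) {h : E} {ε : ℝ} {C : Set (Ideal E)}
    (hC : C ⊆ Bad P h ε) (hchain : IsChain (· ≤ ·) C) (hne : C.Nonempty) :
    ∃ J ∈ Bad P h ε, ∀ I ∈ C, I ≤ J := by
  have hmem : ∀ z, z ∈ sSup C ↔ ∃ I ∈ C, z ∈ I := fun z =>
    Submodule.mem_sSup_of_directed hne hchain.directedOn
  refine ⟨(sSup C).closure, ⟨⟨?_, ?_⟩, ?_, ?_⟩, ?_⟩
  · refine ⟨fun {a} b ha => ?_⟩
    have ha' : a ∈ closure ((sSup C : Ideal E) : Set E) := ha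
    have : a * b ∈ closure ((sSup C : Ideal E) : Set E) := by
      refine map_mem_closure (f := fun x : E => x * b) (continuous_mul_const b) ha' fun x hx => ?_
      obtain ⟨I, hI, hxI⟩ := (hmem x).1 hx
      exact (hmem _).2 ⟨I, hI, cid_mul_right (hC hI).1 hxI b⟩
    exact this
  · exact isClosed_closure
  · intro x hx
    have hx' : x ∈ closure ((sSup C : Ideal E) : Set E) := hx
    refine closure_minimal ?_ hP.closed hx'
    intro y hy
    obtain ⟨I, hI, hyI⟩ := (hmem y).1 hy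
    exact (hC hI).2.1 hyI
  · intro x hx
    have hx' : x ∈ closure ((sSup C : Ideal E) : Set E) := hx
    have hcl : IsClosed {y : E | ε ≤ ‖h - y‖} :=
      isClosed_le continuous_const (continuous_const.sub continuous_id).norm
    refine closure_minimal ?_ hcl hx'
    intro y hy
    obtain ⟨I, hI, hyI⟩ := (hmem y).1 hy
    exact (hC hI).2.2 y hyI
  · intro I hI x hx
    exact subset_closure ((hmem x).2 ⟨I, hI, hx⟩)

theorem bad_maximal {P : Ideal E} (hP : CId P) {h : E} {ε : ℝ} {I : Ideal E}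
    (hI : I ∈ Bad P h ε) : ∃ R, I ≤ R ∧ Maximal (· ∈ Bad P h ε) R :=
  zorn_le_nonempty₀ (Bad P h ε) (fun _ hC hch _ hy => bad_chain hP hC hch ⟨_, hy⟩) I hI

/-- the closed two-sided ideal generated by `R` and `x` -/
theorem exists_genId {P R : Ideal E} (hP : CId P) (hR : CId R) (hRP : R ≤ P) {x : E}
    (hx : x ∈ P) : ∃ I : Ideal E, CId I ∧ R ≤ I ∧ x ∈ I ∧ I ≤ P ∧
      ∀ u ∈ I, ∀ δ : ℝ, 0 < δ → ∃ (m : ℕ) (a b : Fin m → E), ∃ r ∈ R,
        ‖u - (r + ∑ i, a i * x * b i)‖ < δ := by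
  obtain ⟨T, hT⟩ : ∃ T : Ideal E, T = Submodule.span E (Set.range fun b : E => x * b) := ⟨_, rfl⟩
  have hT1 : ∀ t ∈ T, ∀ b : E, t * b ∈ T := by
    intro t ht b
    rw [hT] at ht ⊢
    induction ht using Submodule.span_induction with
    | mem y hy =>
      obtain ⟨c, rfl⟩ := hy
      refine Submodule.subset_span ⟨c * b, ?_⟩
      simp only [mul_assoc]
    | zero => rw [zero_mul]; exact Submodule.zero_mem _
    | add y z _ _ hy hz => rw [add_mul]; exact Submodule.add_mem _ hy hz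
    | smul a y _ hy =>
      rw [smul_eq_mul, mul_assoc]
      exact Submodule.smul_mem _ a hy
  have hT2 : ∀ s ∈ R ⊔ T, ∀ b : E, s * b ∈ R ⊔ T := by
    intro s hs b
    obtain ⟨r, hr, t, ht, rfl⟩ := Submodule.mem_sup.1 hs
    rw [add_mul]
    exact Submodule.add_mem_sup (cid_mul_right hR hr b) (hT1 t ht b)
  have hxT : x ∈ T := by
    rw [hT]
    exact Submodule.subset_span ⟨1, mul_one x⟩
  refine ⟨(R ⊔ T).closure, ⟨?_, ?_⟩, ?_, ?_, ?_, ?_⟩
  · refine ⟨fun {a} b ha => ?_⟩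
    have ha' : a ∈ closure ((R ⊔ T : Ideal E) : Set E) := ha
    have : a * b ∈ closure ((R ⊔ T : Ideal E) : Set E) :=
      map_mem_closure (f := fun x : E => x * b) (continuous_mul_const b) ha'
        fun y hy => hT2 y hy b
    exact this
  · exact isClosed_closure
  · intro y hy
    exact subset_closure (Submodule.mem_sup_left hy)
  · exact subset_closure (Submodule.mem_sup_right hxT)
  · intro y hy
    have hy' : y ∈ closure ((R ⊔ T : Ideal E) : Set E) := hy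
    refine closure_minimal ?_ hP.closed hy'
    have h1 : T ≤ P := by
      rw [hT, Submodule.span_le]
      rintro _ ⟨b, rfl⟩
      exact cid_mul_right hP hx b
    exact (sup_le hRP h1 : R ⊔ T ≤ P)
  · intro u hu δ hδ
    have hu' : u ∈ closure ((R ⊔ T : Ideal E) : Set E) := hu
    obtain ⟨w, hw, hd⟩ := Metric.mem_closure_iff.1 hu' δ hδ
    obtain ⟨r, hr, t, ht, rfl⟩ := Submodule.mem_sup.1 hw
    rw [hT, Submodule.mem_span_set'] at ht
    obtain ⟨m, f, g, rfl⟩ := ht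
    have hg : ∀ i, ∃ b : E, x * b = (g i : E) := fun i => (g i).2
    choose b hb using hg
    refine ⟨m, f, b, r, hr, ?_⟩
    have e : ∑ i, f i * x * b i = ∑ i, f i • (g i : E) := by
      refine Finset.sum_congr rfl fun i _ => ?_
      rw [← hb i, smul_eq_mul, mul_assoc]
    rw [e, ← dist_eq_norm]
    exact hd

/-- products of elements of two generated ideals -/
theorem Zorn_mul {R : Ideal E} (hR : CId R) {x y : E} (hxy : ∀ a, x * a * y ∈ R) {u v : E}
    (hu : ∀ δ : ℝ, 0 < δ → ∃ (m : ℕ) (a b : Fin m → E), ∃ r ∈ R,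
        ‖u - (r + ∑ i, a i * x * b i)‖ < δ)
    (hv : ∀ δ : ℝ, 0 < δ → ∃ (m : ℕ) (a b : Fin m → E), ∃ r ∈ R,
        ‖v - (r + ∑ i, a i * y * b i)‖ < δ) : u * v ∈ R := by
  have hcl : ∀ (z : E) (w : E), (∀ δ : ℝ, 0 < δ → ∃ (m : ℕ) (a b : Fin m → E), ∃ r ∈ R,
        ‖w - (r + ∑ i, a i * z * b i)‖ < δ) →
      w ∈ closure {w' : E | ∃ (m : ℕ) (a b : Fin m → E), ∃ r ∈ R,
        w' = r + ∑ i, a i * z * b i} := by
    intro z w hw
    refine Metric.mem_closure_iff.2 fun δ hδ => ?_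
    obtain ⟨m, a, b, r, hr, h1⟩ := hw δ hδ
    exact ⟨_, ⟨m, a, b, r, hr, rfl⟩, by rw [dist_eq_norm]; exact h1⟩
  have h1 : ∀ (m : ℕ) (a b : Fin m → E), ∀ r ∈ R, ∀ (m' : ℕ) (a' b' : Fin m' → E), ∀ r' ∈ R,
      (r + ∑ i, a i * x * b i) * (r' + ∑ i, a' i * y * b' i) ∈ R := by
    intro m a b r hr m' a' b' r' hr'
    rw [add_mul, mul_add (∑ i, a i * x * b i)]
    refine R.add_mem (cid_mul_right hR hr _) (R.add_mem (R.mul_mem_left _ hr') ?_)
    rw [Finset.sum_mul_sum]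
    refine R.sum_mem fun i _ => R.sum_mem fun j _ => ?_
    have e : a i * x * b i * (a' j * y * b' j) = a i * ((x * (b i * a' j) * y) * b' j) := by
      simp only [mul_assoc]
    rw [e]
    exact R.mul_mem_left _ (cid_mul_right hR (hxy _) _)
  have h2 : ∀ (m' : ℕ) (a' b' : Fin m' → E), ∀ r' ∈ R,
      u * (r' + ∑ i, a' i * y * b' i) ∈ R := by
    intro m' a' b' r' hr'
    have hc : IsClosed {w : E | w * (r' + ∑ i, a' i * y * b' i) ∈ R} :=
      hR.closed.preimage (continuous_mul_const _)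
    refine closure_minimal ?_ hc (hcl x u hu)
    rintro w ⟨m, a, b, r, hr, rfl⟩
    exact h1 m a b r hr m' a' b' r' hr'
  have hc : IsClosed {w : E | u * w ∈ R} := hR.closed.preimage (continuous_const_mul _)
  refine closure_minimal ?_ hc (hcl y v hv)
  rintro w ⟨m, a, b, r, hr, rfl⟩
  exact h2 m a b r hr

theorem maximal_prime {P : Ideal E} (hP : CId P) {h : E} (h0 : 0 ≤ h) {ε : ℝ} {R : Ideal E}
    (hR : Maximal (· ∈ Bad P h ε) R) : PrimeI P R := by
  have hRC : CId R := hR.prop.1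
  have hRP : R ≤ P := hR.prop.2.1
  -- an ideal that is larger is not in `Bad`
  have key : ∀ x ∈ P, x ∉ R → ∃ I : Ideal E, CId I ∧ (∃ y ∈ I, ‖h - y‖ < ε) ∧
      ∀ u ∈ I, ∀ δ : ℝ, 0 < δ → ∃ (m : ℕ) (a b : Fin m → E), ∃ r ∈ R,
        ‖u - (r + ∑ i, a i * x * b i)‖ < δ := by
    intro x hx hxR
    obtain ⟨I, hI, hRI, hxI, hIP, happ⟩ := exists_genId hP hRC hRP hx
    refine ⟨I, hI, ?_, happ⟩
    by_contra hno
    have hIB : I ∈ Bad P h ε := by
      refine ⟨hI, hIP, fun y hy => ?_⟩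
      by_contra hlt
      exact hno ⟨y, hy, not_le.1 hlt⟩
    exact hxR (hR.le_of_ge hIB hRI hxI)
  intro x hx y hy hxy
  by_contra hno
  rw [not_or] at hno
  obtain ⟨I₁, hI₁, ⟨y₁, hy₁, hn₁⟩, ha₁⟩ := key x hx hno.1
  obtain ⟨I₂, hI₂, ⟨y₂, hy₂, hn₂⟩, ha₂⟩ := key y hy hno.2
  obtain ⟨η, hη⟩ : ∃ η, η = max ‖h - y₁‖ ‖h - y₂‖ := ⟨_, rfl⟩
  have hη0 : 0 ≤ η := hη ▸ (norm_nonneg _).trans (le_max_left _ _)
  have hηε : η < ε := hη ▸ max_lt hn₁ hn₂
  have hc₁ : cut η h ∈ I₁ := cid_cut hI₁ h0 hy₁ (hη ▸ le_max_left _ _)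
  have hc₂ : cut η h ∈ I₂ := cid_cut hI₂ h0 hy₂ (hη ▸ le_max_right _ _)
  have hcc : cut η h * cut η h ∈ R := Zorn_mul hRC hxy (ha₁ _ hc₁) (ha₂ _ hc₂)
  have hcs : star (cut η h) = cut η h := (cut_nonneg η h).isSelfAdjoint.star_eq
  have hcR : cut η h ∈ R := cid_of_star_mul hRC (by rw [hcs]; exact hcc)
  have h1 := hR.prop.2.2 _ hcR
  have h2 := norm_sub_cut h0 hη0
  linarith

/-- finitely many maximal bad ideals -/
def FinMax (P : Ideal E) : Prop :=
  ∀ h ∈ P, 0 ≤ h → ∀ ε : ℝ, 0 < ε → {R | Maximal (· ∈ Bad P h ε) R}.Finite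

theorem finMax_of_noAnti {P : Ideal E} (hN : NoAnti P) : FinMax P := by
  intro h _ _ ε _
  refine hN _ (fun R hR => ⟨hR.prop.1, hR.prop.2.1⟩) ?_
  intro R hR R' hR' hne hle
  exact hne (le_antisymm hle (hR.le_of_ge hR'.prop hle))

theorem exists_primeSet {P : Ideal E} (hP : CId P) (hN : FinMax P) {h : E} (hh : h ∈ P)
    (h0 : 0 ≤ h) {ε : ℝ} (hε : 0 < ε) : ∃ T : Finset (Ideal E), PrimeSet P h ε T := by
  have hfin : {R | Maximal (· ∈ Bad P h ε) R}.Finite := hN h hh h0 ε hε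
  have hmem : ∀ R, R ∈ hfin.toFinset ↔ Maximal (· ∈ Bad P h ε) R := fun R => by
    rw [Set.Finite.mem_toFinset]
    rfl
  refine ⟨hfin.toFinset, ?_, ?_, ?_, ?_, ?_⟩
  · intro R hR
    exact ((hmem R).1 hR).prop.1
  · intro R hR
    exact ((hmem R).1 hR).prop.2.1
  · intro R hR
    exact maximal_prime hP h0 ((hmem R).1 hR)
  · intro R hR hhR
    have := ((hmem R).1 hR).prop.2.2 h hhR
    rw [sub_self, norm_zero] at this
    linarith
  · intro z hz hzT I hI hzI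
    by_contra hcut
    have hB : I ⊓ P ∈ Bad P h ε := by
      refine ⟨cid_inf hI hP, inf_le_right, fun y hy => ?_⟩
      by_contra hlt
      exact hcut (cid_cut hI h0 hy.1 (not_le.1 hlt).le)
    obtain ⟨R, hle, hR⟩ := bad_maximal hP hB
    exact hzT R ((hmem R).2 hR) (hle ⟨hzI, hz⟩)

end P133
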