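import Vale.Agent.Lib.P133.CombB
import Vale.Agent.Lib.P133.Gen
import Vale.Agent.Lib.P133.Zorn

/-!
# P133, module PtoS: purely infinite implies strongly purely infinite

* `exists_u`: `cut ε a` is in every closed ideal containing `cut γ c`; `cle_of_ideal` (`n = 1`) and `cle_one`: `r` with
  `‖star r * cut γ c * r - cut ε a‖ ≤ ε`; `u = √(cut γ c) * r` (`√(cut γ c) = cfc (fun t => √(max (t - γ) 0)) c`),
  `‖u‖² ≤ ‖a‖ + ε`, `u = k * c * u` with `k = cfc (fun t => 1 / max t γ) c`, `‖k‖ ≤ 1 / γ`, `u ∈ Rt c`; here `u = u' c`-type identity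
  is `star u = star u * c * k` (`c`, `k` commute).
* `sp_unit`: (norms `≤ 1`) `T = T_x ∪ T_y` (`exists_primeSet` for `x * x` and `y * y` and `ε`), `ν` from `comb_orth` (`x * x ∉ R → x ∉ R`),
  `γ = ν / 2`, `η` small; `c, d`; `cut γ c ∉ R` for `R ∈ T_x` (`cut_not_mem`), so by `gen` the hypothesis of `exists_u`.
  `u, v`; `‖star u * v‖ = ‖star u * k * (c * d) * k' * v‖ ≤ 2 * 2 * γ⁻² * η` (`ε ≤ 1`).  `u ∈ Rt c ⊆ Rt x` (`hr_rt`, `rt_trans`):
  `s` with `‖x * s - u‖` small, `t` with `‖y * t - v‖` small: `star s (x x) s ≈ star u u ≈ x x` (error `≤ 3 ε`).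
* `sp_of_wp`: scaling: `x = ‖x‖ x₀`, `y = ‖y‖ y₀` (zero trivial); then replace `s`, `t` by `s * e`, `t * e'` with `e, e' ∈ P`
  contractions, `‖e (x x) e - x x‖` small (`hr_unit`).
-/

open scoped Topology

namespace P133

universe u

attribute [local instance] CStarAlgebra.spectralOrder CStarAlgebra.spectralOrderedRing

variable {E : Type u} [CStarAlgebra E]

theorem exists_u {P : Ideal E} (hW : WP P 1) {a c : E} (ha : 0 ≤ a) (ha1 : ‖a‖ ≤ 1) (hcP : c ∈ P)
    (hP : CId P) (hc : 0 ≤ c) {γ ε : ℝ} (hγ : 0 < γ) (hε : 0 < ε) (hε1 : ε ≤ 1)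
    (h : ∀ I : Ideal E, CId I → cut γ c ∈ I → cut ε a ∈ I) :
    ∃ u ∈ Rt c, ‖star u * u - a‖ ≤ 2 * ε ∧ ‖u‖ ≤ 2 ∧ ∃ k : E, ‖k‖ ≤ γ⁻¹ ∧ star u = star u * k * c := by
  have hb0 : 0 ≤ cut γ c := cut_nonneg γ c
  have hbP : cut γ c ∈ P := by
    unfold cut
    exact cid_cfc hP hc.isSelfAdjoint hcP (continuous_cutf γ) (max_eq_right (by linarith))
  have hle : CLe (Dg (Fin 1) (cut ε a)) (Dg (Fin 1) (cut γ c)) :=
    cle_of_ideal le_rfl hW (cut_nonneg ε a) hb0 hbP h
  obtain ⟨_, ⟨r, rfl⟩, hr⟩ := Metric.mem_closure_iff.1 (cle_one.1 hle) ε hε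
  rw [dist_eq_norm] at hr
  set q : E := cfc (fun t : ℝ => √(max (t - γ) 0)) c with hq
  set k : E := cfc (fun t : ℝ => 1 / max t γ) c with hk
  have hqc : Continuous fun t : ℝ => √(max (t - γ) 0) := by fun_prop
  have hkc : Continuous fun t : ℝ => 1 / max t γ :=
    continuous_const.div (by fun_prop) fun t => (lt_max_of_lt_right hγ).ne'
  have hqs : star q = q := (cfc_predicate (fun t : ℝ => √(max (t - γ) 0)) c : IsSelfAdjoint _).star_eq
  have hqq : q * q = cut γ c := by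
    rw [hq, cut, ← cfc_mul (fun t : ℝ => √(max (t - γ) 0)) (fun t : ℝ => √(max (t - γ) 0)) c
      hqc.continuousOn hqc.continuousOn]
    exact cfc_congr fun t _ => Real.mul_self_sqrt (le_max_right _ _)
  have hid : ∀ t : ℝ, √(max (t - γ) 0) * (1 / max t γ) * t = √(max (t - γ) 0) := by
    intro t
    rcases le_total t γ with h1 | h1
    · rw [max_eq_right (by linarith : t - γ ≤ 0), Real.sqrt_zero, zero_mul, zero_mul]
    · rw [max_eq_left h1]
      have ht : t ≠ 0 := by linarith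
      field_simp
  have hqkc : q * k * c = q := by
    have h1 : q * k * c = cfc (fun t : ℝ => √(max (t - γ) 0) * (1 / max t γ) * t) c := by
      rw [cfc_mul (fun t : ℝ => √(max (t - γ) 0) * (1 / max t γ)) (fun t : ℝ => t) c
        (hqc.mul hkc).continuousOn (by fun_prop), cfc_mul (fun t : ℝ => √(max (t - γ) 0))
        (fun t : ℝ => 1 / max t γ) c hqc.continuousOn hkc.continuousOn,
        cfc_id' ℝ c hc.isSelfAdjoint]
    rw [h1, hq]
    exact cfc_congr fun t _ => hid t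
  have hckq : c * k * q = q := by
    have h1 : c * k * q = cfc (fun t : ℝ => t * (1 / max t γ) * √(max (t - γ) 0)) c := by
      rw [cfc_mul (fun t : ℝ => t * (1 / max t γ)) (fun t : ℝ => √(max (t - γ) 0)) c
        (continuous_id.mul hkc).continuousOn hqc.continuousOn, cfc_mul (fun t : ℝ => t)
        (fun t : ℝ => 1 / max t γ) c (by fun_prop) hkc.continuousOn,
        cfc_id' ℝ c hc.isSelfAdjoint]
    rw [h1, hq]
    refine cfc_congr fun t _ => ?_
    calc t * (1 / max t γ) * √(max (t - γ) 0) = √(max (t - γ) 0) * (1 / max t γ) * t := by ring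
      _ = √(max (t - γ) 0) := hid t
  have huu : star (q * r) * (q * r) = star r * cut γ c * r := by
    rw [star_mul, hqs, ← hqq]
    simp only [mul_assoc]
  have h1 : ‖star (q * r) * (q * r) - a‖ ≤ 2 * ε := by
    rw [huu]
    have h2 := norm_sub_cut ha hε.le
    calc ‖star r * cut γ c * r - a‖
        = ‖-(cut ε a - star r * cut γ c * r) - (a - cut ε a)‖ := by
          congr 1
          abel
      _ ≤ ‖-(cut ε a - star r * cut γ c * r)‖ + ‖a - cut ε a‖ := norm_sub_le _ _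
      _ ≤ ε + ε := by
          rw [norm_neg]
          exact add_le_add hr.le h2
      _ = 2 * ε := by ring
  refine ⟨q * r, ?_, h1, ?_, k, ?_, ?_⟩
  · have h2 : q * r = c * (k * q * r) := by
      rw [← mul_assoc, ← mul_assoc, hckq]
    rw [h2]
    exact mem_rt c _
  · have h2 : ‖star (q * r) * (q * r)‖ ≤ 4 := by
      calc ‖star (q * r) * (q * r)‖ = ‖(star (q * r) * (q * r) - a) + a‖ := by rw [sub_add_cancel]
        _ ≤ ‖star (q * r) * (q * r) - a‖ + ‖a‖ := norm_add_le _ _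
        _ ≤ 4 := by linarith
    rw [CStarRing.norm_star_mul_self] at h2
    nlinarith [norm_nonneg (q * r)]
  · refine norm_cfc_le (inv_nonneg.2 hγ.le) fun t _ => ?_
    have h2 : 0 < max t γ := lt_max_of_lt_right hγ
    rw [Real.norm_eq_abs, abs_of_nonneg (by positivity), one_div]
    exact inv_anti₀ hγ (le_max_right _ _)
  · rw [star_mul, hqs]
    calc star r * q = star r * (q * k * c) := by rw [hqkc]
      _ = star r * q * k * c := by simp only [mul_assoc]

/-- perturbation of a product -/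
private theorem PtoS_pert {a b u v : E} {δ : ℝ} (hδ1 : δ ≤ 1) (ha : ‖a - u‖ ≤ δ)
    (hb : ‖b - v‖ ≤ δ) (hu : ‖u‖ ≤ 2) (hv : ‖v‖ ≤ 2) :
    ‖star a * b - star u * v‖ ≤ 5 * δ := by
  have hδ : 0 ≤ δ := (norm_nonneg _).trans ha
  have e : star a * b - star u * v = star a * (b - v) + star (a - u) * v := by
    rw [star_sub]
    noncomm_ring
  have h1 : ‖a‖ ≤ 3 := by
    calc ‖a‖ = ‖(a - u) + u‖ := by rw [sub_add_cancel]
      _ ≤ ‖a - u‖ + ‖u‖ := norm_add_le _ _
      _ ≤ 3 := by linarith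
  rw [e]
  calc ‖star a * (b - v) + star (a - u) * v‖
      ≤ ‖star a * (b - v)‖ + ‖star (a - u) * v‖ := norm_add_le _ _
    _ ≤ ‖star a‖ * ‖b - v‖ + ‖star (a - u)‖ * ‖v‖ := add_le_add (norm_mul_le _ _) (norm_mul_le _ _)
    _ ≤ 3 * δ + δ * 2 := by
        rw [norm_star, norm_star]
        exact add_le_add (mul_le_mul h1 hb (norm_nonneg _) (by norm_num))
          (mul_le_mul ha hv (norm_nonneg _) hδ)
    _ = 5 * δ := by ring

theorem sp_unit {P : Ideal E} (hP : CId P) (hN : FinMax P) (hW : WP P 1) {x y : E} (hx : x ∈ P)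
    (hy : y ∈ P) (hx0 : 0 ≤ x) (hy0 : 0 ≤ y) (hx1 : ‖x‖ ≤ 1) (hy1 : ‖y‖ ≤ 1) {ε : ℝ}
    (hε : 0 < ε) : ∃ s t : E, ‖star s * (x * x) * s - x * x‖ < ε ∧
      ‖star t * (y * y) * t - y * y‖ < ε ∧ ‖star s * (x * y) * t‖ < ε := by
  classical
  have hsx : star x = x := hx0.isSelfAdjoint.star_eq
  have hsy : star y = y := hy0.isSelfAdjoint.star_eq
  have hxx0 : 0 ≤ x * x := by
    have h1 := star_mul_self_nonneg x
    rwa [hsx] at h1
  have hyy0 : 0 ≤ y * y := by
    have h1 := star_mul_self_nonneg y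
    rwa [hsy] at h1
  have hxxP : x * x ∈ P := P.mul_mem_left x hx
  have hyyP : y * y ∈ P := P.mul_mem_left y hy
  have hxx1 : ‖x * x‖ ≤ 1 := (norm_mul_le x x).trans (mul_le_one₀ hx1 (norm_nonneg x) hx1)
  have hyy1 : ‖y * y‖ ≤ 1 := (norm_mul_le y y).trans (mul_le_one₀ hy1 (norm_nonneg y) hy1)
  set ε₀ : ℝ := min 1 (ε / 4) with hε₀
  have hε₀0 : 0 < ε₀ := lt_min one_pos (by linarith)
  have hε₀1 : ε₀ ≤ 1 := min_le_left _ _
  have hε₀2 : ε₀ ≤ ε / 4 := min_le_right _ _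
  set δ : ℝ := min 1 (ε / 20) with hδ
  have hδ0 : 0 < δ := lt_min one_pos (by linarith)
  have hδ1 : δ ≤ 1 := min_le_left _ _
  have hδ2 : δ ≤ ε / 20 := min_le_right _ _
  obtain ⟨Tx, hTx⟩ := exists_primeSet hP hN hxxP hxx0 hε₀0
  obtain ⟨Ty, hTy⟩ := exists_primeSet hP hN hyyP hyy0 hε₀0
  have hT : ∀ R ∈ Tx ∪ Ty, CId R ∧ R ≤ P ∧ PrimeI P R := by
    intro R hR
    rcases Finset.mem_union.1 hR with h | h
    · exact ⟨hTx.cid R h, hTx.le R h, hTx.prime R h⟩
    · exact ⟨hTy.cid R h, hTy.le R h, hTy.prime R h⟩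
  obtain ⟨ν, hν, hcomb⟩ := comb_orth hP le_rfl hW (Tx ∪ Ty) hT hx hy hx0 hy0 hx1 hy1
  set γ : ℝ := ν / 2 with hγd
  have hγ : 0 < γ := by positivity
  have hγν : γ < ν := by rw [hγd]; linarith
  have hη : 0 < ε * γ ^ 2 / 16 := by positivity
  obtain ⟨c, hc, d, hd, hc0, hd0, -, -, hcd, hsep⟩ := hcomb _ hη
  have hcP : c ∈ P := hr_mem_ideal hP hx hc
  have hdP : d ∈ P := hr_mem_ideal hP hy hd
  have hcutP : ∀ {z : E}, z ∈ P → 0 ≤ z → cut γ z ∈ P := fun {z} hz hz0 => by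
    unfold cut
    exact cid_cfc hP hz0.isSelfAdjoint hz (continuous_cutf γ) (max_eq_right (by linarith))
  obtain ⟨u, hu, hu1, hu2, k, hk, huk⟩ := exists_u hW hxx0 hxx1 hcP hP hc0 hγ hε₀0 hε₀1
    (fun I hI hcI => hTx.gen (cut γ c) (hcutP hcP hc0) (fun R hR => cut_not_mem (hTx.cid R hR) hc0
      hγ.le hγν ((hsep R (Finset.mem_union_left _ hR)).1
        (fun hxR => hTx.not_mem R hR (R.mul_mem_left x hxR)))) I hI hcI)
  obtain ⟨v, hv, hv1, hv2, l, hl, hvl⟩ := exists_u hW hyy0 hyy1 hdP hP hd0 hγ hε₀0 hε₀1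
    (fun I hI hdI => hTy.gen (cut γ d) (hcutP hdP hd0) (fun R hR => cut_not_mem (hTy.cid R hR) hd0
      hγ.le hγν ((hsep R (Finset.mem_union_right _ hR)).2
        (fun hyR => hTy.not_mem R hR (R.mul_mem_left y hyR)))) I hI hdI)
  obtain ⟨_, ⟨s, rfl⟩, hs⟩ := Metric.mem_closure_iff.1 (rt_trans (hr_rt hc) hu) δ hδ0
  obtain ⟨_, ⟨t, rfl⟩, ht⟩ := Metric.mem_closure_iff.1 (rt_trans (hr_rt hd) hv) δ hδ0
  rw [dist_eq_norm, norm_sub_rev] at hs ht
  have huv : ‖star u * v‖ ≤ ε / 4 := by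
    have hv' : v = d * star l * v := by
      have h1 := congrArg star hvl
      rw [star_star, star_mul, star_mul, star_star, hd0.isSelfAdjoint.star_eq, ← mul_assoc] at h1
      exact h1
    have e : star u * v = star u * k * (c * d) * (star l * v) := by
      calc star u * v = (star u * k * c) * (d * star l * v) := by rw [← huk, ← hv']
        _ = star u * k * (c * d) * (star l * v) := by simp only [mul_assoc]
    rw [e]
    have hγi : 0 ≤ γ⁻¹ := inv_nonneg.2 hγ.le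
    calc ‖star u * k * (c * d) * (star l * v)‖
        ≤ ‖star u * k * (c * d)‖ * ‖star l * v‖ := norm_mul_le _ _
      _ ≤ (‖star u * k‖ * ‖c * d‖) * ‖star l * v‖ :=
          mul_le_mul_of_nonneg_right (norm_mul_le _ _) (norm_nonneg _)
      _ ≤ ((2 * γ⁻¹) * (ε * γ ^ 2 / 16)) * (γ⁻¹ * 2) := by
          refine mul_le_mul (mul_le_mul ?_ hcd (norm_nonneg _) (by positivity)) ?_ (norm_nonneg _)
            (by positivity)
          · refine (norm_mul_le _ _).trans ?_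
            rw [norm_star]
            exact mul_le_mul hu2 hk (norm_nonneg _) (by norm_num)
          · refine (norm_mul_le _ _).trans ?_
            rw [norm_star]
            exact mul_le_mul hl hv2 (norm_nonneg _) hγi
      _ = ε / 4 := by
          field_simp
          ring
  refine ⟨s, t, ?_, ?_, ?_⟩
  · have h1 := PtoS_pert hδ1 hs.le hs.le hu2 hu2
    have e : star s * (x * x) * s - x * x
        = (star (x * s) * (x * s) - star u * u) + (star u * u - x * x) := by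
      rw [star_mul, hsx]
      simp only [mul_assoc]
      abel
    rw [e]
    refine (norm_add_le _ _).trans_lt ?_
    linarith
  · have h1 := PtoS_pert hδ1 ht.le ht.le hv2 hv2
    have e : star t * (y * y) * t - y * y
        = (star (y * t) * (y * t) - star v * v) + (star v * v - y * y) := by
      rw [star_mul, hsy]
      simp only [mul_assoc]
      abel
    rw [e]
    refine (norm_add_le _ _).trans_lt ?_
    linarith
  · have h1 := PtoS_pert hδ1 hs.le ht.le hu2 hv2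
    have e : star s * (x * y) * t = (star (x * s) * (y * t) - star u * v) + star u * v := by
      rw [star_mul, hsx]
      simp only [mul_assoc]
      abel
    rw [e]
    refine (norm_add_le _ _).trans_lt ?_
    linarith

/-- cutting down by an approximate unit -/
private theorem PtoS_cut {P : Ideal E} (hP : CId P) {x s : E} (hx : x ∈ P) (hx0 : 0 ≤ x) {ε : ℝ}
    (hε : 0 < ε) (hs : ‖star s * (x * x) * s - x * x‖ < ε / 2) :
    ∃ e ∈ P, 0 ≤ e ∧ ‖e‖ ≤ 1 ∧ ‖star (s * e) * (x * x) * (s * e) - x * x‖ < ε := by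
  have hsx : star x = x := hx0.isSelfAdjoint.star_eq
  have hxx0 : 0 ≤ x * x := by
    have h1 := star_mul_self_nonneg x
    rwa [hsx] at h1
  have hxxP : x * x ∈ P := P.mul_mem_left x hx
  obtain ⟨e, he, he0, he1, hex⟩ := hr_unit hxx0 (hr_rt (hr_self hxx0)) (show 0 < ε / 8 by positivity)
  have hes : star e = e := he0.isSelfAdjoint.star_eq
  refine ⟨e, hr_mem_ideal hP hxxP he, he0, he1, ?_⟩
  have e1 : star (s * e) * (x * x) * (s * e) - x * x
      = e * (star s * (x * x) * s - x * x) * e + ((e * (x * x) - x * x) * e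
        + star (e * (x * x) - x * x)) := by
    rw [star_mul, hes, star_sub, star_mul, star_mul, hsx, hes]
    noncomm_ring
  rw [e1]
  have h2 : ‖e * (star s * (x * x) * s - x * x) * e‖ ≤ ‖star s * (x * x) * s - x * x‖ := by
    calc ‖e * (star s * (x * x) * s - x * x) * e‖
        ≤ ‖e * (star s * (x * x) * s - x * x)‖ * ‖e‖ := norm_mul_le _ _
      _ ≤ ‖e * (star s * (x * x) * s - x * x)‖ * 1 :=
          mul_le_mul_of_nonneg_left he1 (norm_nonneg _)
      _ = ‖e * (star s * (x * x) * s - x * x)‖ := mul_one _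
      _ ≤ ‖e‖ * ‖star s * (x * x) * s - x * x‖ := norm_mul_le _ _
      _ ≤ 1 * ‖star s * (x * x) * s - x * x‖ :=
          mul_le_mul_of_nonneg_right he1 (norm_nonneg _)
      _ = ‖star s * (x * x) * s - x * x‖ := one_mul _
  have h3 : ‖(e * (x * x) - x * x) * e‖ ≤ ε / 8 := by
    calc ‖(e * (x * x) - x * x) * e‖ ≤ ‖e * (x * x) - x * x‖ * ‖e‖ := norm_mul_le _ _
      _ ≤ ‖e * (x * x) - x * x‖ * 1 := mul_le_mul_of_nonneg_left he1 (norm_nonneg _)
      _ = ‖e * (x * x) - x * x‖ := mul_one _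
      _ ≤ ε / 8 := hex
  have h4 : ‖star (e * (x * x) - x * x)‖ ≤ ε / 8 := by
    rw [norm_star]
    exact hex
  calc _ ≤ ‖e * (star s * (x * x) * s - x * x) * e‖ + ‖(e * (x * x) - x * x) * e
        + star (e * (x * x) - x * x)‖ := norm_add_le _ _
    _ ≤ ‖e * (star s * (x * x) * s - x * x) * e‖ + (‖(e * (x * x) - x * x) * e‖
        + ‖star (e * (x * x) - x * x)‖) := by
        have := norm_add_le ((e * (x * x) - x * x) * e) (star (e * (x * x) - x * x))
        linarith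
    _ < ε := by linarith


theorem sp_of_wp {P : Ideal E} (hP : CId P) (hN : FinMax P) (hW : WP P 1) {x y : E} (hx : x ∈ P)
    (hy : y ∈ P) (hx0 : 0 ≤ x) (hy0 : 0 ≤ y) {ε : ℝ} (hε : 0 < ε) :
    ∃ s ∈ P, ∃ t ∈ P, ‖star s * (x * x) * s - x * x‖ < ε ∧
      ‖star t * (y * y) * t - y * y‖ < ε ∧ ‖star s * (x * y) * t‖ < ε := by
  set M : ℝ := max 1 (max ‖x‖ ‖y‖) with hM
  have hM1 : 1 ≤ M := le_max_left _ _
  have hM0 : 0 < M := by linarith
  have hxM : ‖x‖ ≤ M := (le_max_left _ _).trans (le_max_right _ _)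
  have hyM : ‖y‖ ≤ M := (le_max_right _ _).trans (le_max_right _ _)
  have hmem : ∀ {z : E}, z ∈ P → M⁻¹ • z ∈ P := fun {z} hz => by
    have h1 : M⁻¹ • z = (M⁻¹ • (1 : E)) * z := by rw [smul_mul_assoc, one_mul]
    rw [h1]
    exact P.mul_mem_left _ hz
  have hpos : ∀ {z : E}, 0 ≤ z → 0 ≤ M⁻¹ • z := fun {z} hz => smul_nonneg (inv_nonneg.2 hM0.le) hz
  have hnorm : ∀ {z : E}, ‖z‖ ≤ M → ‖M⁻¹ • z‖ ≤ 1 := fun {z} hz => by
    rw [norm_smul, Real.norm_eq_abs, abs_of_pos (inv_pos.2 hM0)]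
    calc M⁻¹ * ‖z‖ ≤ M⁻¹ * M := mul_le_mul_of_nonneg_left hz (inv_nonneg.2 hM0.le)
      _ = 1 := inv_mul_cancel₀ hM0.ne'
  obtain ⟨s, t, h1, h2, h3⟩ := sp_unit hP hN hW (hmem hx) (hmem hy) (hpos hx0) (hpos hy0)
    (hnorm hxM) (hnorm hyM) (show 0 < ε / (2 * M ^ 2) by positivity)
  have hMM : M ^ 2 * (M⁻¹ * M⁻¹) = 1 := by
    field_simp
  have hback : ∀ z w : E, M ^ 2 • (M⁻¹ • z * M⁻¹ • w) = z * w := fun z w => by
    rw [smul_mul_smul_comm, smul_smul, hMM, one_smul]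
  have hsc : ∀ z : E, ‖z‖ < ε / (2 * M ^ 2) → ‖M ^ 2 • z‖ < ε / 2 := fun z hz => by
    rw [norm_smul, Real.norm_eq_abs, abs_of_pos (by positivity)]
    calc M ^ 2 * ‖z‖ < M ^ 2 * (ε / (2 * M ^ 2)) := mul_lt_mul_of_pos_left hz (by positivity)
      _ = ε / 2 := by field_simp
  have g1 : ‖star s * (x * x) * s - x * x‖ < ε / 2 := by
    have h4 := hsc _ h1
    rw [smul_sub, ← smul_mul_assoc, ← mul_smul_comm, hback] at h4
    exact h4
  have g2 : ‖star t * (y * y) * t - y * y‖ < ε / 2 := by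
    have h4 := hsc _ h2
    rw [smul_sub, ← smul_mul_assoc, ← mul_smul_comm, hback] at h4
    exact h4
  have g3 : ‖star s * (x * y) * t‖ < ε / 2 := by
    have h4 := hsc _ h3
    rw [← smul_mul_assoc, ← mul_smul_comm, hback] at h4
    exact h4
  obtain ⟨e, heP, he0, he1, he⟩ := PtoS_cut hP hx hx0 hε g1
  obtain ⟨f, hfP, hf0, hf1, hf⟩ := PtoS_cut hP hy hy0 hε g2
  refine ⟨s * e, P.mul_mem_left s heP, t * f, P.mul_mem_left t hfP, he, hf, ?_⟩
  have e1 : star (s * e) * (x * y) * (t * f) = e * (star s * (x * y) * t) * f := by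
    rw [star_mul, he0.isSelfAdjoint.star_eq]
    simp only [mul_assoc]
  rw [e1]
  calc ‖e * (star s * (x * y) * t) * f‖ ≤ ‖e * (star s * (x * y) * t)‖ * ‖f‖ := norm_mul_le _ _
    _ ≤ ‖e * (star s * (x * y) * t)‖ * 1 := mul_le_mul_of_nonneg_left hf1 (norm_nonneg _)
    _ = ‖e * (star s * (x * y) * t)‖ := mul_one _
    _ ≤ ‖e‖ * ‖star s * (x * y) * t‖ := norm_mul_le _ _
    _ ≤ 1 * ‖star s * (x * y) * t‖ := mul_le_mul_of_nonneg_right he1 (norm_nonneg _)
    _ = ‖star s * (x * y) * t‖ := one_mul _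
    _ < ε := by linarith

end P133
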