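import Vale.Agent.Lib.P133.Defs

/-!
# P133, module Her: hereditary subalgebras

`Hr h = closure {h z h}`, `Rt h = closure {h z}`.

* `hr_add`, `hr_smul`, `hr_mul`: `map_mem_closure`, `map_mem_closure₂`.
* `hr_self`: `h = lim h * f_δ(h) * h` with `f_δ(t) = t / (t ^ 2 + δ)` or `1 / (t + δ)`: `|t ^ 2 / (t + δ) - t| ≤ δ`.
* `hr_cfc`: for `δ > 0`: `cfc (fun t => t * (f t / (t ^ 2 + δ)) * t) y = y * cfc (..) y * y ∈ Hr h` (`hr_mul`), and it
  tends to `cfc f y` (`|f t| δ / (t ^ 2 + δ) → 0` uniformly on compact sets, since `f 0 = 0`).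
* `hr_trans`: `k ∈ Hr h → Hr k ⊆ Hr h`: `k z k ∈ Hr h` by `hr_mul`.
* `rt_mul`: `u ∈ Rt h → u z ∈ Rt h`.
-/

open scoped Topology

namespace P133

universe u

attribute [local instance] CStarAlgebra.spectralOrder CStarAlgebra.spectralOrderedRing

variable {E : Type u} [CStarAlgebra E]

theorem isClosed_hr (h : E) : IsClosed (Hr h) := isClosed_closure

theorem isClosed_rt (h : E) : IsClosed (Rt h) := isClosed_closure

theorem mem_hr (h z : E) : h * z * h ∈ Hr h := subset_closure ⟨z, rfl⟩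

theorem mem_rt (h z : E) : h * z ∈ Rt h := subset_closure ⟨z, rfl⟩

theorem hr_add {h x y : E} (hx : x ∈ Hr h) (hy : y ∈ Hr h) : x + y ∈ Hr h := by
  refine map_mem_closure₂ continuous_add hx hy ?_
  rintro _ ⟨y, rfl⟩ _ ⟨z, rfl⟩
  exact ⟨y + z, by simp only [mul_add, add_mul]⟩

theorem hr_smul {h x : E} (c : ℂ) (hx : x ∈ Hr h) : c • x ∈ Hr h := by
  refine map_mem_closure (continuous_const_smul c) hx ?_
  rintro _ ⟨y, rfl⟩
  exact ⟨c • y, by simp only [mul_smul_comm, smul_mul_assoc]⟩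

theorem hr_rsmul {h x : E} (c : ℝ) (hx : x ∈ Hr h) : c • x ∈ Hr h := by
  refine map_mem_closure (continuous_const_smul c) hx ?_
  rintro _ ⟨y, rfl⟩
  exact ⟨c • y, by simp only [mul_smul_comm, smul_mul_assoc]⟩

theorem hr_zero (h : E) : (0 : E) ∈ Hr h :=
  subset_closure ⟨0, by simp⟩

theorem hr_mul {h x y : E} (hx : x ∈ Hr h) (z : E) (hy : y ∈ Hr h) : x * z * y ∈ Hr h := by
  have hc : Continuous (Function.uncurry fun x y : E => x * z * y) := by
    simp only [Function.uncurry_def]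
    fun_prop
  refine map_mem_closure₂ (f := fun x y : E => x * z * y) hc hx hy ?_
  rintro _ ⟨a, rfl⟩ _ ⟨b, rfl⟩
  exact ⟨a * h * z * h * b, by simp only [mul_assoc]⟩

theorem hr_mul2 {h x y : E} (hx : x ∈ Hr h) (hy : y ∈ Hr h) : x * y ∈ Hr h := by
  have h1 := hr_mul hx 1 hy
  rwa [mul_one] at h1

theorem hr_star {h x : E} (h0 : 0 ≤ h) (hx : x ∈ Hr h) : star x ∈ Hr h := by
  have hs : star h = h := (IsSelfAdjoint.of_nonneg h0).star_eq
  refine map_mem_closure continuous_star hx ?_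
  rintro _ ⟨y, rfl⟩
  exact ⟨star y, by simp only [star_mul, hs, mul_assoc]⟩

theorem hr_trans {h k x : E} (hk : k ∈ Hr h) (hx : x ∈ Hr k) : x ∈ Hr h := by
  have h1 : Hr k ⊆ Hr h := by
    refine closure_minimal ?_ (isClosed_hr h)
    rintro _ ⟨z, rfl⟩
    exact hr_mul hk z hk
  exact h1 hx

theorem hr_self {h : E} (h0 : 0 ≤ h) : h ∈ Hr h := by
  have hsa : IsSelfAdjoint h := IsSelfAdjoint.of_nonneg h0
  have hsp : ∀ t ∈ spectrum ℝ h, 0 ≤ t := fun t ht => spectrum_nonneg_of_nonneg h0 ht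
  refine Metric.mem_closure_iff.2 fun ε hε => ?_
  have hδ : 0 < ε / 2 := half_pos hε
  have hc : ContinuousOn (fun t : ℝ => 1 / (t + ε / 2)) (spectrum ℝ h) := by
    refine ContinuousOn.div continuousOn_const (by fun_prop) fun t ht => ?_
    have := hsp t ht
    positivity
  refine ⟨h * cfc (fun t : ℝ => 1 / (t + ε / 2)) h * h, ⟨_, rfl⟩, ?_⟩
  have h1 : h * cfc (fun t : ℝ => 1 / (t + ε / 2)) h * h =
      cfc (fun t : ℝ => t * (1 / (t + ε / 2)) * t) h := by
    rw [cfc_mul (fun t : ℝ => t * (1 / (t + ε / 2))) (fun t : ℝ => t) h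
      (continuousOn_id.mul hc) continuousOn_id,
      cfc_mul (fun t : ℝ => t) (fun t : ℝ => 1 / (t + ε / 2)) h continuousOn_id hc,
      cfc_id' ℝ h]
  have h2 : h - h * cfc (fun t : ℝ => 1 / (t + ε / 2)) h * h =
      cfc (fun t : ℝ => t - t * (1 / (t + ε / 2)) * t) h := by
    rw [h1, cfc_sub (fun t : ℝ => t) (fun t : ℝ => t * (1 / (t + ε / 2)) * t) h continuousOn_id
      ((continuousOn_id.mul hc).mul continuousOn_id), cfc_id' ℝ h]
  rw [dist_eq_norm, h2]
  refine (norm_cfc_le hδ.le fun t ht => ?_).trans_lt (half_lt_self hε)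
  have ht0 := hsp t ht
  have h3 : t - t * (1 / (t + ε / 2)) * t = t / (t + ε / 2) * (ε / 2) := by
    field_simp
    ring
  rw [h3, Real.norm_of_nonneg (by positivity)]
  have h4 : t / (t + ε / 2) ≤ 1 := div_le_one_of_le₀ (by linarith) (by positivity)
  nlinarith

theorem hr_cfc {h y : E} (hy : y ∈ Hr h) (hs : IsSelfAdjoint y) {f : ℝ → ℝ} (hf : Continuous f)
    (hf0 : f 0 = 0) : cfc f y ∈ Hr h := by
  refine (isClosed_hr h).closure_subset (Metric.mem_closure_iff.2 fun ε hε => ?_)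
  obtain ⟨M, hM⟩ : ∃ M : ℝ, ∀ t ∈ spectrum ℝ y, |f t| ≤ M := by
    have hK : IsCompact (spectrum ℝ y) :=
      ContinuousFunctionalCalculus.isCompact_spectrum (R := ℝ) y
    obtain ⟨M, hM⟩ := (hK.image (continuous_abs.comp hf)).bddAbove
    exact ⟨M, fun t ht => hM ⟨t, ht, rfl⟩⟩
  have hε2 : 0 < ε / 2 := half_pos hε
  obtain ⟨η, hη, hη'⟩ : ∃ η : ℝ, 0 < η ∧ ∀ t : ℝ, |t| < η → |f t| ≤ ε / 2 := by
    obtain ⟨η, hη, h1⟩ := Metric.continuous_iff.1 hf 0 (ε / 2) hε2
    refine ⟨η, hη, fun t ht => ?_⟩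
    have h2 := h1 t (by rwa [Real.dist_eq, sub_zero])
    rw [Real.dist_eq, hf0, sub_zero] at h2
    exact h2.le
  set M' : ℝ := |M| + 1 with hM'
  have hM'0 : 0 < M' := by positivity
  set δ : ℝ := ε / 2 * η ^ 2 / M' with hδ
  have hδ0 : 0 < δ := by positivity
  have hpos : ∀ t : ℝ, 0 < t ^ 2 + δ := fun t => by positivity
  have hcq : Continuous (fun t : ℝ => f t / (t ^ 2 + δ)) :=
    hf.div (by fun_prop) fun t => (hpos t).ne'
  have h1 : y * cfc (fun t : ℝ => f t / (t ^ 2 + δ)) y * y =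
      cfc (fun t : ℝ => t * (f t / (t ^ 2 + δ)) * t) y := by
    rw [cfc_mul (fun t : ℝ => t * (f t / (t ^ 2 + δ))) (fun t : ℝ => t) y
      (continuousOn_id.mul hcq.continuousOn) continuousOn_id,
      cfc_mul (fun t : ℝ => t) (fun t : ℝ => f t / (t ^ 2 + δ)) y continuousOn_id
        hcq.continuousOn, cfc_id' ℝ y]
  refine ⟨y * cfc (fun t : ℝ => f t / (t ^ 2 + δ)) y * y, hr_mul hy _ hy, ?_⟩
  rw [dist_eq_norm, h1, ← cfc_sub f (fun t : ℝ => t * (f t / (t ^ 2 + δ)) * t) y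
    hf.continuousOn ((continuousOn_id.mul hcq.continuousOn).mul continuousOn_id)]
  refine (norm_cfc_le hε2.le fun t ht => ?_).trans_lt (half_lt_self hε)
  have h3 : f t - t * (f t / (t ^ 2 + δ)) * t = f t * (δ / (t ^ 2 + δ)) := by
    have := (hpos t).ne'
    field_simp
    ring
  rw [h3, Real.norm_eq_abs, abs_mul, abs_of_nonneg (div_nonneg hδ0.le (hpos t).le)]
  by_cases h4 : |t| < η
  · have h5 : δ / (t ^ 2 + δ) ≤ 1 := div_le_one_of_le₀ (by nlinarith [sq_nonneg t]) (hpos t).le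
    have h6 := hη' t h4
    have h7 := abs_nonneg (f t)
    have h8 : 0 ≤ δ / (t ^ 2 + δ) := div_nonneg hδ0.le (hpos t).le
    nlinarith
  · push Not at h4
    have h5 : η ^ 2 ≤ t ^ 2 := by
      rw [← sq_abs t]
      exact pow_le_pow_left₀ hη.le h4 2
    have h6 : δ / (t ^ 2 + δ) ≤ δ / η ^ 2 :=
      div_le_div_of_nonneg_left hδ0.le (by positivity) (by linarith)
    have h7 : |f t| ≤ M' := (hM t ht).trans ((le_abs_self M).trans (by rw [hM']; linarith))
    calc |f t| * (δ / (t ^ 2 + δ)) ≤ M' * (δ / η ^ 2) :=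
          mul_le_mul h7 h6 (div_nonneg hδ0.le (hpos t).le) hM'0.le
      _ = ε / 2 := by
          rw [hδ]
          field_simp

theorem hr_rt {h x : E} (hx : x ∈ Hr h) : x ∈ Rt h := by
  have h1 : Hr h ⊆ Rt h := by
    refine closure_mono ?_
    rintro _ ⟨z, rfl⟩
    exact ⟨z * h, by simp only [mul_assoc]⟩
  exact h1 hx

theorem rt_mul {h x : E} (hx : x ∈ Rt h) (z : E) : x * z ∈ Rt h := by
  refine map_mem_closure (f := fun x : E => x * z) (by fun_prop) hx ?_
  rintro _ ⟨y, rfl⟩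
  exact ⟨y * z, by simp only [mul_assoc]⟩

theorem rt_trans {h k x : E} (hk : k ∈ Rt h) (hx : x ∈ Rt k) : x ∈ Rt h := by
  have h1 : Rt k ⊆ Rt h := by
    refine closure_minimal ?_ (isClosed_rt h)
    rintro _ ⟨z, rfl⟩
    exact rt_mul hk z
  exact h1 hx

/-- `h z h ∈ Hr (x)` gives more: elements of `Hr h` are limits of `v w` for `v` with `Rt v ∋ ..` -/
theorem hr_sub_rt {v x : E} (hx : x ∈ Hr (v * star v)) : x ∈ Rt v := by
  have h1 : Hr (v * star v) ⊆ Rt v := by
    refine closure_mono ?_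
    rintro _ ⟨z, rfl⟩
    exact ⟨star v * z * (v * star v), by simp only [mul_assoc]⟩
  exact h1 hx

theorem hr_mem_ideal {R : Ideal E} (hR : CId R) {h x : E} (hh : h ∈ R) (hx : x ∈ Hr h) :
    x ∈ R := by
  have h1 : Hr h ⊆ (R : Set E) := by
    refine closure_minimal ?_ hR.closed
    rintro _ ⟨z, rfl⟩
    exact R.mul_mem_left (h * z) hh
  exact h1 hx

/-- approximate unit of `Hr h`: `e = h * w * h`, `0 ≤ e`, `‖e‖ ≤ 1`, `‖e * x - x‖` small -/
theorem hr_unit {h x : E} (h0 : 0 ≤ h) (hx : x ∈ Rt h) {δ : ℝ} (hδ : 0 < δ) :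
    ∃ e ∈ Hr h, 0 ≤ e ∧ ‖e‖ ≤ 1 ∧ ‖e * x - x‖ ≤ δ := by
  have hsa : IsSelfAdjoint h := IsSelfAdjoint.of_nonneg h0
  have hsp : ∀ t ∈ spectrum ℝ h, 0 ≤ t := fun t ht => spectrum_nonneg_of_nonneg h0 ht
  obtain ⟨_, ⟨z, rfl⟩, hz⟩ := Metric.mem_closure_iff.1 hx (δ / 4) (by positivity)
  rw [dist_eq_norm] at hz
  set κ : ℝ := δ / (2 * (‖z‖ + 1)) with hκ
  have hzn := norm_nonneg z
  have hκ0 : 0 < κ := by positivity
  have hf : Continuous (fun t : ℝ => |t| / (|t| + κ)) :=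
    Continuous.div (by fun_prop) (by fun_prop) fun t => by positivity
  have hen : ‖cfc (fun t : ℝ => |t| / (|t| + κ)) h‖ ≤ 1 := by
    refine norm_cfc_le zero_le_one fun t ht => ?_
    rw [Real.norm_of_nonneg (by positivity)]
    exact div_le_one_of_le₀ (by linarith) (by positivity)
  refine ⟨cfc (fun t : ℝ => |t| / (|t| + κ)) h, ?_, ?_, hen, ?_⟩
  · exact hr_cfc (hr_self h0) hsa hf (by simp)
  · exact cfc_nonneg fun t ht => by positivity
  · set e := cfc (fun t : ℝ => |t| / (|t| + κ)) h with he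
    have h1 : ‖e * h - h‖ ≤ κ := by
      have h2 : e * h - h = cfc (fun t : ℝ => |t| / (|t| + κ) * t - t) h := by
        rw [cfc_sub (fun t : ℝ => |t| / (|t| + κ) * t) (fun t : ℝ => t) h
          (hf.continuousOn.mul continuousOn_id) continuousOn_id,
          cfc_mul (fun t : ℝ => |t| / (|t| + κ)) (fun t : ℝ => t) h hf.continuousOn
            continuousOn_id, cfc_id' ℝ h]
      rw [h2]
      refine norm_cfc_le hκ0.le fun t ht => ?_
      have ht0 := hsp t ht
      rw [abs_of_nonneg ht0]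
      have h3 : t / (t + κ) * t - t = -(t / (t + κ) * κ) := by
        field_simp
        ring
      rw [h3, norm_neg, Real.norm_of_nonneg (by positivity)]
      have h4 : t / (t + κ) ≤ 1 := div_le_one_of_le₀ (by linarith) (by positivity)
      nlinarith
    have h5 : e * x - x = e * (x - h * z) + (e * h - h) * z - (x - h * z) := by
      noncomm_ring
    rw [h5]
    calc ‖e * (x - h * z) + (e * h - h) * z - (x - h * z)‖
        ≤ ‖e * (x - h * z) + (e * h - h) * z‖ + ‖x - h * z‖ := norm_sub_le _ _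
      _ ≤ ‖e * (x - h * z)‖ + ‖(e * h - h) * z‖ + ‖x - h * z‖ := by
          gcongr
          exact norm_add_le _ _
      _ ≤ 1 * (δ / 4) + κ * ‖z‖ + δ / 4 := by
          refine add_le_add (add_le_add ?_ ?_) hz.le
          · exact (norm_mul_le _ _).trans
              (mul_le_mul hen hz.le (norm_nonneg _) zero_le_one)
          · exact (norm_mul_le _ _).trans
              (mul_le_mul_of_nonneg_right h1 (norm_nonneg _))
      _ ≤ δ := by
          have h6 : κ * ‖z‖ ≤ δ / 2 := by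
            have h7 : κ * (‖z‖ + 1) = δ / 2 := by
              rw [hκ]
              field_simp
            nlinarith
          linarith

end P133
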