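import Vale.Agent.Lib.P133.Defs
import Vale.Agent.Lib.P133.Her

/-!
# P133, module Trans: from `A` to its unitization

`E = Unitization ℂ A` (a C*-algebra, `Unitization.instCStarAlgebra`), `PA A` the ideal of the elements with zero scalar part
(= the range of `inr`; `Unitization.inr` is isometric, a *-homomorphism).

* `isPos_iff`: `0 ≤ inr h ↔ IsPos h`: `inr h = star c * c` with `c` positive square root of `inr h`, which is in `PA A`
  (`CFC.sqrt`: `c * c = inr h`, the scalar part `t` of `c` satisfies `conj t * t = 0`).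
* `cid_PA`: closed: `fst` is continuous.
* `noAnti_PA`: for a closed two-sided ideal `R ≤ PA A` let `I = {a | inr a ∈ R}` (`TwoSidedIdeal.mk'`); it is closed, and
  `R ↦ I` is injective on ideals `≤ PA A` and reflects the order: an antichain goes to an antichain.
* `wp_PA`: entries: `Xᴴ * V * X` over `A` maps to `Xᴴ * V * X` over `E`; a matrix is in the closure for the product
  topology if all entries are approximated simultaneously.
* `pi_PA`: `CLe (Dg (Fin 1 ⊕ Fin 1) (inr h)) (Dg (Fin 1) (inr h))` gives `X` over `E`; multiply on the right by an approximate unit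
  `e ∈ PA A` (`hr_unit`: `e ∈ Hr (inr h)`, `‖e‖ ≤ 1`, `e (inr h) ≈ inr h`): the entries `X k i * e` are in `PA A`.
-/

open scoped Topology

namespace P133

universe u

attribute [local instance] CStarAlgebra.spectralOrder CStarAlgebra.spectralOrderedRing

variable (A : Type u) [NonUnitalCStarAlgebra A]

/-- `A` as an ideal of its unitization -/
noncomputable def PA : Ideal (Unitization ℂ A) := RingHom.ker (Unitization.fstHom ℂ A)

variable {A}

theorem mem_PA {x : Unitization ℂ A} : x ∈ PA A ↔ ∃ a : A, x = (a : Unitization ℂ A) := by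
  have h1 : x ∈ PA A ↔ x.fst = 0 := Iff.rfl
  rw [h1]
  constructor
  · intro h
    exact ⟨x.snd, Unitization.ext h (Unitization.snd_inr ℂ _).symm⟩
  · rintro ⟨a, rfl⟩
    exact Unitization.fst_inr ℂ a

theorem cid_PA : CId (PA A) := by
  refine ⟨?_, ?_⟩
  · unfold PA
    infer_instance
  · have h1 : (PA A : Set (Unitization ℂ A)) =
        (fun x : Unitization ℂ A => x.fst) ⁻¹' {0} := by
      ext x
      exact Iff.rfl
    rw [h1]
    exact isClosed_singleton.preimage Unitization.continuous_fst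

private theorem Trans_inr_mem (a : A) : (a : Unitization ℂ A) ∈ PA A := mem_PA.2 ⟨a, rfl⟩

theorem isPos_iff {h : A} : 0 ≤ (h : Unitization ℂ A) ↔ IsPos h := by
  constructor
  · intro h0
    have h1 : CFC.sqrt (h : Unitization ℂ A) * CFC.sqrt (h : Unitization ℂ A) = h :=
      CFC.sqrt_mul_sqrt_self _ h0
    have h2 : star (CFC.sqrt (h : Unitization ℂ A)) = CFC.sqrt (h : Unitization ℂ A) :=
      (IsSelfAdjoint.of_nonneg (CFC.sqrt_nonneg _)).star_eq
    have h3 : (CFC.sqrt (h : Unitization ℂ A)) ∈ PA A := by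
      have h4 : (CFC.sqrt (h : Unitization ℂ A)).fst * (CFC.sqrt (h : Unitization ℂ A)).fst
          = 0 := by
        rw [← Unitization.fst_mul, h1, Unitization.fst_inr]
      exact mul_self_eq_zero.1 h4
    obtain ⟨c, hc⟩ := mem_PA.1 h3
    rw [hc] at h1 h2
    refine ⟨c, ?_⟩
    apply Unitization.inr_injective (R := ℂ)
    rw [Unitization.inr_mul, Unitization.inr_star, h2, h1]
  · rintro ⟨c, rfl⟩
    rw [Unitization.inr_mul, Unitization.inr_star]
    exact star_mul_self_nonneg _

/-- the trace on `A` of a two-sided ideal of the unitization -/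
private noncomputable def Trans_tr (R : Ideal (Unitization ℂ A)) (hR : R.IsTwoSided) :
    TwoSidedIdeal A :=
  TwoSidedIdeal.mk' {a : A | (a : Unitization ℂ A) ∈ R}
    (by
      show ((0 : A) : Unitization ℂ A) ∈ R
      rw [Unitization.inr_zero]
      exact R.zero_mem)
    (by
      intro x y hx hy
      show ((x + y : A) : Unitization ℂ A) ∈ R
      rw [Unitization.inr_add]
      exact R.add_mem hx hy)
    (by
      intro x hx
      show ((-x : A) : Unitization ℂ A) ∈ R
      rw [Unitization.inr_neg]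
      exact R.neg_mem hx)
    (by
      intro x y hy
      show ((x * y : A) : Unitization ℂ A) ∈ R
      rw [Unitization.inr_mul]
      exact R.mul_mem_left _ hy)
    (by
      intro x y hx
      show ((x * y : A) : Unitization ℂ A) ∈ R
      rw [Unitization.inr_mul]
      exact R.mul_mem_right _ hx)

private theorem Trans_mem_tr {R : Ideal (Unitization ℂ A)} {hR : R.IsTwoSided} {a : A} :
    a ∈ Trans_tr R hR ↔ (a : Unitization ℂ A) ∈ R :=
  TwoSidedIdeal.mem_mk' _ _ _ _ _ _ _

private theorem Trans_le {R R' : Ideal (Unitization ℂ A)} {hR : R.IsTwoSided}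
    {hR' : R'.IsTwoSided} (hP : R ≤ PA A) (h : Trans_tr R hR ≤ Trans_tr R' hR') : R ≤ R' := by
  intro x hx
  obtain ⟨a, rfl⟩ := mem_PA.1 (hP hx)
  exact Trans_mem_tr.1 (h (Trans_mem_tr.2 hx))

theorem noAnti_PA (hA : NoInfiniteAntichain A) : NoAnti (PA A) := by
  classical
  intro S hS hanti
  let g : Ideal (Unitization ℂ A) → TwoSidedIdeal A := fun R =>
    if hR : R.IsTwoSided then Trans_tr R hR else ⊥
  have hg : ∀ R (hR : R ∈ S), g R = Trans_tr R (hS R hR).1.two := fun R hR =>
    dif_pos (hS R hR).1.two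
  have hle : ∀ R ∈ S, ∀ R' ∈ S, g R ≤ g R' → R ≤ R' := by
    intro R hR R' hR' h
    rw [hg R hR, hg R' hR'] at h
    exact Trans_le (hS R hR).2 h
  have hinj : Set.InjOn g S := by
    intro R hR R' hR' h
    exact le_antisymm (hle R hR R' hR' h.le) (hle R' hR' R hR h.ge)
  have hfin : (g '' S).Finite := by
    refine hA _ ?_ ?_
    · rintro _ ⟨R, hR, rfl⟩
      have h1 : ((g R : TwoSidedIdeal A) : Set A) =
          (fun a : A => (a : Unitization ℂ A)) ⁻¹' (R : Set (Unitization ℂ A)) := by
        ext a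
        rw [hg R hR]
        exact Trans_mem_tr
      rw [h1]
      exact (hS R hR).1.closed.preimage (Unitization.isometry_inr (𝕜 := ℂ)).continuous
    · rintro _ ⟨R, hR, rfl⟩ _ ⟨R', hR', rfl⟩ hne hle'
      have hne' : R ≠ R' := fun h => hne (by rw [h])
      exact hanti hR hR' hne' (hle R hR R' hR' hle')
  exact hfin.of_finite_image hinj

private theorem Trans_map {p q : Type} [Fintype q] (X : Matrix q p A) (V : Matrix q q A)
    (i j : p) :
    (((X.conjTranspose * V * X) i j : A) : Unitization ℂ A) =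
      ((Matrix.of fun k l => (X k l : Unitization ℂ A)).conjTranspose *
        (Matrix.of fun k l => (V k l : Unitization ℂ A)) *
        (Matrix.of fun k l => (X k l : Unitization ℂ A))) i j := by
  have hs : ∀ f : q → A, ((∑ k, f k : A) : Unitization ℂ A) = ∑ k, (f k : Unitization ℂ A) :=
    fun f => map_sum (Unitization.inrNonUnitalStarAlgHom ℂ A) f Finset.univ
  simp only [Matrix.mul_apply, Matrix.conjTranspose_apply, Matrix.of_apply, hs,
    Unitization.inr_mul, Unitization.inr_star]

private theorem Trans_dg {s : Type} [DecidableEq s] (h : A) :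
    (Matrix.of fun k l => ((Matrix.diagonal (fun _ : s => h) k l : A) : Unitization ℂ A)) =
      Dg s (h : Unitization ℂ A) := by
  refine Matrix.ext fun k l => ?_
  rw [Matrix.of_apply]
  unfold Dg
  by_cases hkl : k = l
  · subst hkl
    rw [Matrix.diagonal_apply_eq, Matrix.diagonal_apply_eq]
  · rw [Matrix.diagonal_apply_ne _ hkl, Matrix.diagonal_apply_ne _ hkl, Unitization.inr_zero]

private theorem Trans_dg_blocks {s t : Type} [DecidableEq s] [DecidableEq t] (h : A)
    (k l : s ⊕ t) :
    ((Matrix.fromBlocks (Matrix.diagonal fun _ : s => h) 0 0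
      (Matrix.diagonal fun _ : t => h) k l : A) : Unitization ℂ A) =
      Dg (s ⊕ t) (h : Unitization ℂ A) k l := by
  rw [← Trans_dg, Matrix.of_apply]
  rcases k with k | k <;> rcases l with l | l
  · simp only [Matrix.fromBlocks_apply₁₁, Matrix.diagonal_apply, Sum.inl.injEq]
  · simp only [Matrix.fromBlocks_apply₁₂, Matrix.diagonal_apply, Matrix.zero_apply,
      reduceCtorEq, if_false]
  · simp only [Matrix.fromBlocks_apply₂₁, Matrix.diagonal_apply, Matrix.zero_apply,
      reduceCtorEq, if_false]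
  · simp only [Matrix.fromBlocks_apply₂₂, Matrix.diagonal_apply, Sum.inr.injEq]

private theorem Trans_mem_closure {E : Type u} [CStarAlgebra E] {p q : Type} [Fintype q]
    {M : Matrix p p E} {N : Matrix q q E}
    (h : ∀ ε : ℝ, 0 < ε → ∃ X : Matrix q p E, ∀ i j, ‖(X.conjTranspose * N * X) i j - M i j‖ < ε) :
    CLe M N := by
  choose! X hX using h
  have hpos : ∀ k : ℕ, (0 : ℝ) < 1 / ((k : ℝ) + 1) := fun k => by positivity
  refine mem_closure_of_tendsto (f := fun k : ℕ => (X (1 / ((k : ℝ) + 1))).conjTranspose * N *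
    X (1 / ((k : ℝ) + 1))) (b := Filter.atTop) ?_ (Filter.Eventually.of_forall fun k => ⟨_, rfl⟩)
  refine tendsto_pi_nhds.2 fun i => tendsto_pi_nhds.2 fun j => ?_
  refine tendsto_iff_norm_sub_tendsto_zero.2 ?_
  refine squeeze_zero (fun _ => norm_nonneg _) (fun k => ?_)
    tendsto_one_div_add_atTop_nhds_zero_nat
  exact (hX _ (hpos k) i j).le

theorem wp_PA {n : ℕ}
    (hA : ∀ h : A, IsPos h → ProperlyInfinite (Matrix.diagonal fun _ : Fin n => h)) :
    WP (PA A) n := by
  intro x hx h0
  obtain ⟨h, rfl⟩ := mem_PA.1 hx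
  refine Trans_mem_closure fun ε hε => ?_
  obtain ⟨X, hX⟩ := hA h (isPos_iff.1 h0) ε hε
  refine ⟨Matrix.of fun k l => (X k l : Unitization ℂ A), fun i j => ?_⟩
  have h1 := hX i j
  rw [← Unitization.norm_inr (𝕜 := ℂ), Matrix.sub_apply, Unitization.inr_sub, Trans_map,
    Trans_dg, Trans_dg_blocks] at h1
  exact h1

private theorem Trans_of_closure {E : Type u} [CStarAlgebra E] {p q : Type} [Fintype q]
    [Finite p] {M : Matrix p p E} {N : Matrix q q E} (h : CLe M N) {ε : ℝ} (hε : 0 < ε) :
    ∃ X : Matrix q p E, ∀ i j, ‖(X.conjTranspose * N * X) i j - M i j‖ < ε := by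
  have h1 : {K : Matrix p p E | ∀ i j, ‖K i j - M i j‖ < ε} ∈ 𝓝 M := by
    have h2 : ∀ i j, ∀ᶠ K : Matrix p p E in 𝓝 M, ‖K i j - M i j‖ < ε := by
      intro i j
      have hc : Continuous fun K : Matrix p p E => ‖K i j - M i j‖ :=
        ((continuous_apply_apply i j).sub continuous_const).norm
      have h3 := hc.tendsto M
      simp only [sub_self, norm_zero] at h3
      exact h3.eventually (gt_mem_nhds hε)
    have h3 : ∀ᶠ K : Matrix p p E in 𝓝 M, ∀ i j, ‖K i j - M i j‖ < ε := by
      rw [Filter.eventually_all]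
      intro i
      rw [Filter.eventually_all]
      exact h2 i
    exact h3
  obtain ⟨_, h4, X, rfl⟩ := mem_closure_iff_nhds.1 h _ h1
  exact ⟨X, h4⟩

theorem pi_PA (hA : WP (PA A) 1) : PurelyInfinite A := by
  intro h hh ε hε
  have h0 : 0 ≤ (h : Unitization ℂ A) := isPos_iff.2 hh
  have hP : (h : Unitization ℂ A) ∈ PA A := Trans_inr_mem h
  obtain ⟨X, hX⟩ := Trans_of_closure (hA _ hP h0) (half_pos hε)
  obtain ⟨e, he, he0, he1, hee⟩ := hr_unit (δ := ε / 4) h0 (hr_rt (hr_self h0)) (by positivity)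
  have heP : e ∈ PA A := hr_mem_ideal cid_PA hP he
  have hXe : ∀ k i, ∃ a : A, X k i * e = (a : Unitization ℂ A) := fun k i =>
    mem_PA.1 ((PA A).mul_mem_left _ heP)
  choose Y hY using hXe
  have hes : star e = e := (IsSelfAdjoint.of_nonneg he0).star_eq
  have hhs : star (h : Unitization ℂ A) = h := (IsSelfAdjoint.of_nonneg h0).star_eq
  refine ⟨Matrix.of Y, fun i j => ?_⟩
  rw [← Unitization.norm_inr (𝕜 := ℂ), Matrix.sub_apply, Unitization.inr_sub, Trans_map,
    Trans_dg, Trans_dg_blocks]
  have hYX : (Matrix.of fun k l => ((Matrix.of Y k l : A) : Unitization ℂ A)) =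
      Matrix.of fun k l => X k l * e := by
    refine Matrix.ext fun k l => ?_
    simp only [Matrix.of_apply]
    exact (hY k l).symm
  rw [hYX]
  have h1 : ((Matrix.of fun k l => X k l * e).conjTranspose * Dg (Fin 1) (h : Unitization ℂ A) *
      (Matrix.of fun k l => X k l * e)) i j =
      e * (X.conjTranspose * Dg (Fin 1) (h : Unitization ℂ A) * X) i j * e := by
    simp only [Matrix.mul_apply, Matrix.conjTranspose_apply, Matrix.of_apply, star_mul, hes,
      Finset.mul_sum, Finset.sum_mul, mul_assoc]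
  rw [h1]
  have h2 : e * (X.conjTranspose * Dg (Fin 1) (h : Unitization ℂ A) * X) i j * e -
      Dg (Fin 1 ⊕ Fin 1) (h : Unitization ℂ A) i j =
      e * ((X.conjTranspose * Dg (Fin 1) (h : Unitization ℂ A) * X) i j -
        Dg (Fin 1 ⊕ Fin 1) (h : Unitization ℂ A) i j) * e +
      (e * Dg (Fin 1 ⊕ Fin 1) (h : Unitization ℂ A) i j * e -
        Dg (Fin 1 ⊕ Fin 1) (h : Unitization ℂ A) i j) := by
    rw [mul_sub, sub_mul]
    abel
  rw [h2]
  have h3 : ‖e * ((X.conjTranspose * Dg (Fin 1) (h : Unitization ℂ A) * X) i j -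
        Dg (Fin 1 ⊕ Fin 1) (h : Unitization ℂ A) i j) * e‖ < ε / 2 := by
    refine lt_of_le_of_lt ?_ (hX i j)
    refine (norm_mul_le _ _).trans ?_
    refine (mul_le_mul_of_nonneg_left he1 (norm_nonneg _)).trans ?_
    rw [mul_one]
    refine (norm_mul_le _ _).trans ?_
    exact (mul_le_mul_of_nonneg_right he1 (norm_nonneg _)).trans (one_mul _).le
  have h4 : ‖e * Dg (Fin 1 ⊕ Fin 1) (h : Unitization ℂ A) i j * e -
        Dg (Fin 1 ⊕ Fin 1) (h : Unitization ℂ A) i j‖ ≤ ε / 2 := by
    unfold Dg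
    by_cases hij : i = j
    · subst hij
      rw [Matrix.diagonal_apply_eq]
      have h5 : e * (h : Unitization ℂ A) * e - h =
          (e * h - h) * e + star (e * h - h) := by
        rw [star_sub, star_mul, hes, hhs, sub_mul]
        abel
      rw [h5]
      refine (norm_add_le _ _).trans ?_
      rw [norm_star]
      have h6 : ‖(e * (h : Unitization ℂ A) - h) * e‖ ≤ ε / 4 := by
        refine (norm_mul_le _ _).trans ?_
        refine (mul_le_mul_of_nonneg_left he1 (norm_nonneg _)).trans ?_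
        rw [mul_one]
        exact hee
      linarith
    · rw [Matrix.diagonal_apply_ne _ hij, mul_zero, zero_mul, sub_zero, norm_zero]
      positivity
  calc _ ≤ _ := norm_add_le _ _
    _ < ε / 2 + ε / 2 := add_lt_add_of_lt_of_le h3 h4
    _ = ε := add_halves ε

theorem spi_PA (hA : ∀ x ∈ PA A, ∀ y ∈ PA A, 0 ≤ x → 0 ≤ y → ∀ ε : ℝ, 0 < ε →
    ∃ s ∈ PA A, ∃ t ∈ PA A, ‖star s * (x * x) * s - x * x‖ < ε ∧
      ‖star t * (y * y) * t - y * y‖ < ε ∧ ‖star s * (x * y) * t‖ < ε) :
    StronglyPurelyInfinite A := by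
  intro x y hx hy ε hε
  obtain ⟨s, hs, t, ht, h1, h2, h3⟩ := hA _ (Trans_inr_mem x) _ (Trans_inr_mem y)
    (isPos_iff.2 hx) (isPos_iff.2 hy) ε hε
  obtain ⟨s, rfl⟩ := mem_PA.1 hs
  obtain ⟨t, rfl⟩ := mem_PA.1 ht
  refine ⟨s, t, ?_, ?_, ?_⟩
  · rw [← Unitization.norm_inr (𝕜 := ℂ)]
    simpa only [Unitization.inr_mul, Unitization.inr_star, Unitization.inr_sub] using h1
  · rw [← Unitization.norm_inr (𝕜 := ℂ)]
    simpa only [Unitization.inr_mul, Unitization.inr_star, Unitization.inr_sub] using h2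
  · rw [← Unitization.norm_inr (𝕜 := ℂ)]
    simpa only [Unitization.inr_mul, Unitization.inr_star] using h3

end P133
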