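import Vale.Agent.Lib.P133.Zorn
import Vale.Agent.Lib.P133.Trans

/-!
# P133, module Tame: the general finiteness condition

`FiniteMaximal A`: for every positive `h` and `ε > 0` there are only finitely many closed two-sided ideals `I` that
are maximal among those at distance `≥ ε` from `h`.
-/

open scoped Topology

namespace P133

universe u

attribute [local instance] CStarAlgebra.spectralOrder CStarAlgebra.spectralOrderedRing

section NU

variable (A : Type u) [NonUnitalCStarAlgebra A]

/-- the closed two-sided ideals at distance at least `ε` from `h` -/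
def FarIdeals (h : A) (ε : ℝ) : Set (TwoSidedIdeal A) :=
  {I | IsClosed (I : Set A) ∧ ∀ y ∈ I, ε ≤ ‖h - y‖}

/-- finitely many maximal elements in each `FarIdeals A h ε` -/
def FiniteMaximal : Prop :=
  ∀ h : A, IsPos h → ∀ ε : ℝ, 0 < ε → {I | Maximal (· ∈ FarIdeals A h ε) I}.Finite

end NU

variable {A : Type u} [NonUnitalCStarAlgebra A]

theorem norm_inr (a : A) : ‖(a : Unitization ℂ A)‖ = ‖a‖ := Unitization.norm_inr a

/-- a closed two-sided ideal is stable under scalar multiplication -/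
theorem ideal_smul {I : TwoSidedIdeal A} (hI : IsClosed (I : Set A)) (c : ℂ) {a : A}
    (ha : a ∈ I) : c • a ∈ I := by
  have h1 : ∀ η : ℝ, 0 < η → ∃ e : A, ‖a - a * e‖ ≤ η := by
    intro η hη
    obtain ⟨z, -, -, -, -, -, hz⟩ := P101.exists_approx (a : Unitization ℂ A) hη
    have h2 : star (a : Unitization ℂ A) * a * z ∈ PA A := by
      have := cid_PA (A := A) |>.two
      exact Ideal.mul_mem_right _ _ (Ideal.mul_mem_left _ _ (mem_PA.2 ⟨a, rfl⟩))
    obtain ⟨e, he⟩ := mem_PA.1 h2
    refine ⟨e, ?_⟩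
    rw [he, mul_sub, mul_one] at hz
    rw [← norm_inr, Unitization.inr_sub, Unitization.inr_mul]
    exact hz
  have h3 : c • a ∈ closure (I : Set A) := by
    rw [Metric.mem_closure_iff]
    intro ε hε
    obtain ⟨e, he⟩ := h1 (ε / (2 * (‖c‖ + 1))) (by positivity)
    refine ⟨a * (c • e), TwoSidedIdeal.mul_mem_right _ _ _ ha, ?_⟩
    rw [dist_eq_norm, mul_smul_comm, ← smul_sub, norm_smul]
    have hc : (0 : ℝ) ≤ ‖c‖ := norm_nonneg c
    calc ‖c‖ * ‖a - a * e‖ ≤ (‖c‖ + 1) * (ε / (2 * (‖c‖ + 1))) :=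
          mul_le_mul (by linarith) he (norm_nonneg _) (by positivity)
      _ = ε / 2 := by field_simp
      _ < ε := by linarith
  rw [hI.closure_eq] at h3
  exact h3

/-- a closed two-sided ideal of `A` as an ideal of the unitization -/
noncomputable def up (I : TwoSidedIdeal A) (hI : IsClosed (I : Set A)) :
    Ideal (Unitization ℂ A) where
  carrier := {x | ∃ a ∈ I, x = (a : Unitization ℂ A)}
  add_mem' := by
    rintro _ _ ⟨a, ha, rfl⟩ ⟨b, hb, rfl⟩
    exact ⟨a + b, add_mem ha hb, (Unitization.inr_add ℂ a b).symm⟩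
  zero_mem' := ⟨0, zero_mem I, (Unitization.inr_zero ℂ).symm⟩
  smul_mem' := by
    rintro z _ ⟨a, ha, rfl⟩
    refine ⟨z.fst • a + z.snd * a, add_mem (ideal_smul hI _ ha) (TwoSidedIdeal.mul_mem_left _ _ _ ha),
      ?_⟩
    refine Unitization.ext ?_ ?_
    · simp
    · simp

theorem mem_up {I : TwoSidedIdeal A} {hI : IsClosed (I : Set A)} {x : Unitization ℂ A} :
    x ∈ up I hI ↔ ∃ a ∈ I, x = (a : Unitization ℂ A) := Iff.rfl

theorem inr_mem_up {I : TwoSidedIdeal A} {hI : IsClosed (I : Set A)} {a : A} :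
    (a : Unitization ℂ A) ∈ up I hI ↔ a ∈ I := by
  rw [mem_up]
  constructor
  · rintro ⟨b, hb, h⟩
    rwa [Unitization.inr_injective h]
  · intro h
    exact ⟨a, h, rfl⟩

theorem up_le {I : TwoSidedIdeal A} {hI : IsClosed (I : Set A)} : up I hI ≤ PA A := by
  rintro _ ⟨a, _, rfl⟩
  exact mem_PA.2 ⟨a, rfl⟩

theorem cid_up {I : TwoSidedIdeal A} {hI : IsClosed (I : Set A)} : CId (up I hI) := by
  refine ⟨⟨?_⟩, ?_⟩
  · rintro _ z ⟨a, ha, rfl⟩
    refine ⟨z.fst • a + a * z.snd, add_mem (ideal_smul hI _ ha)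
      (TwoSidedIdeal.mul_mem_right _ _ _ ha), ?_⟩
    refine Unitization.ext ?_ ?_
    · simp
    · simp
  · have h1 : (up I hI : Set (Unitization ℂ A)) = (fun a : A => (a : Unitization ℂ A)) '' (I : Set A) := by
      ext x
      constructor
      · rintro ⟨a, ha, rfl⟩
        exact ⟨a, ha, rfl⟩
      · rintro ⟨a, ha, rfl⟩
        exact ⟨a, ha, rfl⟩
    have h2 : Isometry (fun a : A => (a : Unitization ℂ A)) := by
      refine Isometry.of_dist_eq fun a b => ?_
      rw [dist_eq_norm, dist_eq_norm, ← Unitization.inr_sub, norm_inr]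
    rw [h1]
    exact h2.isClosedEmbedding.isClosedMap _ hI

/-- the restriction of an ideal of the unitization -/
noncomputable def dn (R : Ideal (Unitization ℂ A)) (hR : CId R) : TwoSidedIdeal A :=
  TwoSidedIdeal.mk' {a | (a : Unitization ℂ A) ∈ R}
    (by
      change ((0 : A) : Unitization ℂ A) ∈ R
      rw [Unitization.inr_zero]
      exact R.zero_mem)
    (by
      intro a b ha hb
      change ((a + b : A) : Unitization ℂ A) ∈ R
      rw [Unitization.inr_add]
      exact R.add_mem ha hb)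
    (by
      intro a ha
      change ((-a : A) : Unitization ℂ A) ∈ R
      rw [Unitization.inr_neg]
      exact R.neg_mem ha)
    (by
      intro a b hb
      change ((a * b : A) : Unitization ℂ A) ∈ R
      rw [Unitization.inr_mul]
      exact R.mul_mem_left _ hb)
    (by
      intro a b ha
      change ((a * b : A) : Unitization ℂ A) ∈ R
      rw [Unitization.inr_mul]
      have := hR.two
      exact Ideal.mul_mem_right _ _ ha)

theorem mem_dn {R : Ideal (Unitization ℂ A)} {hR : CId R} {a : A} :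
    a ∈ dn R hR ↔ (a : Unitization ℂ A) ∈ R := by
  rw [dn, TwoSidedIdeal.mem_mk']
  rfl

theorem isClosed_dn {R : Ideal (Unitization ℂ A)} {hR : CId R} :
    IsClosed (dn R hR : Set A) := by
  have h1 : (dn R hR : Set A) = (fun a : A => (a : Unitization ℂ A)) ⁻¹' (R : Set _) := by
    ext a
    exact mem_dn
  have h2 : Isometry (fun a : A => (a : Unitization ℂ A)) := by
    refine Isometry.of_dist_eq fun a b => ?_
    rw [dist_eq_norm, dist_eq_norm, ← Unitization.inr_sub, norm_inr]
  rw [h1]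
  exact hR.closed.preimage h2.continuous

theorem finMax_PA (hA : FiniteMaximal A) : FinMax (PA A) := by
  intro h hh h0 ε hε
  obtain ⟨a, rfl⟩ := mem_PA.1 hh
  have hfin := hA a (isPos_iff.1 h0) ε hε
  have hmax : ∀ R (hR : Maximal (· ∈ Bad (PA A) (a : Unitization ℂ A) ε) R),
      Maximal (· ∈ FarIdeals A a ε) (dn R hR.1.1) := by
    intro R hR
    refine ⟨⟨isClosed_dn, fun y hy => ?_⟩, ?_⟩
    · rw [← norm_inr, Unitization.inr_sub]
      exact hR.1.2.2 _ (mem_dn.1 hy)
    · intro J hJ hRJ b hb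
      have h1 : up J hJ.1 ∈ Bad (PA A) (a : Unitization ℂ A) ε := by
        refine ⟨cid_up, up_le, ?_⟩
        rintro _ ⟨y, hy, rfl⟩
        rw [← Unitization.inr_sub, norm_inr]
        exact hJ.2 y hy
      have h2 : R ≤ up J hJ.1 := by
        intro x hx
        obtain ⟨y, rfl⟩ := mem_PA.1 (hR.1.2.1 hx)
        exact inr_mem_up.2 (hRJ (mem_dn.2 hx))
      exact mem_dn.2 (hR.2 h1 h2 (inr_mem_up.2 hb))
  refine Set.Finite.of_injOn
    (f := fun R : Ideal (Unitization ℂ A) => {b : A | (b : Unitization ℂ A) ∈ R}) ?_ ?_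
    (hfin.image fun I : TwoSidedIdeal A => (I : Set A))
  · intro R hR
    refine ⟨dn R hR.1.1, hmax R hR, ?_⟩
    ext b
    exact mem_dn
  · intro R hR R' hR' h
    have h1 : ∀ b : A, (b : Unitization ℂ A) ∈ R ↔ (b : Unitization ℂ A) ∈ R' := fun b =>
      Set.ext_iff.1 h b
    ext x
    constructor
    · intro hx
      obtain ⟨b, rfl⟩ := mem_PA.1 (hR.1.2.1 hx)
      exact (h1 b).1 hx
    · intro hx
      obtain ⟨b, rfl⟩ := mem_PA.1 (hR'.1.2.1 hx)
      exact (h1 b).2 hx

end P133
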