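import Vale.Agent.Lib.P133.WtoP
import Vale.Agent.Lib.P133.PtoS
import Vale.Agent.Lib.P133.Tame

/-!
# P133, module Final

* `pi_of_spi`: `h = star c * c`: `h = x * x` with `x` positive in `A` (square root; in the unitization, or `CFC.sqrt` for
  nonunital algebras).  `x = y`: `s, t` with `star s * h * s ≈ h`, `star t * h * t ≈ h`, `star s * h * t ≈ 0`: the row
  `X = (s, t)`, `Fin 1 ⊕ Fin 1`.
* `wpi_of_pi`: `n = 1`.
-/

open scoped Topology

namespace P133

universe u

variable {A : Type u} [NonUnitalCStarAlgebra A]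

theorem wpi_of_pi (h : PurelyInfinite A) : WeaklyPurelyInfinite A := ⟨1, le_rfl, h⟩

private theorem Final_sqrt {a : A} (ha : IsPos a) : ∃ x : A, IsPos x ∧ x * x = a := by
  let _ := CStarAlgebra.spectralOrder A
  have := CStarAlgebra.spectralOrderedRing A
  have h0 : 0 ≤ a := CStarAlgebra.nonneg_iff_eq_star_mul_self.2 ha
  exact ⟨CFC.sqrt a, CStarAlgebra.nonneg_iff_eq_star_mul_self.1 (CFC.sqrt_nonneg a),
    CFC.sqrt_mul_sqrt_self a h0⟩

theorem pi_of_spi (h : StronglyPurelyInfinite A) : PurelyInfinite A := by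
  intro a ha ε hε
  obtain ⟨x, hx, rfl⟩ := Final_sqrt ha
  obtain ⟨s, t, h1, h2, h3⟩ := h x x hx hx ε hε
  have hxs : star x = x := by
    obtain ⟨c, rfl⟩ := hx
    rw [star_mul, star_star]
  refine ⟨Matrix.of fun _ j => Sum.elim (fun _ => s) (fun _ => t) j, ?_⟩
  have h4 : ‖star t * (x * x) * s‖ < ε := by
    have h5 : star t * (x * x) * s = star (star s * (x * x) * t) := by
      simp only [star_mul, star_star, hxs, mul_assoc]
    rw [h5, norm_star]
    exact h3
  have key : ∀ u v : A, ∀ i j : Fin 1 ⊕ Fin 1,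
      ((Matrix.of fun (_ : Fin 1) (j : Fin 1 ⊕ Fin 1) =>
        (Sum.elim (fun _ => s) (fun _ => t) j : A)).conjTranspose *
        (Matrix.diagonal fun _ : Fin 1 => x * x) *
        (Matrix.of fun (_ : Fin 1) (j : Fin 1 ⊕ Fin 1) =>
        (Sum.elim (fun _ => s) (fun _ => t) j : A))) i j =
      star (Sum.elim (fun _ => s) (fun _ => t) i : A) * (x * x) *
        (Sum.elim (fun _ => s) (fun _ => t) j : A) := by
    intro _ _ i j
    rw [Matrix.mul_apply, Fin.sum_univ_one, Matrix.mul_diagonal]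
    rfl
  rintro (i | i) (j | j)
  · rw [Matrix.sub_apply, key 0 0, Matrix.fromBlocks_apply₁₁, Subsingleton.elim i j,
      Matrix.diagonal_apply_eq]
    exact h1
  · rw [Matrix.sub_apply, key 0 0, Matrix.fromBlocks_apply₁₂, Matrix.zero_apply, sub_zero]
    exact h3
  · rw [Matrix.sub_apply, key 0 0, Matrix.fromBlocks_apply₂₁, Matrix.zero_apply, sub_zero]
    exact h4
  · rw [Matrix.sub_apply, key 0 0, Matrix.fromBlocks_apply₂₂, Subsingleton.elim i j,
      Matrix.diagonal_apply_eq]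
    exact h2

theorem pi_of_wpi' (hA : FinMax (PA A)) (h : WeaklyPurelyInfinite A) :
    PurelyInfinite A := by
  obtain ⟨n, hn, h⟩ := h
  exact pi_PA (wp_one cid_PA hA hn (wp_PA h))

theorem spi_of_wpi' (hA : FinMax (PA A)) (h : WeaklyPurelyInfinite A) :
    StronglyPurelyInfinite A := by
  obtain ⟨n, hn, h⟩ := h
  have h1 := wp_one cid_PA hA hn (wp_PA h)
  exact spi_PA fun x hx y hy hx0 hy0 ε hε => sp_of_wp cid_PA hA h1 hx hy hx0 hy0 hε

theorem main' (hA : FinMax (PA A)) :
    (WeaklyPurelyInfinite A ↔ PurelyInfinite A) ∧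
      (PurelyInfinite A ↔ StronglyPurelyInfinite A) :=
  ⟨⟨pi_of_wpi' hA, wpi_of_pi⟩, ⟨fun h => spi_of_wpi' hA (wpi_of_pi h), pi_of_spi⟩⟩

theorem main (hA : NoInfiniteAntichain A) :
    (WeaklyPurelyInfinite A ↔ PurelyInfinite A) ∧
      (PurelyInfinite A ↔ StronglyPurelyInfinite A) :=
  main' (finMax_of_noAnti (noAnti_PA hA))

theorem mainTame (hA : FiniteMaximal A) :
    (WeaklyPurelyInfinite A ↔ PurelyInfinite A) ∧
      (PurelyInfinite A ↔ StronglyPurelyInfinite A) :=
  main' (finMax_PA hA)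

end P133
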