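import Vale.Agent.Lib.P133.TwoPc

/-!
# P133, module Loc: almost orthogonal elements modulo an ideal

Real scalars: `(r : ℝ) • x`.

* `exists_lam`: `lam = sup {‖π (star z * g * z)‖ : z ∈ Hr x, ‖z‖ ≤ 1}` (`≤ 1`, the set contains `0`).
  First bound: for `z ∈ Hr x` and `e` from `hr_unit` (`e z ≈ z`): `star z * g * z ≈ star z * (e g e) * z` and
  `π (e g e) ≤ ‖π (e g e)‖ ≤ lam`, so `π (star z (e g e) z) ≤ lam • π (star z z)`; the order is closed.
  Second: `z₀ ∈ Hr x`, `‖z₀‖ ≤ 1`, `‖π (star z₀ g z₀)‖ > lam - δ`; `k = star z₀ * g * z₀ ∈ Hr x`, `0 ≤ k`; `f` continuous, `f t = 0` for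
  `t ≤ lam - 2 δ`, `f t = 1` for `t ≥ lam - δ`, `0 ≤ f ≤ 1`; `v = z₀ * f(k)`: `star v g v = f(k) k f(k) ≥ (lam - 2 δ) f(k)² ≥`
  `(lam - 2 δ) f(k) star z₀ z₀ f(k)`; `π v ≠ 0` since `π (star v g v) = cfc (t f(t)²) (π k) ≠ 0` (`‖π k‖ > lam - δ` is in the spectrum).
  Third: `π (star z g z) = 0` gives `π (√g z) = 0`, `π (g z) = 0`.
* `loc_pair`: `h' = v * star v ∈ Hr x`, `π h' ≠ 0`; `two_pieces` for `h'` gives `b₁, b₂`;
  `c_i = cfc (fun t => min (t / ‖π b_i‖) 1 ⊔ 0) b_i` (norm `≤ 1`, `‖π c_i‖ = 1`, `c₁ c₂ = 0` as `b₁ b₂ = 0`, `c_i ∈ Hr h' ⊆ Hr x`).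
  For `z ∈ Hr h'`: `z ∈ Rt v` (`hr_sub_rt`), so `(lam - 2 δ) • star z z ≤ star z g z` (for `z = v w`, then closure).
  `k = c₁ g c₂`, `κ = ‖π k‖`; `z = c₁ k + κ • c₂ ∈ Hr x`; `π (star z g z) ≤ lam • π (star z z)` reads (`c₁ c₂ = 0`, `c₂ g c₁ = star k`)
  `2 κ π(star k k) ≤ π (star k (lam c₁² - c₁ g c₁) k) + κ² π (lam c₂² - c₂ g c₂) ≤ 2 δ (κ² + κ²)`, so `2 κ³ ≤ 4 δ κ²`.
  `‖π (c₂ g c₂)‖ ≥ (lam - 2 δ) ‖π c₂‖²`.
-/

open scoped Topology

namespace P133

universe u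

attribute [local instance] CStarAlgebra.spectralOrder CStarAlgebra.spectralOrderedRing

variable {E F : Type u} [CStarAlgebra E] [CStarAlgebra F]

private theorem Loc_cont (π : E →⋆ₐ[ℂ] F) : Continuous π :=
  AddMonoidHomClass.continuous_of_bound π 1 fun x => by
    rw [one_mul]
    exact pi_norm π x

private theorem Loc_cut (π : E →⋆ₐ[ℂ] F) {x g z₀ : E} {lam δ : ℝ} (hx : 0 ≤ x) (hg : 0 ≤ g)
    (hδ : 0 < δ) (hδl : 2 * δ < lam) (hz₀ : z₀ ∈ Hr x) (hz1 : ‖z₀‖ ≤ 1)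
    (hgt : lam - δ < ‖π (star z₀ * g * z₀)‖) :
    ∃ v ∈ Hr x, π v ≠ 0 ∧ (lam - 2 * δ) • (star v * v) ≤ star v * g * v := by
  obtain ⟨k, hk⟩ : ∃ k : E, k = star z₀ * g * z₀ := ⟨_, rfl⟩
  have hk0 : 0 ≤ k := by
    rw [hk]
    exact star_left_conjugate_nonneg hg _
  have hks : IsSelfAdjoint k := IsSelfAdjoint.of_nonneg hk0
  have hkx : k ∈ Hr x := by
    rw [hk]
    exact hr_mul (hr_star hx hz₀) g hz₀
  obtain ⟨f, hfdef⟩ : ∃ f : ℝ → ℝ, f = fun t => max 0 (min 1 ((t - (lam - 2 * δ)) / δ)) :=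
    ⟨_, rfl⟩
  have hf : Continuous f := by
    rw [hfdef]
    exact continuous_const.max (continuous_const.min
      ((continuous_id.sub continuous_const).div_const δ))
  have hfz : ∀ t, t ≤ lam - 2 * δ → f t = 0 := by
    intro t ht
    have h1 : (t - (lam - 2 * δ)) / δ ≤ 0 := div_nonpos_of_nonpos_of_nonneg (by linarith) hδ.le
    rw [hfdef]
    exact max_eq_left ((min_le_right _ _).trans h1)
  have hf1 : ∀ t, lam - δ ≤ t → f t = 1 := by
    intro t ht
    have h1 : 1 ≤ (t - (lam - 2 * δ)) / δ := by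
      rw [le_div_iff₀ hδ]
      linarith
    rw [hfdef]
    change max 0 (min 1 ((t - (lam - 2 * δ)) / δ)) = 1
    rw [min_eq_left h1]
    exact max_eq_right zero_le_one
  have hf0 : f 0 = 0 := hfz 0 (by linarith)
  have hff : Continuous fun t : ℝ => f t * f t := hf.mul hf
  have hftf : Continuous fun t : ℝ => f t * t * f t := (hf.mul continuous_id).mul hf
  obtain ⟨c, hcdef⟩ : ∃ c : E, c = cfc f k := ⟨_, rfl⟩
  have hc : c ∈ Hr x := by
    rw [hcdef]
    exact hr_cfc hkx hks hf hf0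
  have hcs : star c = c := by
    rw [hcdef]
    exact (cfc_predicate f k : IsSelfAdjoint (cfc f k)).star_eq
  have e1 : star (z₀ * c) * g * (z₀ * c) = cfc (fun t => f t * t * f t) k := by
    rw [cfc_mul (fun t : ℝ => f t * t) f k (hf.mul continuous_id).continuousOn hf.continuousOn,
      cfc_mul f (fun t : ℝ => t) k hf.continuousOn continuousOn_id, cfc_id' ℝ k, ← hcdef,
      star_mul, hcs, hk]
    simp only [mul_assoc]
  refine ⟨z₀ * c, hr_mul2 hz₀ hc, ?_, ?_⟩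
  · intro h0
    have e2 : π (cfc (fun t => f t * t * f t) k) = 0 := by
      rw [← e1, map_mul, h0, mul_zero]
    rw [pi_cfc π hks hftf] at e2
    rw [← hk] at hgt
    have hpos : 0 < ‖π k‖ := lt_of_le_of_lt (by linarith) hgt
    have hnt : Nontrivial F := ⟨π k, 0, norm_pos_iff.1 hpos⟩
    have hsp := CStarAlgebra.norm_mem_spectrum_of_nonneg (pi_nonneg π hk0)
    have h3 := norm_apply_le_norm_cfc (fun t => f t * t * f t) (π k) hsp hftf.continuousOn
      (hks.map π)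
    rw [e2, norm_zero, hf1 _ hgt.le, one_mul, mul_one, norm_norm] at h3
    linarith
  · rw [e1]
    have s1 : star (z₀ * c) * (z₀ * c) ≤ cfc (fun t => f t * f t) k := by
      have h1 : star z₀ * z₀ ≤ 1 := by
        refine CStarAlgebra.star_mul_le_algebraMap_norm_sq.trans ?_
        have h2 : algebraMap ℝ E (‖z₀‖ ^ 2) = (‖z₀‖ ^ 2) • (1 : E) :=
          Algebra.algebraMap_eq_smul_one _
        rw [h2]
        calc (‖z₀‖ ^ 2) • (1 : E) ≤ (1 : ℝ) • (1 : E) :=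
              smul_le_smul_of_nonneg_right (pow_le_one₀ (norm_nonneg _) hz1) zero_le_one
          _ = 1 := one_smul _ _
      have h3 := star_left_conjugate_le_conjugate h1 c
      rw [mul_one, hcs] at h3
      rw [cfc_mul f f k hf.continuousOn hf.continuousOn, ← hcdef]
      refine le_trans (le_of_eq ?_) h3
      rw [star_mul, hcs]
      simp only [mul_assoc]
    have s2 : (lam - 2 * δ) • cfc (fun t => f t * f t) k ≤ cfc (fun t => f t * t * f t) k := by
      rw [← cfc_smul (lam - 2 * δ) (fun t => f t * f t) k hff.continuousOn]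
      have hsm : Continuous fun t : ℝ => (lam - 2 * δ) • (f t * f t) := by
        simp only [smul_eq_mul]
        exact continuous_const.mul hff
      refine cfc_mono (fun t _ => ?_) hsm.continuousOn hftf.continuousOn
      rw [smul_eq_mul]
      rcases le_total t (lam - 2 * δ) with ht | ht
      · rw [hfz t ht]
        simp
      · have h1 : 0 ≤ f t * f t := mul_self_nonneg _
        nlinarith
    exact (smul_le_smul_of_nonneg_left s1 (by linarith)).trans s2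

theorem exists_lam (π : E →⋆ₐ[ℂ] F) {x g : E} (hx : 0 ≤ x) (hg : 0 ≤ g) (hg1 : ‖g‖ ≤ 1) :
    ∃ lam : ℝ, 0 ≤ lam ∧ lam ≤ 1 ∧
      (∀ z ∈ Hr x, π (star z * g * z) ≤ lam • π (star z * z)) ∧
      (∀ δ : ℝ, 0 < δ → 2 * δ < lam →
        ∃ v ∈ Hr x, π v ≠ 0 ∧ (lam - 2 * δ) • (star v * v) ≤ star v * g * v) ∧
      (lam = 0 → ∀ z ∈ Hr x, π (g * z) = 0) := by
  obtain ⟨Z, hZ⟩ : ∃ Z : Set ℝ, Z = {r | ∃ z ∈ Hr x, ‖z‖ ≤ 1 ∧ r = ‖π (star z * g * z)‖} :=
    ⟨_, rfl⟩
  have hZ1 : ∀ r ∈ Z, r ≤ 1 := by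
    rw [hZ]
    rintro _ ⟨z, _, hz1, rfl⟩
    refine (pi_norm π _).trans ?_
    calc ‖star z * g * z‖ ≤ ‖star z * g‖ * ‖z‖ := norm_mul_le _ _
      _ ≤ ‖star z‖ * ‖g‖ * ‖z‖ := mul_le_mul_of_nonneg_right (norm_mul_le _ _) (norm_nonneg _)
      _ ≤ 1 * 1 * 1 := by
          rw [norm_star]
          exact mul_le_mul (mul_le_mul hz1 hg1 (norm_nonneg _) zero_le_one) hz1 (norm_nonneg _)
            (by norm_num)
      _ = 1 := by norm_num
  have hbdd : BddAbove Z := ⟨1, hZ1⟩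
  have hZ0 : (0 : ℝ) ∈ Z := by
    rw [hZ]
    refine ⟨0, hr_zero x, ?_, ?_⟩
    · rw [norm_zero]
      exact zero_le_one
    · rw [mul_zero, map_zero, norm_zero]
  have hmem : ∀ z ∈ Hr x, ‖z‖ ≤ 1 → ‖π (star z * g * z)‖ ≤ sSup Z := fun z hz hz1 =>
    le_csSup hbdd (by rw [hZ]; exact ⟨z, hz, hz1, rfl⟩)
  have h1 : ∀ z ∈ Hr x, π (star z * g * z) ≤ sSup Z • π (star z * z) := by
    intro z hz
    have hseq : ∀ n : ℕ, ∃ e ∈ Hr x, 0 ≤ e ∧ ‖e‖ ≤ 1 ∧ ‖e * z - z‖ ≤ 1 / ((n : ℝ) + 1) :=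
      fun n => hr_unit hx (hr_rt hz) (by positivity)
    choose e he he0 he1 hez using hseq
    have hlim : Filter.Tendsto (fun n => e n * z) Filter.atTop (𝓝 z) :=
      tendsto_iff_norm_sub_tendsto_zero.2 (squeeze_zero (fun _ => norm_nonneg _) hez
        tendsto_one_div_add_atTop_nhds_zero_nat)
    have hlim2 : Filter.Tendsto (fun n => π (star (e n * z) * g * (e n * z))) Filter.atTop
        (𝓝 (π (star z * g * z))) := by
      have h2 : Continuous fun y : E => star y * g * y := by fun_prop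
      exact (((Loc_cont π).comp h2).tendsto z).comp hlim
    refine le_of_tendsto' hlim2 fun n => ?_
    have e1 : star (e n * z) * g * (e n * z) = star z * (star (e n) * g * e n) * z := by
      simp only [star_mul, mul_assoc]
    have hsa : IsSelfAdjoint (π (star (e n) * g * e n)) :=
      IsSelfAdjoint.of_nonneg (pi_nonneg π (star_left_conjugate_nonneg hg _))
    have h2 := CStarAlgebra.star_left_conjugate_le_norm_smul (a := π z) hsa
    rw [e1, map_mul π (star z * (star (e n) * g * e n)) z, map_mul π (star z), map_star π z]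
    refine h2.trans ?_
    rw [map_mul π (star z) z, map_star π z]
    exact smul_le_smul_of_nonneg_right (hmem _ (he n) (he1 n)) (star_mul_self_nonneg _)
  refine ⟨sSup Z, le_csSup hbdd hZ0, csSup_le ⟨0, hZ0⟩ hZ1, h1, ?_, ?_⟩
  · intro δ hδ hδl
    obtain ⟨r, hr, hgt⟩ := exists_lt_of_lt_csSup ⟨0, hZ0⟩ (show sSup Z - δ < sSup Z by linarith)
    rw [hZ] at hr
    obtain ⟨z₀, hz₀, hz1, rfl⟩ := hr
    exact Loc_cut π hx hg hδ hδl hz₀ hz1 hgt
  · intro hl z hz
    have h2 := h1 z hz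
    rw [hl, zero_smul] at h2
    obtain ⟨c, hc⟩ := CStarAlgebra.nonneg_iff_eq_star_mul_self.1 hg
    have h3 : π (star z * g * z) = 0 :=
      le_antisymm h2 (pi_nonneg π (star_left_conjugate_nonneg hg z))
    have h4 : star (π (c * z)) * π (c * z) = 0 := by
      rw [← map_star, ← map_mul, star_mul, ← h3, hc]
      simp only [mul_assoc]
    have h5 := (CStarRing.star_mul_self_eq_zero_iff _).1 h4
    rw [hc, mul_assoc, map_mul, h5, mul_zero]

/-- the lower bound passes to the right ideal of `v` -/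
private theorem Loc_low {v g : E} {m : ℝ} (hlow : m • (star v * v) ≤ star v * g * v) {z : E}
    (hz : z ∈ Rt v) : m • (star z * z) ≤ star z * g * z := by
  have h1 : Rt v ⊆ {z : E | m • (star z * z) ≤ star z * g * z} := by
    refine closure_minimal ?_ (isClosed_le (by fun_prop) (by fun_prop))
    rintro _ ⟨w, rfl⟩
    change m • (star (v * w) * (v * w)) ≤ star (v * w) * g * (v * w)
    have h2 := star_left_conjugate_le_conjugate hlow w
    refine le_trans (le_of_eq ?_) (h2.trans (le_of_eq ?_))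
    · rw [mul_smul_comm, smul_mul_assoc, star_mul]
      simp only [mul_assoc]
    · simp only [star_mul, mul_assoc]
  exact h1 hz

/-- normalisation -/
private theorem Loc_cap (π : E →⋆ₐ[ℂ] F) {b : E} (hb : 0 ≤ b) (hπb : π b ≠ 0) :
    ∃ c ∈ Hr b, 0 ≤ c ∧ ‖c‖ ≤ 1 ∧ ‖π c‖ = 1 := by
  have hbs : IsSelfAdjoint b := IsSelfAdjoint.of_nonneg hb
  have hn : 0 < ‖π b‖ := norm_pos_iff.2 hπb
  obtain ⟨f, hfdef⟩ : ∃ f : ℝ → ℝ, f = fun t => max (min (t / ‖π b‖) 1) 0 := ⟨_, rfl⟩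
  have hf : Continuous f := by
    rw [hfdef]
    exact ((continuous_id.div_const _).min continuous_const).max continuous_const
  have hf0 : f 0 = 0 := by
    rw [hfdef]
    simp
  have hfnn : ∀ t, 0 ≤ f t := fun t => by
    rw [hfdef]
    exact le_max_right _ _
  have hfle : ∀ t, f t ≤ 1 := fun t => by
    rw [hfdef]
    exact max_le (min_le_right _ _) zero_le_one
  have hf1 : f ‖π b‖ = 1 := by
    rw [hfdef]
    change max (min (‖π b‖ / ‖π b‖) 1) 0 = 1
    rw [div_self hn.ne', min_self]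
    exact max_eq_left zero_le_one
  have hnorm : ‖cfc f b‖ ≤ 1 := norm_cfc_le zero_le_one fun t _ => by
    rw [Real.norm_of_nonneg (hfnn t)]
    exact hfle t
  refine ⟨cfc f b, hr_cfc (hr_self hb) hbs hf hf0, cfc_nonneg fun t _ => hfnn t, hnorm, ?_⟩
  refine le_antisymm ((pi_norm π _).trans hnorm) ?_
  have hnt : Nontrivial F := ⟨π b, 0, hπb⟩
  have hsp := CStarAlgebra.norm_mem_spectrum_of_nonneg (pi_nonneg π hb)
  have h3 := norm_apply_le_norm_cfc f (π b) hsp hf.continuousOn (hbs.map π)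
  rw [hf1, norm_one] at h3
  rw [pi_cfc π hbs hf]
  exact h3

/-- orthogonal hereditary subalgebras -/
private theorem Loc_orth {b₁ b₂ c₁ c₂ : E} (hb : b₁ * b₂ = 0) (h₁ : c₁ ∈ Hr b₁)
    (h₂ : c₂ ∈ Hr b₂) : c₁ * c₂ = 0 := by
  have h3 : c₁ * c₂ ∈ closure ({0} : Set E) := by
    refine map_mem_closure₂ continuous_mul h₁ h₂ ?_
    rintro _ ⟨y, rfl⟩ _ ⟨z, rfl⟩
    rw [Set.mem_singleton_iff]
    have e : b₁ * y * b₁ * (b₂ * z * b₂) = b₁ * y * (b₁ * b₂) * z * b₂ := by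
      simp only [mul_assoc]
    rw [e, hb, mul_zero, zero_mul, zero_mul]
  rw [closure_singleton, Set.mem_singleton_iff] at h3
  exact h3

theorem loc_pair (π : E →⋆ₐ[ℂ] F) {x g v : E} {lam δ : ℝ} (hx : 0 ≤ x) (hg : 0 ≤ g)
    (hδ : 0 < δ) (hlam : 2 * δ < lam)
    (hup : ∀ z ∈ Hr x, π (star z * g * z) ≤ lam • π (star z * z)) (hv : v ∈ Hr x)
    (hπv : π v ≠ 0) (hlow : (lam - 2 * δ) • (star v * v) ≤ star v * g * v) {n : ℕ} (hn : 1 ≤ n)
    (hc : CLe (Dg (Fin n ⊕ Fin n) (v * star v)) (Dg (Fin n) (v * star v))) :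
    ∃ c₁ ∈ Hr x, ∃ c₂ ∈ Hr x, 0 ≤ c₁ ∧ 0 ≤ c₂ ∧ ‖c₁‖ ≤ 1 ∧ ‖c₂‖ ≤ 1 ∧ ‖π c₁‖ = 1 ∧ ‖π c₂‖ = 1 ∧
      ‖π (c₁ * g * c₂)‖ ≤ 2 * δ ∧ lam - 2 * δ ≤ ‖π (c₂ * g * c₂)‖ := by
  have hh0 : 0 ≤ v * star v := mul_star_self_nonneg v
  have hhx : v * star v ∈ Hr x := hr_mul2 hv (hr_star hx hv)
  have hπh : π (v * star v) ≠ 0 := by
    intro h
    rw [map_mul, map_star] at h
    exact hπv ((CStarRing.mul_star_self_eq_zero_iff _).1 h)
  obtain ⟨b₁, hb₁, b₂, hb₂, hb₁0, hb₂0, hbb, hπ₁, hπ₂⟩ := two_pieces π hh0 hπh hn hc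
  obtain ⟨c₁, hc₁, hc₁0, hc₁1, hπc₁⟩ := Loc_cap π hb₁0 hπ₁
  obtain ⟨c₂, hc₂, hc₂0, hc₂1, hπc₂⟩ := Loc_cap π hb₂0 hπ₂
  have hcc : c₁ * c₂ = 0 := Loc_orth hbb hc₁ hc₂
  have hc₁h : c₁ ∈ Hr (v * star v) := hr_trans hb₁ hc₁
  have hc₂h : c₂ ∈ Hr (v * star v) := hr_trans hb₂ hc₂
  have hc₁x : c₁ ∈ Hr x := hr_trans hhx hc₁h
  have hc₂x : c₂ ∈ Hr x := hr_trans hhx hc₂h
  have hs₁ : star c₁ = c₁ := (IsSelfAdjoint.of_nonneg hc₁0).star_eq
  have hs₂ : star c₂ = c₂ := (IsSelfAdjoint.of_nonneg hc₂0).star_eq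
  have hgs : star g = g := (IsSelfAdjoint.of_nonneg hg).star_eq
  have hcc' : c₂ * c₁ = 0 := by
    have h1 := congrArg star hcc
    rwa [star_mul, hs₁, hs₂, star_zero] at h1
  have hm0 : 0 ≤ lam - 2 * δ := by linarith
  -- lower bounds
  have hl₁ := Loc_low hlow (hr_sub_rt hc₁h)
  have hl₂ := Loc_low hlow (hr_sub_rt hc₂h)
  rw [hs₁] at hl₁
  rw [hs₂] at hl₂
  have hsq : ∀ c : E, 0 ≤ c → ‖c‖ ≤ 1 → star c = c → c * c ≤ 1 := by
    intro c _ hc1 hcs
    have h1 := CStarAlgebra.star_mul_le_algebraMap_norm_sq (a := c)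
    rw [hcs] at h1
    refine h1.trans ?_
    have h2 : algebraMap ℝ E (‖c‖ ^ 2) = (‖c‖ ^ 2) • (1 : E) := Algebra.algebraMap_eq_smul_one _
    rw [h2]
    calc (‖c‖ ^ 2) • (1 : E) ≤ (1 : ℝ) • (1 : E) :=
          smul_le_smul_of_nonneg_right (pow_le_one₀ (norm_nonneg _) hc1) zero_le_one
      _ = 1 := one_smul _ _
  have hup' : ∀ c : E, 0 ≤ c → ‖c‖ ≤ 1 → star c = c →
      (lam - 2 * δ) • (c * c) ≤ c * g * c → lam • (c * c) - c * g * c ≤ (2 * δ) • (1 : E) := by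
    intro c hc0 hc1 hcs hl
    have h1 : lam • (c * c) - c * g * c ≤ lam • (c * c) - (lam - 2 * δ) • (c * c) :=
      sub_le_sub_left hl _
    have h2 : lam • (c * c) - (lam - 2 * δ) • (c * c) = (2 * δ) • (c * c) := by
      rw [← sub_smul]
      congr 1
      ring
    rw [h2] at h1
    exact h1.trans (smul_le_smul_of_nonneg_left (hsq c hc0 hc1 hcs) (by positivity))
  have hu₁ := hup' c₁ hc₁0 hc₁1 hs₁ hl₁
  have hu₂ := hup' c₂ hc₂0 hc₂1 hs₂ hl₂
  refine ⟨c₁, hc₁x, c₂, hc₂x, hc₁0, hc₂0, hc₁1, hc₂1, hπc₁, hπc₂, ?_, ?_⟩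
  · obtain ⟨k, hk⟩ : ∃ k : E, k = c₁ * g * c₂ := ⟨_, rfl⟩
    have hks : star k = c₂ * g * c₁ := by
      rw [hk, star_mul, star_mul, hs₁, hs₂, hgs, mul_assoc]
    obtain ⟨κ, hκ⟩ : ∃ κ : ℝ, κ = ‖π k‖ := ⟨_, rfl⟩
    have hκ0 : 0 ≤ κ := by
      rw [hκ]
      exact norm_nonneg _
    obtain ⟨z, hz⟩ : ∃ z : E, z = c₁ * k + κ • c₂ := ⟨_, rfl⟩
    have hzx : z ∈ Hr x := by
      rw [hz]
      refine hr_add ?_ (hr_rsmul κ hc₂x)
      have e : c₁ * k = c₁ * (c₁ * g) * c₂ := by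
        rw [hk]
        simp only [mul_assoc]
      rw [e]
      exact hr_mul hc₁x _ hc₂x
    have hzs : star z = star k * c₁ + κ • c₂ := by
      rw [hz, star_add, star_mul, hs₁, star_smul, hs₂]
      rfl
    have hzz : star z * z = star k * (c₁ * c₁) * k + κ ^ 2 • (c₂ * c₂) := by
      rw [hzs, hz, add_mul, mul_add, mul_add]
      have a1 : star k * c₁ * (κ • c₂) = 0 := by
        rw [mul_smul_comm, mul_assoc, hcc, mul_zero, smul_zero]
      have a2 : κ • c₂ * (c₁ * k) = 0 := by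
        rw [smul_mul_assoc, ← mul_assoc, hcc', zero_mul, smul_zero]
      have a3 : κ • c₂ * (κ • c₂) = κ ^ 2 • (c₂ * c₂) := by
        rw [smul_mul_assoc, mul_smul_comm, smul_smul, pow_two]
      rw [a1, a2, a3, add_zero, zero_add]
      simp only [mul_assoc]
    have hzgz : star z * g * z = star k * (c₁ * g * c₁) * k + (2 * κ) • (star k * k) +
        κ ^ 2 • (c₂ * g * c₂) := by
      rw [hzs, hz, add_mul, add_mul, mul_add, mul_add]
      have a1 : star k * c₁ * g * (κ • c₂) = κ • (star k * k) := by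
        have e : star k * c₁ * g * c₂ = star k * (c₁ * g * c₂) := by
          simp only [mul_assoc]
        rw [mul_smul_comm, e, ← hk]
      have a2 : κ • c₂ * g * (c₁ * k) = κ • (star k * k) := by
        rw [smul_mul_assoc, smul_mul_assoc, hks]
        simp only [mul_assoc]
      have a3 : κ • c₂ * g * (κ • c₂) = κ ^ 2 • (c₂ * g * c₂) := by
        rw [smul_mul_assoc, smul_mul_assoc, mul_smul_comm, smul_smul, pow_two]
      have a4 : star k * c₁ * g * (c₁ * k) = star k * (c₁ * g * c₁) * k := by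
        simp only [mul_assoc]
      rw [a1, a2, a3, a4, two_mul, add_smul]
      abel
    have key := hup z hzx
    have hπs : ∀ (r : ℝ) (w : E), π (r • w) = r • π w := fun r w => by
      have e : ∀ (G : Type u) [CStarAlgebra G] (w : G), r • w = (r : ℂ) • w := fun G _ w => by
        exact (Complex.coe_smul r w).symm
      rw [e E, e F, map_smul]
    -- in `E`
    have hineq : star z * g * z - lam • (star z * z) =
        (2 * κ) • (star k * k) - star k * (lam • (c₁ * c₁) - c₁ * g * c₁) * k -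
          κ ^ 2 • (lam • (c₂ * c₂) - c₂ * g * c₂) := by
      rw [hzz, hzgz, mul_sub, sub_mul, smul_sub, smul_add, mul_smul_comm, smul_mul_assoc,
        smul_comm lam (κ ^ 2)]
      abel
    have hbd₁ : star k * (lam • (c₁ * c₁) - c₁ * g * c₁) * k ≤ (2 * δ) • (star k * k) := by
      have h1 := star_left_conjugate_le_conjugate hu₁ k
      rwa [mul_smul_comm, mul_one, smul_mul_assoc] at h1
    have hbd₂ : κ ^ 2 • (lam • (c₂ * c₂) - c₂ * g * c₂) ≤ (κ ^ 2 * (2 * δ)) • (1 : E) := by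
      rw [← smul_smul]
      exact smul_le_smul_of_nonneg_left hu₂ (by positivity)
    have hE : (2 * κ) • (star k * k) ≤ (star z * g * z - lam • (star z * z)) +
        (2 * δ) • (star k * k) + (κ ^ 2 * (2 * δ)) • (1 : E) := by
      rw [hineq]
      have h1 := add_le_add hbd₁ hbd₂
      have h2 := add_le_add_right h1 ((2 * κ) • (star k * k) -
        star k * (lam • (c₁ * c₁) - c₁ * g * c₁) * k - κ ^ 2 • (lam • (c₂ * c₂) - c₂ * g * c₂))
      refine le_trans (le_of_eq ?_) (h2.trans (le_of_eq ?_))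
      · abel
      · abel
    have hF := pi_mono π hE
    rw [hπs, map_add, map_add, map_sub, hπs, hπs, hπs, map_one] at hF
    have hF2 : (2 * κ) • π (star k * k) ≤ (2 * δ) • π (star k * k) + (κ ^ 2 * (2 * δ)) • (1 : F) := by
      refine hF.trans ?_
      have h1 : π (star z * g * z) - lam • π (star z * z) ≤ 0 := sub_nonpos.2 key
      have h2 := add_le_add_right (add_le_add_right h1 ((2 * δ) • π (star k * k)))
        ((κ ^ 2 * (2 * δ)) • (1 : F))
      refine le_trans (le_of_eq ?_) (h2.trans (le_of_eq ?_))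
      · abel
      · abel
    have hkk : 0 ≤ π (star k * k) := pi_nonneg π (star_mul_self_nonneg k)
    have hkn : ‖π (star k * k)‖ = κ ^ 2 := by
      rw [map_mul, map_star, CStarRing.norm_star_mul_self, hκ, pow_two]
    have hF3 : ‖(2 * κ) • π (star k * k)‖ ≤
        ‖(2 * δ) • π (star k * k) + (κ ^ 2 * (2 * δ)) • (1 : F)‖ :=
      CStarAlgebra.norm_le_norm_of_nonneg_of_le (smul_nonneg (by positivity) hkk) hF2
    have h1F : ‖(1 : F)‖ ≤ 1 := by
      rcases subsingleton_or_nontrivial F with h | h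
      · rw [Subsingleton.elim (1 : F) 0, norm_zero]
        exact zero_le_one
      · rw [CStarRing.norm_one]
    have hF4 : 2 * κ * κ ^ 2 ≤ 2 * δ * κ ^ 2 + κ ^ 2 * (2 * δ) * 1 := by
      rw [norm_smul, hkn, Real.norm_of_nonneg (by positivity)] at hF3
      refine hF3.trans ((norm_add_le _ _).trans ?_)
      rw [norm_smul, norm_smul, hkn, Real.norm_of_nonneg (by positivity),
        Real.norm_of_nonneg (by positivity)]
      exact add_le_add le_rfl (mul_le_mul_of_nonneg_left h1F (by positivity))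
    rw [← hk, ← hκ]
    rcases hκ0.eq_or_lt with h0 | hpos
    · rw [← h0]
      positivity
    · by_contra hcon
      rw [not_le] at hcon
      have h2 : 0 < κ ^ 2 := by positivity
      nlinarith
  · have h1 := pi_mono π hl₂
    have hπs : π ((lam - 2 * δ) • (c₂ * c₂)) = (lam - 2 * δ) • π (c₂ * c₂) := by
      have e : ∀ (G : Type u) [CStarAlgebra G] (w : G),
          (lam - 2 * δ) • w = ((lam - 2 * δ : ℝ) : ℂ) • w := fun G _ w => by
        exact (Complex.coe_smul _ w).symm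
      rw [e E, e F, map_smul]
    rw [hπs] at h1
    have h2 : 0 ≤ π (c₂ * c₂) := by
      have h3 := pi_nonneg π (star_mul_self_nonneg c₂)
      rwa [hs₂] at h3
    have h4 := CStarAlgebra.norm_le_norm_of_nonneg_of_le (smul_nonneg hm0 h2) h1
    have h5 : ‖π (c₂ * c₂)‖ = 1 := by
      have h6 : π (c₂ * c₂) = star (π c₂) * π c₂ := by
        rw [← map_star, hs₂, map_mul]
      rw [h6, CStarRing.norm_star_mul_self, hπc₂, one_mul]
    rw [norm_smul, h5, mul_one, Real.norm_of_nonneg hm0] at h4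
    exact h4

end P133
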