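import Vale.Agent.Lib.P133.Loc

/-!
# P133, module LocE: almost orthogonal elements

`loc_orth`: `lam` from `exists_lam` with `g = y`.
Case `lam = 0`: `c = ‖x‖⁻¹ • x` (so `π (y c) = 0`), for `η`: `m = y c c y`, `π m = 0`, `ψ = (1 + K m)⁻¹`, `d = y ψ ψ y`:
`d ∈ Hr y`, `0 ≤ d`, `π d = π (y y)`, `‖c d‖ ≤ ‖c y ψ‖ ≤ (‖ψ m ψ‖)^(1/2) ≤ K^(-1/2)`.  `ν = min ‖π c‖ (‖π y‖ ^ 2)`.
Case `lam > 0`: `ν = min 1 (lam ^ 2 / 16)`; given `η` choose `δ` small (`δ ≤ 1`, `4 δ ≤ lam`, `δ ≤ η ^ 2`), `v` from `exists_lam`,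
`c₁, c₂` from `loc_pair` (`v * star v ∈ P`, `WP`); `k = c₁ y c₂`, `m = star k * k`, `‖π m‖ ≤ 4 δ ^ 2`; `K = (4 δ)⁻¹`,
`ψ = (1 + K m)⁻¹`, `c = c₁`, `d = y c₂ ψ ψ c₂ y ∈ Hr y`: `‖c d‖ ≤ ‖k ψ‖ = ‖ψ m ψ‖^(1/2) ≤ (1 / (4 K))^(1/2) = √δ`;
`π ψ ≥ (1 + δ)⁻¹ ≥ 1 / 2`, so `π d ≥ (1 / 4) π (y c₂ c₂ y)` and `‖π (y c₂ c₂ y)‖ = ‖π (c₂ y)‖² ≥ ‖π (c₂ y c₂)‖² ≥ (lam - 2 δ)² ≥ lam² / 4`.
`ψ = cfc (fun t => 1 / (1 + K t)) m`.
-/

open scoped Topology

namespace P133

universe u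

attribute [local instance] CStarAlgebra.spectralOrder CStarAlgebra.spectralOrderedRing

variable {E F : Type u} [CStarAlgebra E] [CStarAlgebra F]

/-- the function `(1 + K m)⁻¹` -/
private theorem LocE_psi {m : E} (hm : 0 ≤ m) {K : ℝ} (hK : 0 < K) :
    ∃ ψ : E, star ψ = ψ ∧ ‖ψ‖ ≤ 1 ∧ (1 + K • m) * ψ = 1 ∧ ‖ψ * m * ψ‖ ≤ 1 / (4 * K) := by
  have hsa : IsSelfAdjoint m := IsSelfAdjoint.of_nonneg hm
  have hsp : ∀ t ∈ spectrum ℝ m, 0 ≤ t := fun t ht => spectrum_nonneg_of_nonneg hm ht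
  have hpos : ∀ t ∈ spectrum ℝ m, 0 < 1 + K * t := fun t ht => by
    have := mul_nonneg hK.le (hsp t ht)
    linarith
  have hc : ContinuousOn (fun t : ℝ => 1 / (1 + K * t)) (spectrum ℝ m) := by
    refine ContinuousOn.div (by fun_prop) (by fun_prop) fun t ht => (hpos t ht).ne'
  refine ⟨cfc (fun t : ℝ => 1 / (1 + K * t)) m, ?_, ?_, ?_, ?_⟩
  · exact (cfc_predicate (fun t : ℝ => 1 / (1 + K * t)) m : IsSelfAdjoint _).star_eq
  · refine norm_cfc_le zero_le_one fun t ht => ?_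
    have h1 := hpos t ht
    have h2 := mul_nonneg hK.le (hsp t ht)
    rw [Real.norm_of_nonneg (by positivity), div_le_one h1]
    linarith
  · have h1 : (1 + K • m : E) = cfc (fun t : ℝ => 1 + K * t) m := by
      rw [cfc_add (a := m) (fun _ => (1 : ℝ)) (fun t => K * t) (by fun_prop) (by fun_prop),
        cfc_const_one ℝ m hsa, cfc_const_mul_id K m hsa]
    rw [h1, ← cfc_mul (fun t : ℝ => 1 + K * t) (fun t : ℝ => 1 / (1 + K * t)) m (by fun_prop) hc]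
    rw [cfc_congr (g := fun _ => (1 : ℝ)) fun t ht => by
      have h1 := hpos t ht
      change (1 + K * t) * (1 / (1 + K * t)) = 1
      field_simp]
    exact cfc_const_one ℝ m hsa
  · have h1 : cfc (fun t : ℝ => 1 / (1 + K * t)) m * m * cfc (fun t : ℝ => 1 / (1 + K * t)) m =
        cfc (fun t : ℝ => 1 / (1 + K * t) * t * (1 / (1 + K * t))) m := by
      rw [cfc_mul (fun t : ℝ => 1 / (1 + K * t) * t) (fun t : ℝ => 1 / (1 + K * t)) m
        (hc.mul continuousOn_id) hc,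
        cfc_mul (fun t : ℝ => 1 / (1 + K * t)) (fun t => t) m hc continuousOn_id, cfc_id' ℝ m hsa]
    rw [h1]
    refine norm_cfc_le (by positivity) fun t ht => ?_
    have h2 := hpos t ht
    have h3 := hsp t ht
    rw [Real.norm_of_nonneg (by positivity)]
    rw [div_mul_eq_mul_div, one_mul, div_mul_div_comm, mul_one,
      div_le_div_iff₀ (by positivity) (by positivity)]
    nlinarith [sq_nonneg (1 - K * t)]

/-- the element `d = w ψ ψ w*` -/
private theorem LocE_key (π : E →⋆ₐ[ℂ] F) {c w : E} (hw : ‖w‖ ≤ 1) {K : ℝ} (hK : 0 < K) :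
    ∃ z : E, 0 ≤ w * z * star w ∧ ‖w * z * star w‖ ≤ 1 ∧ ‖c * (w * z * star w)‖ ^ 2 ≤ 1 / (4 * K) ∧
      ‖π w‖ ^ 2 ≤ (1 + K * ‖π (c * w)‖ ^ 2) ^ 2 * ‖π (w * z * star w)‖ := by
  obtain ⟨ψ, h1, h2, h3, h4⟩ := LocE_psi (m := star (c * w) * (c * w)) (star_mul_self_nonneg _) hK
  have e1 : w * (ψ * ψ) * star w = star (ψ * star w) * (ψ * star w) := by
    rw [star_mul, star_star, h1]
    simp only [mul_assoc]
  have hψw : ‖ψ * star w‖ ≤ 1 := by
    refine (norm_mul_le _ _).trans ?_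
    rw [norm_star]
    exact mul_le_one₀ h2 (norm_nonneg _) hw
  refine ⟨ψ * ψ, ?_, ?_, ?_, ?_⟩
  · rw [e1]
    exact star_mul_self_nonneg _
  · rw [e1, CStarRing.norm_star_mul_self]
    exact mul_le_one₀ hψw (norm_nonneg _) hψw
  · have e2 : c * (w * (ψ * ψ) * star w) = (c * w * ψ) * (ψ * star w) := by
      simp only [mul_assoc]
    have e3 : ‖c * w * ψ‖ ^ 2 ≤ 1 / (4 * K) := by
      have e4 : ψ * (star (c * w) * (c * w)) * ψ = star (c * w * ψ) * (c * w * ψ) := by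
        rw [star_mul (c * w) ψ, h1]
        simp only [mul_assoc]
      rw [e4, CStarRing.norm_star_mul_self] at h4
      rw [sq]
      exact h4
    rw [e2]
    refine le_trans ?_ e3
    refine pow_le_pow_left₀ (norm_nonneg _) ?_ 2
    refine (norm_mul_le _ _).trans ?_
    exact mul_le_of_le_one_right (norm_nonneg _) hψw
  · have e5 : ‖π (w * (ψ * ψ) * star w)‖ = ‖π (ψ * star w)‖ ^ 2 := by
      rw [e1, map_mul, map_star, CStarRing.norm_star_mul_self, sq]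
    have e6 : π (star w) = π (1 + K • (star (c * w) * (c * w))) * π (ψ * star w) := by
      rw [← map_mul, ← mul_assoc, h3, one_mul]
    have e7 : ‖π (1 + K • (star (c * w) * (c * w)))‖ ≤ 1 + K * ‖π (c * w)‖ ^ 2 := by
      have e8 : π (1 + K • (star (c * w) * (c * w))) =
          1 + K • (star (π (c * w)) * π (c * w)) := by
        rw [map_add, map_one]
        have e9 : π (K • (star (c * w) * (c * w))) = K • π (star (c * w) * (c * w)) := by
          have : (K • (star (c * w) * (c * w)) : E) = (K : ℂ) • (star (c * w) * (c * w)) :=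
            (Complex.coe_smul K _).symm
          rw [this, map_smul, Complex.coe_smul]
        rw [e9, map_mul π (star (c * w)), map_star]
      rw [e8]
      refine (norm_add_le _ _).trans ?_
      refine add_le_add ?_ ?_
      · rcases subsingleton_or_nontrivial F with hF | hF
        · rw [Subsingleton.elim (1 : F) 0, norm_zero]
          exact zero_le_one
        · exact (CStarRing.norm_one (E := F)).le
      · rw [norm_smul, CStarRing.norm_star_mul_self, Real.norm_of_nonneg hK.le, sq]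
    have e10 : ‖π w‖ ≤ (1 + K * ‖π (c * w)‖ ^ 2) * ‖π (ψ * star w)‖ := by
      have : ‖π w‖ = ‖π (star w)‖ := by rw [map_star, norm_star]
      rw [this, e6]
      refine (norm_mul_le _ _).trans ?_
      exact mul_le_mul_of_nonneg_right e7 (norm_nonneg _)
    rw [e5, ← mul_pow]
    exact pow_le_pow_left₀ (norm_nonneg _) e10 2

theorem loc_orth (π : E →⋆ₐ[ℂ] F) {P : Ideal E} (hP : CId P) {n : ℕ} (hn : 1 ≤ n) (hW : WP P n)
    {x y : E} (hx : x ∈ P) (hx0 : 0 ≤ x) (hy0 : 0 ≤ y) (hy1 : ‖y‖ ≤ 1)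
    (hπx : π x ≠ 0) (hπy : π y ≠ 0) :
    ∃ ν : ℝ, 0 < ν ∧ ∀ η : ℝ, 0 < η → ∃ c ∈ Hr x, ∃ d ∈ Hr y, 0 ≤ c ∧ 0 ≤ d ∧ ‖c‖ ≤ 1 ∧
      ‖d‖ ≤ 1 ∧ ν ≤ ‖π c‖ ∧ ν ≤ ‖π d‖ ∧ ‖c * d‖ ≤ η := by
  have hys : star y = y := (IsSelfAdjoint.of_nonneg hy0).star_eq
  obtain ⟨lam, hl0, hl1, hup, hlow, hzero⟩ := exists_lam π hx0 hy0 hy1
  rcases hl0.eq_or_lt with hl | hl
  · -- case `lam = 0`
    have hxne : x ≠ 0 := fun h => hπx (by rw [h, map_zero])
    have hxn : 0 < ‖x‖ := norm_pos_iff.2 hxne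
    set c : E := ‖x‖⁻¹ • x with hc
    have hcm : c ∈ Hr x := hr_rsmul _ (hr_self hx0)
    have hc0 : 0 ≤ c := smul_nonneg (inv_nonneg.2 hxn.le) hx0
    have hcs : star c = c := (IsSelfAdjoint.of_nonneg hc0).star_eq
    have hcn : ‖c‖ ≤ 1 := by
      rw [hc, norm_smul, norm_inv, norm_norm, inv_mul_cancel₀ hxn.ne']
    have hπc : 0 < ‖π c‖ := by
      rw [norm_pos_iff]
      intro h
      apply hπx
      have h1 : x = (‖x‖ : ℂ) • c := by
        rw [hc, Complex.coe_smul, smul_smul, mul_inv_cancel₀ hxn.ne', one_smul]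
      rw [h1, map_smul, h, smul_zero]
    have hπcy : π (c * y) = 0 := by
      have h1 := hzero hl.symm c hcm
      have h2 : π (c * y) = star (π (y * c)) := by
        rw [← map_star, star_mul, hys, hcs]
      rw [h2, h1, star_zero]
    have hπy' : 0 < ‖π y‖ := norm_pos_iff.2 hπy
    refine ⟨min ‖π c‖ (‖π y‖ ^ 2), lt_min hπc (by positivity), fun η hη => ?_⟩
    obtain ⟨z, z1, z2, z3, z4⟩ := LocE_key π (c := c) (w := y) hy1 (K := 1 / (4 * η ^ 2))
      (by positivity)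
    rw [hys] at z1 z2 z3 z4
    refine ⟨c, hcm, y * z * y, mem_hr y z, hc0, z1, hcn, z2, min_le_left _ _, ?_, ?_⟩
    · rw [hπcy, norm_zero] at z4
      refine (min_le_right _ _).trans ?_
      simpa using z4
    · have h1 : 1 / (4 * (1 / (4 * η ^ 2))) = η ^ 2 := by field_simp
      rw [h1] at z3
      exact (pow_le_pow_iff_left₀ (norm_nonneg _) hη.le two_ne_zero).1 z3
  · -- case `lam > 0`
    refine ⟨min 1 (lam ^ 2 / 16), lt_min one_pos (by positivity), fun η hη => ?_⟩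
    obtain ⟨δ, hδ0, hδ1, hδ2, hδ3⟩ : ∃ δ : ℝ, 0 < δ ∧ δ ≤ 1 ∧ 4 * δ ≤ lam ∧ δ ≤ η ^ 2 := by
      refine ⟨min (min 1 (lam / 4)) (η ^ 2), ?_, ?_, ?_, min_le_right _ _⟩
      · exact lt_min (lt_min one_pos (by positivity)) (by positivity)
      · exact (min_le_left _ _).trans (min_le_left _ _)
      · have h1 : min (min 1 (lam / 4)) (η ^ 2) ≤ lam / 4 :=
          (min_le_left _ _).trans (min_le_right _ _)
        linarith
    have h2δ : 2 * δ < lam := by linarith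
    obtain ⟨v, hv, hπv, hvlow⟩ := hlow δ hδ0 h2δ
    have hvP : v ∈ P := hr_mem_ideal hP hx hv
    have := hP.two
    have hvv : v * star v ∈ P := P.mul_mem_right _ hvP
    obtain ⟨c₁, m1, c₂, m2, p1, p2, n1, n2, q1, q2, r1, r2⟩ :=
      loc_pair π hx0 hy0 hδ0 h2δ hup hv hπv hvlow hn (hW _ hvv (mul_star_self_nonneg v))
    have hc2s : star c₂ = c₂ := (IsSelfAdjoint.of_nonneg p2).star_eq
    have hw : ‖y * c₂‖ ≤ 1 := (norm_mul_le _ _).trans (mul_le_one₀ hy1 (norm_nonneg _) n2)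
    obtain ⟨z, z1, z2, z3, z4⟩ := LocE_key π (c := c₁) (w := y * c₂) hw (K := 1 / (4 * δ))
      (by positivity)
    have e1 : y * c₂ * z * star (y * c₂) = y * (c₂ * z * c₂) * y := by
      rw [star_mul, hys, hc2s]
      simp only [mul_assoc]
    rw [e1] at z1 z2 z3 z4
    refine ⟨c₁, m1, y * (c₂ * z * c₂) * y, mem_hr y _, p1, z1, n1, z2, ?_, ?_, ?_⟩
    · rw [q1]
      exact min_le_left _ _
    · refine (min_le_right _ _).trans ?_
      rw [← mul_assoc] at z4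
      have a1 : ‖π (c₁ * y * c₂)‖ ^ 2 ≤ (2 * δ) ^ 2 := pow_le_pow_left₀ (norm_nonneg _) r1 2
      have a2 : 1 + 1 / (4 * δ) * ‖π (c₁ * y * c₂)‖ ^ 2 ≤ 2 := by
        have a3 : 1 / (4 * δ) * ‖π (c₁ * y * c₂)‖ ^ 2 ≤ 1 / (4 * δ) * (2 * δ) ^ 2 :=
          mul_le_mul_of_nonneg_left a1 (by positivity)
        have a4 : 1 / (4 * δ) * (2 * δ) ^ 2 = δ := by
          field_simp
          ring
        linarith
      have a5 : (1 + 1 / (4 * δ) * ‖π (c₁ * y * c₂)‖ ^ 2) ^ 2 ≤ 4 := by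
        have : 0 ≤ 1 + 1 / (4 * δ) * ‖π (c₁ * y * c₂)‖ ^ 2 := by positivity
        nlinarith
      have a6 : lam - 2 * δ ≤ ‖π (y * c₂)‖ := by
        refine r2.trans ?_
        rw [mul_assoc, map_mul]
        refine (norm_mul_le _ _).trans ?_
        rw [q2, one_mul]
      have a7 : (lam / 2) ^ 2 ≤ ‖π (y * c₂)‖ ^ 2 := by
        refine pow_le_pow_left₀ (by positivity) ?_ 2
        linarith
      have a8 := mul_le_mul_of_nonneg_right a5 (norm_nonneg (π (y * (c₂ * z * c₂) * y)))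
      nlinarith
    · have h1 : 1 / (4 * (1 / (4 * δ))) = δ := by field_simp
      rw [h1] at z3
      exact (pow_le_pow_iff_left₀ (norm_nonneg _) hη.le two_ne_zero).1 (z3.trans hδ3)

end P133
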