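import Vale.Agent.Lib.P133.TwoPc
import Vale.Agent.Lib.P133.Cu

/-!
# P133, module Sq: square-zero elements

* `exists_sq`: `two_pieces` gives `b₁, b₂ ∈ Hr h ⊆ P` (`hr_mem_ideal`), `PrimeAt` gives `a` with `π (b₁ a b₂) ≠ 0`;
  `x = b₁ a b₂ ∈ Hr h` (`hr_mul`), `x x = b₁ a (b₂ b₁) a b₂ = 0` (`b₂ b₁ = star (b₁ b₂) = 0`).
* `half`: `u 0 = x`, `u 1 = √(star x * x)` (`CFC.sqrt`, or `cfc Real.sqrt`) are in `Rt h` (`hr_rt`, `hr_cfc`, `hr_star`); the Gram
  matrix is `Dg (Fin 2) (star x * x)` (`star x * (star x * x) = 0`, so `star x * √(star x * x) = 0`, e.g. since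
  `‖star x * √b‖² = ‖star x * b * x‖`... ); `cle_gram`.
-/

open scoped Topology

namespace P133

universe u

attribute [local instance] CStarAlgebra.spectralOrder CStarAlgebra.spectralOrderedRing

variable {E F : Type u} [CStarAlgebra E] [CStarAlgebra F]

theorem exists_sq (π : E →⋆ₐ[ℂ] F) {P : Ideal E} (hP : CId P) (hπP : PrimeAt P π) {n : ℕ}
    (hn : 1 ≤ n) (hW : WP P n) {h : E} (hh : h ∈ P) (h0 : 0 ≤ h) (hπ : π h ≠ 0) :
    ∃ x ∈ Hr h, x * x = 0 ∧ π x ≠ 0 := by
  obtain ⟨b₁, hb₁, b₂, hb₂, h1, h2, h12, hp1, hp2⟩ := two_pieces π h0 hπ hn (hW h hh h0)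
  have hb₁P : b₁ ∈ P := hr_mem_ideal hP hh hb₁
  have hb₂P : b₂ ∈ P := hr_mem_ideal hP hh hb₂
  have hex : ∃ a, π (b₁ * a * b₂) ≠ 0 := by
    by_contra hcon
    rcases hπP b₁ hb₁P b₂ hb₂P (fun a => by
      by_contra hne
      exact hcon ⟨a, hne⟩) with h3 | h3
    · exact hp1 h3
    · exact hp2 h3
  obtain ⟨a, ha⟩ := hex
  refine ⟨b₁ * a * b₂, hr_mul hb₁ a hb₂, ?_, ha⟩
  have h21 : b₂ * b₁ = 0 := by
    have h3 := congrArg star h12
    rwa [star_mul, star_zero, (IsSelfAdjoint.of_nonneg h1).star_eq,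
      (IsSelfAdjoint.of_nonneg h2).star_eq] at h3
  calc b₁ * a * b₂ * (b₁ * a * b₂) = b₁ * a * (b₂ * b₁) * a * b₂ := by simp only [mul_assoc]
    _ = 0 := by rw [h21, mul_zero, zero_mul, zero_mul]

theorem half {h x : E} (h0 : 0 ≤ h) (hx : x ∈ Hr h) (hxx : x * x = 0) :
    CLe (Dg (Fin 2) (star x * x)) (Dg (Fin 1) h) := by
  have hb0 : 0 ≤ star x * x := star_mul_self_nonneg x
  have hbs : IsSelfAdjoint (star x * x) := IsSelfAdjoint.of_nonneg hb0
  set s : E := cfc Real.sqrt (star x * x) with hs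
  have hsH : s ∈ Hr h := hr_cfc (hr_mul2 (hr_star h0 hx) hx) hbs Real.continuous_sqrt
    Real.sqrt_zero
  have hss : s * s = star x * x := by
    rw [hs, ← cfc_mul Real.sqrt Real.sqrt (star x * x) Real.continuous_sqrt.continuousOn
      Real.continuous_sqrt.continuousOn]
    conv_rhs => rw [← cfc_id' ℝ (star x * x)]
    exact cfc_congr fun t ht => Real.mul_self_sqrt (spectrum_nonneg_of_nonneg hb0 ht)
  have hst : star s = s := (cfc_predicate Real.sqrt (star x * x)).star_eq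
  have h1 : star x * s = 0 := by
    rw [← CStarRing.mul_star_self_eq_zero_iff, star_mul, star_star, hst]
    calc star x * s * (s * x) = star x * (s * s) * x := by simp only [mul_assoc]
      _ = star x * star x * (x * x) := by rw [hss]; simp only [mul_assoc]
      _ = 0 := by rw [hxx, mul_zero]
  have h2 : s * x = 0 := by
    have h3 := congrArg star h1
    rwa [star_mul, star_star, star_zero, hst] at h3
  have h3 := cle_gram h0 ![x, s] (fun i => by
    fin_cases i
    · exact hr_rt hx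
    · exact hr_rt hsH)
  have h4 : (Matrix.of fun i j => star ((![x, s] : Fin 2 → E) i) * (![x, s] : Fin 2 → E) j) =
      Dg (Fin 2) (star x * x) := by
    ext i j
    fin_cases i <;> fin_cases j
    · simp [Dg]
    · simp [Dg, h1]
    · simp [Dg, hst, h2]
    · simp [Dg, hst, hss]
  rwa [h4] at h3

end P133
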