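import Vale.Agent.Lib.P133.Her
import Vale.Agent.Lib.P133.Quo

/-!
# P133, module TwoPc: two orthogonal pieces

* `two_of_spec`: `f₁`, `f₂` continuous bumps at `s`, `t` (nonnegative, `f₁ s = 1`, `f₂ t = 1`, disjoint supports, both
  vanish at `0`): `b_i = cfc f_i y ∈ Hr h` (`hr_cfc`), `π b_i = cfc f_i (π y) ≠ 0` (`pi_cfc`, the value `1` is in its spectrum).
* `corner_scalar`: suppose that for all selfadjoint `y ∈ Hr h` the nonzero real spectrum of `π y` has at most one point.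
  `π h = τ p`, `τ = ‖π h‖ > 0` (`spectrum ⊆ {0, τ}`, so `(π h)² = τ π h`), `p = τ⁻¹ π h` a projection.  For `w` selfadjoint,
  `q = p (π w) p`, real `s > ‖q‖`: `y = τ⁻² (h w h + s h * h) ∈ Hr h`, `π y = q + s p =: T`, `T² = μ T` with `μ` the nonzero
  spectral point (or `T = 0`).  `T = (s + q) p`, `s + q` is invertible and commutes with `p`: `(s + q)² p = μ (s + q) p`,
  `(s + q) p = μ p`, `q = (μ - s) p`.  General `w`: real and imaginary part.
* `two_pieces`: otherwise, by `corner_scalar`: `p (π w) p = χ w • p` for all `w` (choose `χ`).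
  `hc`: for `ε > 0` there is `X` with all entries of `Xᴴ * Dg h * X - Dg h` of norm `< ε` (nbhd in the product topology).
  Apply `π`, multiply by `p` on both sides, `p (π x)^* (π h) (π x') p = τ (p π x p)^* (p π x' p) = τ conj(χ x) χ x' p`:
  `|∑ k, conj (χ (X k i)) χ (X k j) - δ_ij| ≤ ε / τ` for `i j : Fin n ⊕ Fin n`.  The `n × 2n` matrix `χ (X k j)` has a
  nonzero kernel vector `ξ` (`Matrix.exists_mulVec_eq_zero_iff`-like, `n < 2 n`), `|ξ i₀|` maximal:
  `|ξ i₀| ≤ 2 n (ε / τ) |ξ i₀|`; take `ε = τ / (4 n)`.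
-/

open scoped Topology

namespace P133

universe u

attribute [local instance] CStarAlgebra.spectralOrder CStarAlgebra.spectralOrderedRing

variable {E F : Type u} [CStarAlgebra E] [CStarAlgebra F]

theorem two_of_spec (π : E →⋆ₐ[ℂ] F) {h y : E} (hy : y ∈ Hr h) (hs : IsSelfAdjoint y)
    {s t : ℝ} (hs0 : s ≠ 0) (ht0 : t ≠ 0) (hst : s ≠ t) (h1 : s ∈ spectrum ℝ (π y))
    (h2 : t ∈ spectrum ℝ (π y)) :
    ∃ b₁ ∈ Hr h, ∃ b₂ ∈ Hr h, 0 ≤ b₁ ∧ 0 ≤ b₂ ∧ b₁ * b₂ = 0 ∧ π b₁ ≠ 0 ∧ π b₂ ≠ 0 := by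
  have hsa : IsSelfAdjoint (π y) := hs.map π
  set r : ℝ := min (min |s| |t|) |s - t| / 2 with hr
  have h3 : 0 < min (min |s| |t|) |s - t| :=
    lt_min (lt_min (abs_pos.2 hs0) (abs_pos.2 ht0)) (abs_pos.2 (sub_ne_zero.2 hst))
  have hr0 : 0 < r := by positivity
  have hrs : r < |s| := by
    have : min (min |s| |t|) |s - t| ≤ |s| := (min_le_left _ _).trans (min_le_left _ _)
    linarith
  have hrt : r < |t| := by
    have : min (min |s| |t|) |s - t| ≤ |t| := (min_le_left _ _).trans (min_le_right _ _)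
    linarith
  have hrst : 2 * r ≤ |s - t| := by
    have : min (min |s| |t|) |s - t| ≤ |s - t| := min_le_right _ _
    linarith
  have hcont : ∀ a : ℝ, Continuous fun u : ℝ => max (r - |u - a|) 0 := fun a => by fun_prop
  have hzero : ∀ a : ℝ, r < |a| → max (r - |0 - a|) 0 = 0 := fun a ha => by
    rw [zero_sub, abs_neg]
    exact max_eq_right (by linarith)
  have hne : ∀ a : ℝ, a ∈ spectrum ℝ (π y) → π (cfc (fun u : ℝ => max (r - |u - a|) 0) y) ≠ 0 := by
    intro a ha h0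
    rw [pi_cfc π hs (hcont a)] at h0
    have h5 := norm_apply_le_norm_cfc (fun u : ℝ => max (r - |u - a|) 0) (π y) ha
      (hcont a).continuousOn hsa
    rw [h0, norm_zero, sub_self, abs_zero, sub_zero, max_eq_left hr0.le, Real.norm_eq_abs,
      abs_of_pos hr0] at h5
    linarith
  refine ⟨cfc (fun u : ℝ => max (r - |u - s|) 0) y, hr_cfc hy hs (hcont s) (hzero s hrs),
    cfc (fun u : ℝ => max (r - |u - t|) 0) y, hr_cfc hy hs (hcont t) (hzero t hrt),
    cfc_nonneg fun _ _ => le_max_right _ _, cfc_nonneg fun _ _ => le_max_right _ _, ?_,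
    hne s h1, hne t h2⟩
  rw [← cfc_mul _ _ y (hcont s).continuousOn (hcont t).continuousOn]
  have h6 : (fun u : ℝ => max (r - |u - s|) 0 * max (r - |u - t|) 0) = fun _ => 0 := by
    funext u
    rcases le_or_gt r |u - s| with h7 | h7
    · rw [max_eq_right (by linarith), zero_mul]
    · have h8 : |s - t| ≤ |u - s| + |u - t| := by
        rw [abs_sub_comm u s]
        exact abs_sub_le s u t
      rw [max_eq_right (a := r - |u - t|) (by linarith), mul_zero]
  rw [h6, cfc_const_zero]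

/-- the norm of a nonzero projection -/
theorem TwoPc_norm {p : F} (hp0 : p ≠ 0) (hs : star p = p) (hp : p * p = p) : ‖p‖ = 1 := by
  have h1 := CStarRing.norm_star_mul_self (x := p)
  rw [hs, hp] at h1
  have h2 : ‖p‖ ≠ 0 := norm_ne_zero_iff.2 hp0
  have h3 : ‖p‖ * 1 = ‖p‖ * ‖p‖ := by rw [mul_one]; exact h1
  exact (mul_left_cancel₀ h2 h3).symm

/-- an element with at most one nonzero spectral value -/
theorem TwoPc_sq {T : F} (hT : IsSelfAdjoint T)
    (h : ∀ s ∈ spectrum ℝ T, ∀ t ∈ spectrum ℝ T, s ≠ 0 → t ≠ 0 → s = t) :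
    ∃ μ : ℝ, T * T = μ • T := by
  obtain ⟨μ, hμ⟩ : ∃ μ : ℝ, ∀ t ∈ spectrum ℝ T, t * t = μ * t := by
    by_cases h1 : ∃ s ∈ spectrum ℝ T, s ≠ 0
    · obtain ⟨s, hs, hs0⟩ := h1
      refine ⟨s, fun t ht => ?_⟩
      by_cases ht0 : t = 0
      · rw [ht0, mul_zero, mul_zero]
      · rw [h s hs t ht hs0 ht0]
    · push Not at h1
      refine ⟨0, fun t ht => ?_⟩
      rw [h1 t ht, mul_zero]
  refine ⟨μ, ?_⟩
  have h2 : cfc (fun t : ℝ => t * t) T = cfc (fun t : ℝ => μ * t) T := cfc_congr hμ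
  rw [cfc_mul (fun t : ℝ => t) (fun t : ℝ => t) T continuousOn_id continuousOn_id,
    cfc_const_mul μ (fun t : ℝ => t) T continuousOn_id, cfc_id' ℝ T] at h2
  exact h2

/-- a selfadjoint element of a scalar corner -/
theorem TwoPc_corner {p q : F} (hp : p * p = p) (hpq : p * q = q) (hqp : q * p = q) {s μ : ℝ}
    (hs : ‖q‖ < s) (h : (q + s • p) * (q + s • p) = μ • (q + s • p)) : q = (μ - s) • p := by
  have hs0 : 0 < s := (norm_nonneg q).trans_lt hs
  have hu : IsUnit (1 - (-(s⁻¹ • q))) := by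
    apply isUnit_one_sub_of_norm_lt_one
    rw [norm_neg, norm_smul, Real.norm_of_nonneg (inv_nonneg.2 hs0.le), inv_mul_lt_iff₀ hs0, mul_one]
    exact hs
  have h1 : q + s • p = s • ((1 - (-(s⁻¹ • q))) * p) := by
    rw [sub_neg_eq_add, add_mul, one_mul, smul_mul_assoc, hqp, smul_add, smul_smul,
      mul_inv_cancel₀ hs0.ne', one_smul, add_comm]
  have h2 : (q + s • p) * p = q + s • p := by
    rw [add_mul, hqp, smul_mul_assoc, hp]
  have h3 : p * (q + s • p) = q + s • p := by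
    rw [mul_add, hpq, mul_smul_comm, hp]
  have h4 : (1 - (-(s⁻¹ • q))) * (s • (q + s • p)) = (1 - (-(s⁻¹ • q))) * (s • (μ • p)) := by
    calc (1 - (-(s⁻¹ • q))) * (s • (q + s • p))
        = (s • ((1 - (-(s⁻¹ • q))) * p)) * (q + s • p) := by
          rw [smul_mul_assoc, mul_assoc, h3, mul_smul_comm]
      _ = (q + s • p) * (q + s • p) := by rw [← h1]
      _ = μ • (q + s • p) := h
      _ = μ • (s • ((1 - (-(s⁻¹ • q))) * p)) := by rw [← h1]
      _ = (1 - (-(s⁻¹ • q))) * (s • (μ • p)) := by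
          rw [mul_smul_comm, mul_smul_comm, smul_comm]
  have h5 := hu.mul_left_cancel h4
  have h6 : q + s • p = μ • p := by
    have h7 := congrArg (fun z => s⁻¹ • z) h5
    rwa [smul_smul, smul_smul, inv_mul_cancel₀ hs0.ne', one_smul, one_smul] at h7
  rw [sub_smul, ← h6, add_sub_cancel_right]

theorem corner_scalar (π : E →⋆ₐ[ℂ] F) {h : E} (h0 : 0 ≤ h) (hπ : π h ≠ 0)
    (hspec : ∀ y ∈ Hr h, IsSelfAdjoint y → ∀ s ∈ spectrum ℝ (π y), ∀ t ∈ spectrum ℝ (π y),
      s ≠ 0 → t ≠ 0 → s = t) :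
    ∃ (τ : ℝ) (p : F), 0 < τ ∧ p ≠ 0 ∧ star p = p ∧ p * p = p ∧ π h = (τ : ℂ) • p ∧
      ∀ w : E, ∃ c : ℂ, p * π w * p = c • p := by
  have hsh : star h = h := (IsSelfAdjoint.of_nonneg h0).star_eq
  have hπsa : IsSelfAdjoint (π h) := (IsSelfAdjoint.of_nonneg h0).map π
  have hπ0 : 0 ≤ π h := pi_nonneg π h0
  have hτ : 0 < ‖π h‖ := norm_pos_iff.2 hπ
  set τ : ℝ := ‖π h‖ with hτd
  have : Nontrivial F := ⟨⟨π h, 0, hπ⟩⟩
  have hτm : τ ∈ spectrum ℝ (π h) := CStarAlgebra.norm_mem_spectrum_of_nonneg hπ0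
  have h1 : ∀ t ∈ spectrum ℝ (π h), t * t = τ * t := by
    intro t ht
    by_cases ht0 : t = 0
    · rw [ht0, mul_zero, mul_zero]
    · rw [hspec h (hr_self h0) (IsSelfAdjoint.of_nonneg h0) τ hτm t ht hτ.ne' ht0]
  have hsq : π h * π h = τ • π h := by
    have h2 : cfc (fun t : ℝ => t * t) (π h) = cfc (fun t : ℝ => τ * t) (π h) := cfc_congr h1
    rw [cfc_mul (fun t : ℝ => t) (fun t : ℝ => t) (π h) continuousOn_id continuousOn_id,
      cfc_const_mul τ (fun t : ℝ => t) (π h) continuousOn_id, cfc_id' ℝ (π h)] at h2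
    exact h2
  obtain ⟨p, hp⟩ : ∃ p : F, p = τ⁻¹ • π h := ⟨_, rfl⟩
  have hph : π h = τ • p := by
    rw [hp, smul_smul, mul_inv_cancel₀ hτ.ne', one_smul]
  have hps : star p = p := by
    rw [hp, star_smul, hπsa.star_eq, star_trivial]
  have hpp : p * p = p := by
    rw [hp, smul_mul_smul_comm, hsq, smul_smul, mul_assoc, inv_mul_cancel₀ hτ.ne', mul_one]
  have hp0 : p ≠ 0 := by
    intro h2
    rw [hph, h2, smul_zero] at hπ
    exact hπ rfl
  have hsaw : ∀ w : E, IsSelfAdjoint w → ∃ c : ℝ, p * π w * p = c • p := by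
    intro w hw
    set q : F := p * π w * p with hq
    have hpq : p * q = q := by rw [hq, ← mul_assoc, ← mul_assoc, hpp]
    have hqp : q * p = q := by rw [hq, mul_assoc, hpp]
    set s : ℝ := ‖q‖ + 1 with hs
    set y : E := (τ⁻¹ * τ⁻¹) • (h * w * h + (s : ℝ) • (h * 1 * h)) with hy
    have hyH : y ∈ Hr h := hr_rsmul _ (hr_add (mem_hr h w) (hr_rsmul _ (mem_hr h 1)))
    have hysa : IsSelfAdjoint y := by
      rw [hy]
      unfold IsSelfAdjoint
      simp only [star_smul, star_add, star_mul, hsh, hw.star_eq, star_one, star_trivial, mul_assoc]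
    have hπy : π y = q + s • p := by
      have e1 : π (h * w * h) = (τ * τ) • q := by
        rw [map_mul, map_mul, hph, hq, smul_mul_assoc, smul_mul_smul_comm]
      have e2 : π (h * 1 * h) = (τ * τ) • p := by
        rw [mul_one, map_mul, hph, smul_mul_smul_comm, hpp]
      have e3 : ∀ (r : ℝ) (z : E), π (r • z) = r • π z := fun r z => by
        rw [← Complex.coe_smul, map_smul, Complex.coe_smul]
      rw [hy, e3, map_add, e3, e1, e2, smul_add, smul_smul, smul_comm s (τ * τ) p, smul_smul]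
      have e4 : τ⁻¹ * τ⁻¹ * (τ * τ) = 1 := by field_simp
      rw [e4, one_smul, one_smul]
    have hTsa : IsSelfAdjoint (q + s • p) := by
      rw [← hπy]
      exact hysa.map π
    obtain ⟨μ, hμ⟩ := TwoPc_sq hTsa (by
      rw [← hπy]
      exact hspec y hyH hysa)
    exact ⟨μ - s, TwoPc_corner hpp hpq hqp (by rw [hs]; linarith) hμ⟩
  refine ⟨τ, p, hτ, hp0, hps, hpp, ?_, fun w => ?_⟩
  · rw [hph, Complex.coe_smul]
  · obtain ⟨c, hc⟩ := hsaw (realPart w : E) (realPart w).2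
    obtain ⟨d, hd⟩ := hsaw (imaginaryPart w : E) (imaginaryPart w).2
    refine ⟨(c : ℂ) + Complex.I * (d : ℂ), ?_⟩
    have e := realPart_add_I_smul_imaginaryPart w
    calc p * π w * p = p * π ((realPart w : E) + Complex.I • (imaginaryPart w : E)) * p := by rw [e]
      _ = p * π (realPart w : E) * p + Complex.I • (p * π (imaginaryPart w : E) * p) := by
          rw [map_add, map_smul, mul_add, add_mul, mul_smul_comm, smul_mul_assoc]
      _ = ((c : ℂ) + Complex.I * (d : ℂ)) • p := by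
          rw [hc, hd, add_smul, mul_smul, Complex.coe_smul, Complex.coe_smul]

/-- a wide matrix has a kernel -/
theorem TwoPc_ker {n : ℕ} (hn : 1 ≤ n) (a : Fin n → Fin n ⊕ Fin n → ℂ) :
    ∃ ξ : Fin n ⊕ Fin n → ℂ, ξ ≠ 0 ∧ ∀ k, ∑ j, a k j * ξ j = 0 := by
  have h1 : LinearMap.ker (Matrix.mulVecLin (Matrix.of a)) ≠ ⊥ := by
    apply LinearMap.ker_ne_bot_of_finrank_lt
    rw [Module.finrank_fintype_fun_eq_card, Module.finrank_fintype_fun_eq_card, Fintype.card_sum,
      Fintype.card_fin]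
    omega
  obtain ⟨ξ, h2, h3⟩ := Submodule.exists_mem_ne_zero_of_ne_bot h1
  refine ⟨ξ, h3, fun k => ?_⟩
  have h4 := congrFun (LinearMap.mem_ker.1 h2) k
  simpa [Matrix.mulVec, dotProduct] using h4

/-- the rank count -/
theorem TwoPc_rank {n : ℕ} (hn : 1 ≤ n) (a : Fin n → Fin n ⊕ Fin n → ℂ) {η : ℝ}
    (hη : η * (2 * n) < 1)
    (h : ∀ i j, ‖∑ k, star (a k i) * a k j - (if i = j then 1 else 0)‖ ≤ η) : False := by
  obtain ⟨ξ, hξ, hker⟩ := TwoPc_ker hn a
  have hne : (Finset.univ : Finset (Fin n ⊕ Fin n)).Nonempty := ⟨Sum.inl ⟨0, by omega⟩, Finset.mem_univ _⟩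
  obtain ⟨i₀, -, hi₀⟩ := Finset.exists_max_image Finset.univ (fun i => ‖ξ i‖) hne
  have hpos : 0 < ‖ξ i₀‖ := by
    by_contra h0
    apply hξ
    funext i
    have h1 := hi₀ i (Finset.mem_univ i)
    have h2 := norm_nonneg (ξ i)
    exact norm_eq_zero.1 (by push Not at h0; linarith)
  have h1 : ∑ j, (∑ k, star (a k i₀) * a k j) * ξ j = 0 := by
    simp_rw [Finset.sum_mul]
    rw [Finset.sum_comm]
    refine Finset.sum_eq_zero fun k _ => ?_
    simp_rw [mul_assoc]
    rw [← Finset.mul_sum, hker k, mul_zero]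
  have h2 : ∑ j, (∑ k, star (a k i₀) * a k j - (if i₀ = j then 1 else 0)) * ξ j = -ξ i₀ := by
    simp_rw [sub_mul]
    rw [Finset.sum_sub_distrib, h1]
    simp
  have h3 : ‖ξ i₀‖ ≤ η * (2 * n) * ‖ξ i₀‖ := by
    calc ‖ξ i₀‖ = ‖∑ j, (∑ k, star (a k i₀) * a k j - (if i₀ = j then 1 else 0)) * ξ j‖ := by
          rw [h2, norm_neg]
      _ ≤ ∑ j, ‖(∑ k, star (a k i₀) * a k j - (if i₀ = j then 1 else 0)) * ξ j‖ := norm_sum_le _ _
      _ ≤ ∑ _j : Fin n ⊕ Fin n, η * ‖ξ i₀‖ := by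
          refine Finset.sum_le_sum fun j _ => ?_
          rw [norm_mul]
          exact mul_le_mul (h i₀ j) (hi₀ j (Finset.mem_univ j)) (norm_nonneg _)
            ((norm_nonneg _).trans (h i₀ j))
      _ = η * (2 * n) * ‖ξ i₀‖ := by
          rw [Finset.sum_const, Finset.card_univ, Fintype.card_sum, Fintype.card_fin, nsmul_eq_mul]
          push_cast
          ring
  nlinarith

theorem two_pieces (π : E →⋆ₐ[ℂ] F) {h : E} (h0 : 0 ≤ h) (hπ : π h ≠ 0) {n : ℕ} (hn : 1 ≤ n)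
    (hc : CLe (Dg (Fin n ⊕ Fin n) h) (Dg (Fin n) h)) :
    ∃ b₁ ∈ Hr h, ∃ b₂ ∈ Hr h, 0 ≤ b₁ ∧ 0 ≤ b₂ ∧ b₁ * b₂ = 0 ∧ π b₁ ≠ 0 ∧ π b₂ ≠ 0 := by
  by_contra hcon
  have hspec : ∀ y ∈ Hr h, IsSelfAdjoint y → ∀ s ∈ spectrum ℝ (π y), ∀ t ∈ spectrum ℝ (π y),
      s ≠ 0 → t ≠ 0 → s = t := by
    intro y hy hs s h1 t h2 hs0 ht0
    by_contra hst
    exact hcon (two_of_spec π hy hs hs0 ht0 hst h1 h2)
  obtain ⟨τ, p, hτ, hp0, hps, hpp, hph, hsc⟩ := corner_scalar π h0 hπ hspec
  choose χ hχ using hsc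
  have hpn : ‖p‖ = 1 := TwoPc_norm hp0 hps hpp
  have hn0 : (0 : ℝ) < n := by exact_mod_cast hn
  set ε : ℝ := τ / (4 * n) with hε
  have hε0 : 0 < ε := by positivity
  have hstar : ∀ x : E, p * π (star x) * p = star (χ x) • p := by
    intro x
    have h1 := congrArg star (hχ x)
    rw [star_mul, star_mul, hps, star_smul, hps, ← map_star, ← mul_assoc] at h1
    exact h1
  obtain ⟨X, hX⟩ : ∃ X : Matrix (Fin n) (Fin n ⊕ Fin n) E,
      ∀ i j, ‖(X.conjTranspose * Dg (Fin n) h * X - Dg (Fin n ⊕ Fin n) h) i j‖ < ε := by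
    have hopen : IsOpen {M : Matrix (Fin n ⊕ Fin n) (Fin n ⊕ Fin n) E |
        ∀ i j, ‖(M - Dg (Fin n ⊕ Fin n) h) i j‖ < ε} := by
      simp only [Set.ofPred_forall]
      refine isOpen_iInter_of_finite fun i => isOpen_iInter_of_finite fun j => ?_
      refine isOpen_lt ?_ continuous_const
      exact ((continuous_apply_apply i j).comp (continuous_id.sub continuous_const)).norm
    obtain ⟨M, hM, X, rfl⟩ := mem_closure_iff.1 hc _ hopen (fun i j => by
      rw [sub_self]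
      simpa using hε0)
    exact ⟨X, hM⟩
  refine TwoPc_rank hn (fun k j => χ (X k j)) (η := ε / τ) ?_ fun i j => ?_
  · rw [hε]
    field_simp
    norm_num
  · have h1 : p * π ((X.conjTranspose * Dg (Fin n) h * X - Dg (Fin n ⊕ Fin n) h) i j) * p =
        ((τ : ℂ) * (∑ k, star (χ (X k i)) * χ (X k j) - (if i = j then 1 else 0))) • p := by
      have h2 : (X.conjTranspose * Dg (Fin n) h * X - Dg (Fin n ⊕ Fin n) h) i j =
          ∑ k, star (X k i) * h * X k j - (if i = j then h else 0) := by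
        simp only [Dg]
        rw [Matrix.sub_apply, Matrix.mul_apply, Matrix.diagonal_apply]
        simp only [Matrix.mul_diagonal, Matrix.conjTranspose_apply]
      have h3 : ∀ k, p * π (star (X k i) * h * X k j) * p =
          ((τ : ℂ) * (star (χ (X k i)) * χ (X k j))) • p := by
        intro k
        calc p * π (star (X k i) * h * X k j) * p
            = (τ : ℂ) • ((p * π (star (X k i)) * p) * (p * π (X k j) * p)) := by
              rw [map_mul, map_mul, hph]
              simp only [mul_smul_comm, smul_mul_assoc]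
              congr 1
              calc p * (π (star (X k i)) * p * π (X k j)) * p
                  = p * π (star (X k i)) * p * (π (X k j) * p) := by noncomm_ring
                _ = p * π (star (X k i)) * (p * p) * (π (X k j) * p) := by rw [hpp]
                _ = p * π (star (X k i)) * p * (p * π (X k j) * p) := by noncomm_ring
          _ = ((τ : ℂ) * (star (χ (X k i)) * χ (X k j))) • p := by
              rw [hstar, hχ, smul_mul_smul_comm, hpp, smul_smul]
      have h4 : p * π (if i = j then h else 0) * p = ((τ : ℂ) * (if i = j then 1 else 0)) • p := by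
        split_ifs
        · rw [hph, mul_smul_comm, smul_mul_assoc, hpp, hpp, mul_one]
        · rw [map_zero, mul_zero, zero_mul, mul_zero, zero_smul]
      rw [h2, map_sub, mul_sub, sub_mul, h4, map_sum, Finset.mul_sum, Finset.sum_mul,
        Finset.sum_congr rfl fun k _ => h3 k, ← Finset.sum_smul, ← sub_smul, ← Finset.mul_sum,
        ← mul_sub]
    have h2 : ‖p * π ((X.conjTranspose * Dg (Fin n) h * X - Dg (Fin n ⊕ Fin n) h) i j) * p‖ ≤ ε := by
      calc ‖p * π ((X.conjTranspose * Dg (Fin n) h * X - Dg (Fin n ⊕ Fin n) h) i j) * p‖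
          ≤ ‖p‖ * ‖π ((X.conjTranspose * Dg (Fin n) h * X - Dg (Fin n ⊕ Fin n) h) i j)‖ * ‖p‖ :=
            norm_mul₃_le
        _ = ‖π ((X.conjTranspose * Dg (Fin n) h * X - Dg (Fin n ⊕ Fin n) h) i j)‖ := by
            rw [hpn, one_mul, mul_one]
        _ ≤ ‖(X.conjTranspose * Dg (Fin n) h * X - Dg (Fin n ⊕ Fin n) h) i j‖ := pi_norm π _
        _ ≤ ε := (hX i j).le
    rw [h1, norm_smul, hpn, mul_one, norm_mul, Complex.norm_real, Real.norm_of_nonneg hτ.le] at h2
    rw [le_div_iff₀ hτ, mul_comm]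
    exact h2

end P133
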