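import Vale.Agent.Lib.P133.CombA
import Vale.Agent.Lib.P133.Gen
import Vale.Agent.Lib.P133.Zorn

/-!
# P133, module WtoP: weakly purely infinite implies purely infinite

* `iter_half`: induction on `k`: `k = 0`: `b = h`.  Step: `comb_sq` for `b` and `T` gives `x`, `b' = star x * x ∈ P` (`hr_mem_ideal`),
  `b' ∉ R` (`cid_of_star_mul`), `half`: `Dg (Fin 2) b' ≾ Dg (Fin 1) b`, `cle_dg_double` with `m = 2 ^ k`, `cle_trans`.
* `wp_one`: `h ∈ P`, `0 ≤ h`; `cle_dg_lim`: for `ε > 0`: `T` from `exists_primeSet`, `b` from `iter_half` with `2 ^ k ≥ 2 n`;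
  `cut ε h` is in every closed ideal containing `b` (`gen`), `cle_of_ideal`: `Dg (Fin 1) (cut ε h) ≾ Dg (Fin n) b`, `cle_sum`,
  `dg_sum`: `Dg (Fin 1 ⊕ Fin 1) (cut ε h) ≾ Dg (Fin n ⊕ Fin n) b ≾ Dg (Fin (2 ^ k)) b ≾ Dg (Fin 1) h` (`cle_dg_emb`).
-/

open scoped Topology

namespace P133

universe u

attribute [local instance] CStarAlgebra.spectralOrder CStarAlgebra.spectralOrderedRing

variable {E : Type u} [CStarAlgebra E]

theorem iter_half {P : Ideal E} (hP : CId P) {n : ℕ} (hn : 1 ≤ n) (hW : WP P n)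
    (T : Finset (Ideal E)) (hT : ∀ R ∈ T, CId R ∧ R ≤ P ∧ PrimeI P R) {h : E} (hh : h ∈ P)
    (h0 : 0 ≤ h) (hhT : ∀ R ∈ T, h ∉ R) (k : ℕ) :
    ∃ b ∈ P, 0 ≤ b ∧ (∀ R ∈ T, b ∉ R) ∧ CLe (Dg (Fin (2 ^ k)) b) (Dg (Fin 1) h) := by
  induction k with
  | zero => exact ⟨h, hh, h0, hhT, cle_dg_le (by simp) h⟩
  | succ k ih =>
    obtain ⟨b, hb, b0, hbT, hc⟩ := ih
    obtain ⟨x, hx, hxx, hxT⟩ := comb_sq hP hn hW T hT hb b0 hbT
    refine ⟨star x * x, P.mul_mem_left _ (hr_mem_ideal hP hb hx), star_mul_self_nonneg x,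
      fun R hR hmem => hxT R hR (cid_of_star_mul (hT R hR).1 hmem), ?_⟩
    have h1 : CLe (Dg (Fin (2 ^ (k + 1))) (star x * x)) (Dg (Fin (2 * 2 ^ k)) (star x * x)) :=
      cle_dg_le (le_of_eq (pow_succ' 2 k)) _
    exact cle_trans h1 (cle_trans (cle_dg_double (half b0 hx hxx) (2 ^ k)) hc)

theorem wp_one {P : Ideal E} (hP : CId P) (hN : FinMax P) {n : ℕ} (hn : 1 ≤ n) (hW : WP P n) :
    WP P 1 := by
  intro h hh h0
  refine cle_dg_lim h0 fun ε hε => ?_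
  obtain ⟨T, hT⟩ := exists_primeSet hP hN hh h0 hε
  have hT' : ∀ R ∈ T, CId R ∧ R ≤ P ∧ PrimeI P R :=
    fun R hR => ⟨hT.cid R hR, hT.le R hR, hT.prime R hR⟩
  obtain ⟨b, hb, b0, hbT, hc⟩ := iter_half hP hn hW T hT' hh h0 hT.not_mem (2 * n)
  have h1 : CLe (Dg (Fin 1) (cut ε h)) (Dg (Fin n) b) :=
    cle_of_ideal hn hW (cut_nonneg ε h) b0 hb fun R hR hbR => hT.gen b hb hbT R hR hbR
  have h2 : CLe (Dg (Fin 1 ⊕ Fin 1) (cut ε h)) (Dg (Fin n ⊕ Fin n) b) := by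
    rw [dg_sum, dg_sum]
    exact cle_sum h1 h1
  have h3 : CLe (Dg (Fin n ⊕ Fin n) b) (Dg (Fin (n + n)) b) :=
    cle_dg_emb (finSumFinEquiv (m := n) (n := n)).toEmbedding b
  have h4 : CLe (Dg (Fin (n + n)) b) (Dg (Fin (2 ^ (2 * n))) b) := by
    refine cle_dg_le ?_ b
    have := (Nat.lt_two_pow_self (n := 2 * n)).le
    omega
  exact cle_trans h2 (cle_trans h3 (cle_trans h4 hc))

end P133
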